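import Crest.Agent.R213.Defs

/-!
# Row 213, part B (regularity of weak solutions): shared definitions of part B
-/

set_option autoImplicit false

open Set MeasureTheory Filter Topology

noncomputable section

namespace Crest.Agent.R213.B

/-- the weighted measure `x⁹ dx` on `(0,L)` -/
def mu (L : ℝ) : Measure ℝ :=
  (volume.restrict (Ioo 0 L)).withDensity (fun x => ENNReal.ofReal (x ^ 9))

/-- the real Hilbert space `L²((0,L), x⁹dx)` -/
abbrev HL (L : ℝ) : Type := Lp ℝ 2 (mu L)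

/-- second derivative on `[0,L]` (one-sided at the ends) of a function of `x` -/
def dd (L : ℝ) (u : ℝ → ℝ) : ℝ → ℝ :=
  fun x => derivWithin (fun y => derivWithin u (Icc 0 L) y) (Icc 0 L) x

/-- `(U,Z)` is in the closure of `{(u, x(1-x/L)u'')}`, `u` smooth on `[0,L]`, in `L²(x⁹dx)²`. -/
def InV (L : ℝ) (U Z : ℝ → ℝ) : Prop :=
  ∃ u : ℕ → ℝ → ℝ, (∀ k, ContDiffOn ℝ (⊤ : ℕ∞) (u k) (Icc 0 L)) ∧
    Tendsto (fun k => ∫⁻ x, ENNReal.ofReal ((u k x - U x) ^ 2) ∂(mu L)) atTop (𝓝 0) ∧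
    Tendsto (fun k => ∫⁻ x, ENNReal.ofReal ((x * (1 - x / L) * dd L (u k) x - Z x) ^ 2) ∂(mu L))
      atTop (𝓝 0)

end Crest.Agent.R213.B
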