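import Crest.Agent.R213.B.Curve
import Crest.Agent.R213.B.BDefs
import Mathlib

/-!
# Row 213, part B: the weighted space `H = L²((0,L); x⁹dx)`, the graph space `V`
-/

set_option autoImplicit false

open Set MeasureTheory Filter Topology
open scoped BoundedContinuousFunction RealInnerProductSpace ENNReal

noncomputable section

namespace Crest.Agent.R213.B

theorem measurable_w : Measurable (fun x : ℝ => ENNReal.ofReal (x ^ 9)) := by fun_prop

instance (L : ℝ) : IsFiniteMeasure (mu L) := by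
  refine ⟨?_⟩
  unfold mu
  rw [withDensity_apply _ MeasurableSet.univ, Measure.restrict_univ]
  calc ∫⁻ x in Ioo 0 L, ENNReal.ofReal (x ^ 9)
      ≤ ∫⁻ x in Ioo 0 L, ENNReal.ofReal (|L| ^ 9) := by
        refine setLIntegral_mono measurable_const fun x hx => ?_
        apply ENNReal.ofReal_le_ofReal
        have h1 : x ≤ |L| := hx.2.le.trans (le_abs_self L)
        exact pow_le_pow_left₀ hx.1.le h1 9
    _ < ⊤ := by
        rw [setLIntegral_const]
        exact ENNReal.mul_lt_top ENNReal.ofReal_lt_top (by simp)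

theorem ae_mu_mem (L : ℝ) : ∀ᵐ x ∂(mu L), x ∈ Ioo 0 L := by
  have h : mu L ≪ volume.restrict (Ioo 0 L) := withDensity_absolutelyContinuous _ _
  exact h.ae_le (ae_restrict_mem measurableSet_Ioo)

/-- a.e. w.r.t. `mu` is the same as a.e. on `(0,L)`. -/
theorem ae_mu_iff {L : ℝ} {p : ℝ → Prop} :
    (∀ᵐ x ∂(mu L), p x) ↔ ∀ᵐ x ∂(volume.restrict (Ioo 0 L)), p x := by
  constructor
  · intro h
    unfold mu at h
    rw [ae_withDensity_iff measurable_w] at h
    filter_upwards [h, ae_restrict_mem measurableSet_Ioo] with x hx hx2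
    apply hx
    rw [ne_eq, ENNReal.ofReal_eq_zero, not_le]
    exact pow_pos hx2.1 9
  · intro h
    have h2 : mu L ≪ volume.restrict (Ioo 0 L) := withDensity_absolutelyContinuous _ _
    exact h2.ae_le h

theorem integral_mu (L : ℝ) (F : ℝ → ℝ) :
    ∫ x, F x ∂(mu L) = ∫ x in Ioo 0 L, x ^ 9 * F x := by
  unfold mu
  rw [integral_withDensity_eq_integral_toReal_smul measurable_w
    (Eventually.of_forall fun _ => ENNReal.ofReal_lt_top)]
  refine setIntegral_congr_fun measurableSet_Ioo fun x hx => ?_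
  simp only [smul_eq_mul]
  rw [ENNReal.toReal_ofReal (pow_nonneg hx.1.le 9)]

theorem lintegral_mu (L : ℝ) {F : ℝ → ℝ≥0∞} (hF : AEMeasurable F (volume.restrict (Ioo 0 L))) :
    ∫⁻ x, F x ∂(mu L) = ∫⁻ x in Ioo 0 L, ENNReal.ofReal (x ^ 9) * F x := by
  unfold mu
  rw [lintegral_withDensity_eq_lintegral_mul₀ measurable_w.aemeasurable hF]
  rfl

/-- `L²` functions as elements of `H` (zero if not in `L²`). -/
def toHL (L : ℝ) (f : ℝ → ℝ) : HL L :=
  open Classical in if h : MemLp f 2 (mu L) then h.toLp f else 0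

theorem toHL_eq {L : ℝ} {f : ℝ → ℝ} (h : MemLp f 2 (mu L)) : toHL L f = h.toLp f := by
  unfold toHL
  rw [dif_pos h]

theorem coe_toHL {L : ℝ} {f : ℝ → ℝ} (h : MemLp f 2 (mu L)) : toHL L f =ᵐ[mu L] f := by
  rw [toHL_eq h]
  exact h.coeFn_toLp

theorem memLp_ex {L : ℝ} (f : ℝ →ᵇ ℝ) : MemLp f 2 (mu L) := by
  have h := BoundedContinuousFunction.coeFn_toLp (p := 2) (mu L) ℝ f
  exact (memLp_congr_ae h).1 (Lp.memLp _)

theorem memLp_of_continuousOn {L : ℝ} (hL : 0 < L) {f : ℝ → ℝ} (hf : ContinuousOn f (Icc 0 L)) :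
    MemLp f 2 (mu L) := by
  refine (memLp_congr_ae ?_).1 (memLp_ex (L := L) (ex L f))
  filter_upwards [ae_mu_mem L] with x hx
  exact ex_apply_mem hL.le hf (Ioo_subset_Icc_self hx)

theorem toHL_ex {L : ℝ} (hL : 0 < L) {f : ℝ → ℝ} (hf : ContinuousOn f (Icc 0 L)) :
    toHL L f = BoundedContinuousFunction.toLp 2 (mu L) ℝ (ex L f) := by
  have h2 := memLp_of_continuousOn hL hf
  apply Lp.ext
  refine (coe_toHL h2).trans ?_
  refine EventuallyEq.trans ?_ (BoundedContinuousFunction.coeFn_toLp (p := 2) (mu L) ℝ _).symm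
  filter_upwards [ae_mu_mem L] with x hx
  exact (ex_apply_mem hL.le hf (Ioo_subset_Icc_self hx)).symm

theorem inner_toHL {L : ℝ} {f g : ℝ → ℝ} (hf : MemLp f 2 (mu L)) (hg : MemLp g 2 (mu L)) :
    ⟪toHL L f, toHL L g⟫ = ∫ x in Ioo 0 L, x ^ 9 * (f x * g x) := by
  rw [L2.inner_def, ← integral_mu L (fun x => f x * g x)]
  refine integral_congr_ae ?_
  filter_upwards [coe_toHL hf, coe_toHL hg] with x h1 h2
  rw [h1, h2]
  simp [mul_comm]

theorem inner_HL {L : ℝ} (f g : HL L) :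
    ⟪f, g⟫ = ∫ x in Ioo 0 L, x ^ 9 * (f x * g x) := by
  rw [L2.inner_def, ← integral_mu L (fun x => f x * g x)]
  refine integral_congr_ae ?_
  filter_upwards with x
  simp [mul_comm]

/-- multiplication operators -/
def mulL (L : ℝ) : (ℝ →ᵇ ℝ) →L[ℝ] (HL L →L[ℝ] HL L) :=
  ((ContinuousLinearMap.mul ℝ ℝ).holderL (mu L) ⊤ 2 2) ∘L
    (BoundedContinuousFunction.toLp ⊤ (mu L) ℝ)

theorem coe_mulL {L : ℝ} (a : ℝ →ᵇ ℝ) (f : HL L) :
    mulL L a f =ᵐ[mu L] fun x => a x * f x := by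
  have h := ContinuousLinearMap.coeFn_holder (ContinuousLinearMap.mul ℝ ℝ) (r := 2)
    (BoundedContinuousFunction.toLp ⊤ (mu L) ℝ a) f
  refine EventuallyEq.trans (f := mulL L a f) ?_ ?_ (g := fun x =>
    (BoundedContinuousFunction.toLp ⊤ (mu L) ℝ a) x * f x)
  · exact h
  · filter_upwards [BoundedContinuousFunction.coeFn_toLp (p := ⊤) (mu L) ℝ a] with x hx
    rw [hx]

theorem mulL_symm {L : ℝ} (a : ℝ →ᵇ ℝ) (f g : HL L) : ⟪mulL L a f, g⟫ = ⟪f, mulL L a g⟫ := by
  rw [L2.inner_def, L2.inner_def]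
  refine integral_congr_ae ?_
  filter_upwards [coe_mulL a f, coe_mulL a g] with x h1 h2
  rw [h1, h2]
  simp
  ring

theorem mulL_coercive {L c : ℝ} {a : ℝ →ᵇ ℝ} (ha : ∀ x ∈ Ioo 0 L, c ≤ a x) (f : HL L) :
    c * ‖f‖ ^ 2 ≤ ⟪mulL L a f, f⟫ := by
  have e : ‖f‖ ^ 2 = ∫ x, f x * f x ∂(mu L) := by
    rw [← real_inner_self_eq_norm_sq, L2.inner_def]
    rfl
  rw [e, L2.inner_def, ← integral_const_mul]
  have hint : Integrable (fun x => f x * f x) (mu L) := by
    have := L2.integrable_inner (𝕜 := ℝ) f f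
    exact this
  refine integral_mono_ae (hint.const_mul c) (L2.integrable_inner (𝕜 := ℝ) (mulL L a f) f) ?_
  filter_upwards [coe_mulL a f, ae_mu_mem L] with x h1 hx
  rw [h1]
  have h2 := ha x hx
  have h3 : (⟪a x * f x, f x⟫ : ℝ) = a x * (f x * f x) := by simp; ring
  rw [h3]
  exact mul_le_mul_of_nonneg_right h2 (mul_self_nonneg _)

theorem mulL_toHL {L : ℝ} (hL : 0 < L) {a f : ℝ → ℝ} (ha : ContinuousOn a (Icc 0 L))
    (hf : MemLp f 2 (mu L)) :
    MemLp (fun x => a x * f x) 2 (mu L) ∧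
      mulL L (ex L a) (toHL L f) = toHL L (fun x => a x * f x) := by
  have h1 : mulL L (ex L a) (toHL L f) =ᵐ[mu L] fun x => a x * f x := by
    filter_upwards [coe_mulL (ex L a) (toHL L f), coe_toHL hf, ae_mu_mem L] with x h1 h2 h3
    rw [h1, h2, ex_apply_mem hL.le ha (Ioo_subset_Icc_self h3)]
  have h2 : MemLp (fun x => a x * f x) 2 (mu L) := (memLp_congr_ae h1).1 (Lp.memLp _)
  refine ⟨h2, Lp.ext (h1.trans (coe_toHL h2).symm)⟩

/-! ### the graph space -/

/-- `x (1 - x/L)` -/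
def phi0 (L x : ℝ) : ℝ := x * (1 - x / L)

theorem continuous_phi0 (L : ℝ) : Continuous (phi0 L) := by
  unfold phi0; fun_prop

/-- the generating set of the graph -/
def G0 (L : ℝ) : Set (WithLp 2 (HL L × HL L)) :=
  {z | ∃ p : ℝ → ℝ, ContDiffOn ℝ (⊤ : ℕ∞) p (Icc 0 L) ∧
    z = WithLp.toLp 2 (toHL L p, toHL L (fun x => phi0 L x * dd L p x))}

/-- the graph space -/
def VS (L : ℝ) : Submodule ℝ (WithLp 2 (HL L × HL L)) :=
  (Submodule.span ℝ (G0 L)).topologicalClosure

/-- the graph space as a type -/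
abbrev VL (L : ℝ) : Type := VS L

instance (L : ℝ) : CompleteSpace (VL L) :=
  (Submodule.isClosed_topologicalClosure _).completeSpace_coe

def JL (L : ℝ) : VL L →L[ℝ] HL L := (WithLp.fstL 2 ℝ (HL L) (HL L)) ∘L (VS L).subtypeL

def BL (L : ℝ) : VL L →L[ℝ] HL L := (WithLp.sndL 2 ℝ (HL L) (HL L)) ∘L (VS L).subtypeL

theorem JL_apply {L : ℝ} (v : VL L) : JL L v = (v : WithLp 2 (HL L × HL L)).fst := rfl

theorem BL_apply {L : ℝ} (v : VL L) : BL L v = (v : WithLp 2 (HL L × HL L)).snd := rfl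

theorem norm_VL {L : ℝ} (v : VL L) : ‖v‖ ^ 2 = ‖JL L v‖ ^ 2 + ‖BL L v‖ ^ 2 := by
  have := WithLp.prod_norm_sq_eq_of_L2 (v : WithLp 2 (HL L × HL L))
  exact this

/-- the element of `V` given by a smooth function -/
def smV (L : ℝ) (p : ℝ → ℝ) (hp : ContDiffOn ℝ (⊤ : ℕ∞) p (Icc 0 L)) : VL L :=
  ⟨WithLp.toLp 2 (toHL L p, toHL L (fun x => phi0 L x * dd L p x)),
    Submodule.le_topologicalClosure _ (Submodule.subset_span ⟨p, hp, rfl⟩)⟩

theorem JL_smV {L : ℝ} (p : ℝ → ℝ) (hp : ContDiffOn ℝ (⊤ : ℕ∞) p (Icc 0 L)) :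
    JL L (smV L p hp) = toHL L p := rfl

theorem BL_smV {L : ℝ} (p : ℝ → ℝ) (hp : ContDiffOn ℝ (⊤ : ℕ∞) p (Icc 0 L)) :
    BL L (smV L p hp) = toHL L (fun x => phi0 L x * dd L p x) := rfl

/-- density principle: two continuous linear functionals on `V` agreeing on smooth functions. -/
theorem VL_ext {L : ℝ} {E : Type*} [NormedAddCommGroup E] [NormedSpace ℝ E]
    (F G : VL L →L[ℝ] E)
    (h : ∀ p (hp : ContDiffOn ℝ (⊤ : ℕ∞) p (Icc 0 L)), F (smV L p hp) = G (smV L p hp))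
    (v : VL L) : F v = G v := by
  -- the set where they agree
  have hcl : IsClosed {v : VL L | F v = G v} := isClosed_eq F.continuous G.continuous
  have hd : Dense ((fun v : VL L => (v : WithLp 2 (HL L × HL L))) ⁻¹'
      (Submodule.span ℝ (G0 L) : Set (WithLp 2 (HL L × HL L)))) := by
    rw [dense_iff_closure_eq, Topology.IsInducing.subtypeVal.closure_eq_preimage_closure_image]
    ext v
    simp only [mem_preimage, mem_univ, iff_true]
    have h1 : (v : WithLp 2 (HL L × HL L)) ∈ closure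
        (Submodule.span ℝ (G0 L) : Set (WithLp 2 (HL L × HL L))) := v.2
    refine closure_mono ?_ h1
    intro z hz
    exact ⟨⟨z, Submodule.le_topologicalClosure _ hz⟩, hz, rfl⟩
  have hsub : (fun v : VL L => (v : WithLp 2 (HL L × HL L))) ⁻¹'
      (Submodule.span ℝ (G0 L) : Set (WithLp 2 (HL L × HL L))) ⊆ {v : VL L | F v = G v} := by
    rintro ⟨z, hz⟩ hz2
    simp only [mem_preimage] at hz2
    show F ⟨z, hz⟩ = G ⟨z, hz⟩
    have key : ∀ z (hz2 : z ∈ Submodule.span ℝ (G0 L)) (hz : z ∈ VS L),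
        F ⟨z, hz⟩ = G ⟨z, hz⟩ := by
      intro z hz2
      induction hz2 using Submodule.span_induction with
      | mem z hz =>
        rintro hz'
        obtain ⟨p, hp, rfl⟩ := hz
        exact h p hp
      | zero =>
        intro hz'
        have : (⟨0, hz'⟩ : VL L) = 0 := rfl
        rw [this, map_zero, map_zero]
      | add a b ha hb iha ihb =>
        intro hz'
        have ha' : a ∈ VS L := Submodule.le_topologicalClosure _ ha
        have hb' : b ∈ VS L := Submodule.le_topologicalClosure _ hb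
        have : (⟨a + b, hz'⟩ : VL L) = ⟨a, ha'⟩ + ⟨b, hb'⟩ := rfl
        rw [this, map_add, map_add, iha ha', ihb hb']
      | smul c a ha iha =>
        intro hz'
        have ha' : a ∈ VS L := Submodule.le_topologicalClosure _ ha
        have : (⟨c • a, hz'⟩ : VL L) = c • ⟨a, ha'⟩ := rfl
        rw [this, map_smul, map_smul, iha ha']
    exact key z hz2 hz
  have : v ∈ closure {v : VL L | F v = G v} := closure_mono hsub (hd v)
  rwa [hcl.closure_eq] at this

end Crest.Agent.R213.B
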