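import Crest.Agent.R213.B.BDefs

/-!
# Row 213, part B: interface (all `sorry`; NEVER import from a proof file)

B1 = `Crest.Agent.R213.B.time_reg` (helper418, statement in `TimeRegIface.lean`; `abstract_reg` below is an
equivalent one-space form), B2 = `Conc.lean` (helper153); B1 + B2 → `time_reg_conc` (helper182);
`pt_family` (helper80) + `point_boot` (helper962) → `space_boot`; `time_reg_conc` + `space_boot` → `reg`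
(helper182).
-/

set_option autoImplicit false

open Set MeasureTheory Filter Topology
open scoped RealInnerProductSpace

noncomputable section

namespace Crest.Agent.R213.B

/-- B1 (helper182): abstract parabolic regularity in one Hilbert space. `(J δ)' = A δ - g` weakly,
`A + lam J` coercive, `J` symmetric. -/
theorem abstract_reg {V : Type*} [NormedAddCommGroup V] [InnerProductSpace ℝ V] [CompleteSpace V]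
    (J : V →L[ℝ] V) (hJ : ∀ u v : V, ⟪J u, v⟫ = ⟪u, J v⟫)
    (A : ℝ → V →L[ℝ] V) (hA : ContDiffOn ℝ (⊤ : ℕ∞) A (Ioo 0 1))
    {c lam : ℝ} (hc : 0 < c)
    (hco : ∀ τ ∈ Ioo (0 : ℝ) 1, ∀ v : V, c * ‖v‖ ^ 2 ≤ ⟪A τ v, v⟫ + lam * ⟪J v, v⟫)
    (g : ℝ → V) (hg : ContDiffOn ℝ (⊤ : ℕ∞) g (Ioo 0 1))
    (δ : ℝ → V) (hδ : ∀ a b : ℝ, 0 < a → b < 1 → MemLp δ 2 (volume.restrict (Icc a b)))
    (hw : ∀ θ : ℝ → ℝ, ContDiff ℝ (⊤ : ℕ∞) θ → HasCompactSupport θ → tsupport θ ⊆ Ioo 0 1 →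
      ∫ τ, deriv θ τ • J (δ τ) = - ∫ τ, θ τ • (A τ (δ τ) - g τ)) :
    ∃ δ' : ℝ → V, ContDiffOn ℝ (⊤ : ℕ∞) δ' (Ioo 0 1) ∧
      (∀ᵐ τ ∂(volume.restrict (Ioo (0 : ℝ) 1)), δ' τ = δ τ) ∧
      ∀ τ ∈ Ioo (0 : ℝ) 1, J (deriv δ' τ) = A τ (δ' τ) - g τ := by
  sorry

/-- B2: multiplication operators by smooth functions are smooth in the operator norm. -/
theorem mulOp_smooth {L : ℝ} (hL : 0 < L) {a : ℝ → ℝ → ℝ} (ha : Sm (Ioo 0 1) L a) :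
    ∃ M : ℝ → (HL L →L[ℝ] HL L), ContDiffOn ℝ (⊤ : ℕ∞) M (Ioo 0 1) ∧
      ∀ τ ∈ Ioo (0 : ℝ) 1, ∀ f : HL L, ∀ᵐ x ∂(mu L), (M τ f) x = a τ x * f x := by
  sorry

/-- B3: the energy space `V = closure {(u, x(1-x/L)u'')}` and the weak solution as a curve in it. -/
theorem energy_curve {c0 C0 : ℝ} {g : ℝ → ℝ} {L : ℝ} {φ m : ℝ → ℝ → ℝ} (hB : Bg c0 C0 g L φ m)
    (hc0 : 0 < c0)
    {κ : ℝ} {b δ : ℝ → ℝ → ℝ}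
    (hbm : Measurable (fun p : ℝ × ℝ => b p.1 p.2))
    (hdm : Measurable (fun p : ℝ × ℝ => δ p.1 p.2))
    (hb : N2 L (Wt κ) b < ⊤) (hd : N2 L (Wt' κ) δ < ⊤)
    (h1 : ∃ u : ℕ → ℝ → ℝ → ℝ, (∀ k, Tst L (u k)) ∧
          Tendsto (fun k => N2 L (Wt κ) (fun τ x => φ τ x * dx L (dx L (u k)) τ x - b τ x))
            atTop (𝓝 0) ∧
          Tendsto (fun k => N2 L (Wt' κ) (fun τ x => u k τ x - δ τ x)) atTop (𝓝 0)) :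
    ∃ U Z : ℝ → HL L,
      (∀ τ, InV L (U τ) (Z τ)) ∧
      (∀ a b : ℝ, 0 < a → b < 1 → MemLp U 2 (volume.restrict (Icc a b))) ∧
      (∀ a b : ℝ, 0 < a → b < 1 → MemLp Z 2 (volume.restrict (Icc a b))) ∧
      (∀ᵐ τ ∂(volume.restrict (Ioo (0 : ℝ) 1)),
        (∀ᵐ x ∂(mu L), (U τ) x = δ τ x) ∧ (∀ᵐ x ∂(mu L), m τ x * (Z τ) x = b τ x)) := by
  sorry

/-- time regularity: output of B1-B3, input of B4. -/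
theorem time_reg_conc {c0 C0 : ℝ} {g : ℝ → ℝ} {L : ℝ} {φ m : ℝ → ℝ → ℝ} (hB : Bg c0 C0 g L φ m)
    (hc0 : 0 < c0)
    {κ : ℝ} {E ht b δ : ℝ → ℝ → ℝ} (hE : Sm (Ioo 0 1) L E) (hh : Sm (Ioo 0 1) L ht)
    (hbm : Measurable (fun p : ℝ × ℝ => b p.1 p.2))
    (hdm : Measurable (fun p : ℝ × ℝ => δ p.1 p.2))
    (hb : N2 L (Wt κ) b < ⊤) (hd : N2 L (Wt' κ) δ < ⊤)
    (h1 : ∃ u : ℕ → ℝ → ℝ → ℝ, (∀ k, Tst L (u k)) ∧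
          Tendsto (fun k => N2 L (Wt κ) (fun τ x => φ τ x * dx L (dx L (u k)) τ x - b τ x))
            atTop (𝓝 0) ∧
          Tendsto (fun k => N2 L (Wt' κ) (fun τ x => u k τ x - δ τ x)) atTop (𝓝 0))
    (h2 : ∀ ψ, Tst L ψ →
          II L (fun τ x => x ^ 9 * (dt ψ τ x * δ τ x + φ τ x * dx L (dx L ψ) τ x * b τ x)) =
            II L (fun τ x => x ^ 9 * (E τ x * ψ τ x +
              (φ τ x * ht τ x) * φ τ x * dx L (dx L ψ) τ x))) :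
    ∃ U Z : ℝ → HL L, ContDiffOn ℝ (⊤ : ℕ∞) U (Ioo 0 1) ∧ ContDiffOn ℝ (⊤ : ℕ∞) Z (Ioo 0 1) ∧
      (∀ᵐ τ ∂(volume.restrict (Ioo (0 : ℝ) 1)),
        (∀ᵐ x ∂(mu L), (U τ) x = δ τ x) ∧ (∀ᵐ x ∂(mu L), m τ x * (Z τ) x = b τ x)) ∧
      (∀ τ ∈ Ioo (0 : ℝ) 1, InV L (U τ) (Z τ)) ∧
      (∀ τ ∈ Ioo (0 : ℝ) 1, ∀ ζ : ℝ → ℝ, ContDiffOn ℝ (⊤ : ℕ∞) ζ (Icc 0 L) →
        ∫ x, ζ x * (E τ x + (deriv U τ : HL L) x) ∂(mu L) =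
          ∫ x, (x * (1 - x / L) * dd L ζ x) *
            (m τ x ^ 2 * ((Z τ) x - x * (1 - x / L) * ht τ x)) ∂(mu L)) := by
  sorry

/-- B4a (helper80): from the smooth curves in `L²` to a pointwise family `D j = ∂_τ^j δ` on the OPEN strip
(representation of elements of `V` by `a + b (x - L/2) + ∫∫ Z/(ξ(1-ξ/L))`, identity with `Kint`, moments). -/
theorem pt_family {c0 C0 : ℝ} {g : ℝ → ℝ} {L : ℝ} {φ m : ℝ → ℝ → ℝ} (hB : Bg c0 C0 g L φ m)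
    (hc0 : 0 < c0) {E ht : ℝ → ℝ → ℝ} (hE : Sm (Ioo 0 1) L E) (hh : Sm (Ioo 0 1) L ht)
    {U Z : ℝ → HL L} (hU : ContDiffOn ℝ (⊤ : ℕ∞) U (Ioo 0 1))
    (hZ : ContDiffOn ℝ (⊤ : ℕ∞) Z (Ioo 0 1))
    (hV : ∀ τ ∈ Ioo (0 : ℝ) 1, InV L (U τ) (Z τ))
    (heq : ∀ τ ∈ Ioo (0 : ℝ) 1, ∀ ζ : ℝ → ℝ, ContDiffOn ℝ (⊤ : ℕ∞) ζ (Icc 0 L) →
        ∫ x, ζ x * (E τ x + (deriv U τ : HL L) x) ∂(mu L) =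
          ∫ x, (x * (1 - x / L) * dd L ζ x) *
            (m τ x ^ 2 * ((Z τ) x - x * (1 - x / L) * ht τ x)) ∂(mu L)) :
    ∃ D : ℕ → ℝ → ℝ → ℝ,
      (∀ j, ContinuousOn (fun p : ℝ × ℝ => D j p.1 p.2) (Ioo 0 1 ×ˢ Ioo 0 L)) ∧
      (∀ j, ∀ τ ∈ Ioo (0 : ℝ) 1, ∀ x ∈ Ioo 0 L,
        HasDerivAt (fun r => D j r x) (D (j + 1) τ x) τ) ∧
      (∀ j, ∀ a b : ℝ, 0 < a → b < 1 → ∃ C : ℝ, ∀ τ ∈ Icc a b,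
        IntegrableOn (fun x => x ^ 9 * (D j τ x) ^ 2) (Ioo 0 L) ∧
          ∫ x in Ioo 0 L, x ^ 9 * (D j τ x) ^ 2 ≤ C) ∧
      (∀ j, ∀ τ ∈ Ioo (0 : ℝ) 1, ContDiffOn ℝ 2 (D j τ) (Ioo 0 L)) ∧
      (∀ τ ∈ Ioo (0 : ℝ) 1, ∫ ξ in (0 : ℝ)..L, ξ ^ 9 * (E τ ξ + D 1 τ ξ) = 0) ∧
      (∀ τ ∈ Ioo (0 : ℝ) 1, ∫ ξ in (0 : ℝ)..L, ξ ^ 10 * (E τ ξ + D 1 τ ξ) = 0) ∧
      (∀ τ ∈ Ioo (0 : ℝ) 1, ∀ x ∈ Ioo 0 L,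
        x ^ 9 * φ τ x ^ 2 * (deriv (deriv (D 0 τ)) x - ht τ x) =
          Kint (fun ξ => E τ ξ + D 1 τ ξ) x) ∧
      (∀ τ ∈ Ioo (0 : ℝ) 1, ∀ᵐ x ∂(volume.restrict (Ioo 0 L)),
        D 0 τ x = (U τ) x ∧ x * (1 - x / L) * deriv (deriv (D 0 τ)) x = (Z τ) x) := by
  sorry

/-- B4b (helper962): pointwise bootstrap up to the boundary. -/
theorem point_boot {c0 C0 : ℝ} {g : ℝ → ℝ} {L : ℝ} {φ m : ℝ → ℝ → ℝ} (hB : Bg c0 C0 g L φ m)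
    (hc0 : 0 < c0) {E ht : ℝ → ℝ → ℝ} (hE : Sm (Ioo 0 1) L E) (hh : Sm (Ioo 0 1) L ht)
    {D : ℕ → ℝ → ℝ → ℝ}
    (hDc : ∀ j, ContinuousOn (fun p : ℝ × ℝ => D j p.1 p.2) (Ioo 0 1 ×ˢ Ioo 0 L))
    (hDt : ∀ j, ∀ τ ∈ Ioo (0 : ℝ) 1, ∀ x ∈ Ioo 0 L,
      HasDerivAt (fun r => D j r x) (D (j + 1) τ x) τ)
    (hD2 : ∀ j, ∀ a b : ℝ, 0 < a → b < 1 → ∃ C : ℝ, ∀ τ ∈ Icc a b,
      IntegrableOn (fun x => x ^ 9 * (D j τ x) ^ 2) (Ioo 0 L) ∧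
        ∫ x in Ioo 0 L, x ^ 9 * (D j τ x) ^ 2 ≤ C)
    (hDx : ∀ j, ∀ τ ∈ Ioo (0 : ℝ) 1, ContDiffOn ℝ 2 (D j τ) (Ioo 0 L))
    (hm0 : ∀ τ ∈ Ioo (0 : ℝ) 1, ∫ ξ in (0 : ℝ)..L, ξ ^ 9 * (E τ ξ + D 1 τ ξ) = 0)
    (hm1 : ∀ τ ∈ Ioo (0 : ℝ) 1, ∫ ξ in (0 : ℝ)..L, ξ ^ 10 * (E τ ξ + D 1 τ ξ) = 0)
    (heq : ∀ τ ∈ Ioo (0 : ℝ) 1, ∀ x ∈ Ioo 0 L,
      x ^ 9 * φ τ x ^ 2 * (deriv (deriv (D 0 τ)) x - ht τ x) =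
        Kint (fun ξ => E τ ξ + D 1 τ ξ) x) :
    ∃ δ' : ℝ → ℝ → ℝ, Sm (Ioo 0 1) L δ' ∧
      ∀ τ ∈ Ioo (0 : ℝ) 1, ∀ x ∈ Ioo 0 L, δ' τ x = D 0 τ x := by
  sorry

/-- B4 = B4a + B4b (assembly: helper182). -/
theorem space_boot {c0 C0 : ℝ} {g : ℝ → ℝ} {L : ℝ} {φ m : ℝ → ℝ → ℝ} (hB : Bg c0 C0 g L φ m)
    (hc0 : 0 < c0) {E ht : ℝ → ℝ → ℝ} (hE : Sm (Ioo 0 1) L E) (hh : Sm (Ioo 0 1) L ht)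
    {U Z : ℝ → HL L} (hU : ContDiffOn ℝ (⊤ : ℕ∞) U (Ioo 0 1))
    (hZ : ContDiffOn ℝ (⊤ : ℕ∞) Z (Ioo 0 1))
    (hV : ∀ τ ∈ Ioo (0 : ℝ) 1, InV L (U τ) (Z τ))
    (heq : ∀ τ ∈ Ioo (0 : ℝ) 1, ∀ ζ : ℝ → ℝ, ContDiffOn ℝ (⊤ : ℕ∞) ζ (Icc 0 L) →
        ∫ x, ζ x * (E τ x + (deriv U τ : HL L) x) ∂(mu L) =
          ∫ x, (x * (1 - x / L) * dd L ζ x) *
            (m τ x ^ 2 * ((Z τ) x - x * (1 - x / L) * ht τ x)) ∂(mu L)) :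
    ∃ δ' : ℝ → ℝ → ℝ, Sm (Ioo 0 1) L δ' ∧
      (∀ τ ∈ Ioo (0 : ℝ) 1, ∀ᵐ x ∂(volume.restrict (Ioo 0 L)),
        δ' τ x = (U τ) x ∧ x * (1 - x / L) * dx L (dx L δ') τ x = (Z τ) x) ∧
      ∀ τ ∈ Ioo (0 : ℝ) 1, ∀ x ∈ Icc 0 L,
        x ^ 9 * (φ τ x ^ 2 * dx L (dx L δ') τ x - φ τ x ^ 2 * ht τ x) =
          Kint (fun ξ => E τ ξ + dt δ' τ ξ) x := by
  sorry

end Crest.Agent.R213.B
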