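import Crest.Agent.R213.B.BootA
import Crest.Agent.R213.B.Asm

/-!
# Row 213, part B3b/B3c (helper962): the bootstrap theorem `boot`
-/

set_option autoImplicit false

open Set MeasureTheory Filter Topology
open scoped ContDiff BoundedContinuousFunction RealInnerProductSpace ENNReal

noncomputable section

namespace Crest.Agent.R213.B

variable {L y0 : ℝ} {s : Set ℝ}

/-- pointwise and `L²` time derivatives agree a.e. -/
theorem ae_deriv {D : ℝ → HL L} {D' : HL L} {τ : ℝ} (hτ : τ ∈ Ioo (0 : ℝ) 1)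
    (hD : HasDerivAt D D' τ) {δ : ℝ → ℝ → ℝ} {δ1 : ℝ → ℝ}
    (hae : ∀ σ ∈ Ioo (0 : ℝ) 1, ∀ᵐ x ∂(volume.restrict (Ioo 0 L)), D σ x = δ σ x)
    (hδ : ∀ x ∈ Ioo 0 L, HasDerivAt (fun r => δ r x) (δ1 x) τ) :
    ∀ᵐ x ∂(volume.restrict (Ioo 0 L)), D' x = δ1 x := by
  have h1τ : 0 < 1 - τ := by linarith [hτ.2]
  set h : ℕ → ℝ := fun n => (1 - τ) / ((n : ℝ) + 2) with hh
  have hpos : ∀ n, 0 < h n := fun n => by positivity
  have hlt : ∀ n, h n < 1 - τ := fun n => by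
    rw [hh]
    simp only
    refine div_lt_self h1τ ?_
    have : (0 : ℝ) ≤ n := n.cast_nonneg
    linarith
  have hmem : ∀ n, τ + h n ∈ Ioo (0 : ℝ) 1 := fun n =>
    ⟨by linarith [hτ.1, hpos n], by linarith [hlt n]⟩
  have h0 : Tendsto h atTop (𝓝 0) := by
    refine Tendsto.const_div_atTop ?_ _
    exact tendsto_atTop_add_const_right _ _ tendsto_natCast_atTop_atTop
  have hne : Tendsto h atTop (𝓝[≠] 0) :=
    tendsto_nhdsWithin_iff.2 ⟨h0, Eventually.of_forall fun n => (hpos n).ne'⟩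
  have hq : Tendsto (fun n => (h n)⁻¹ • (D (τ + h n) - D τ)) atTop (𝓝 D') :=
    hD.tendsto_slope_zero.comp hne
  have hm := tendstoInMeasure_of_tendsto_Lp hq
  obtain ⟨ns, hns, hlim⟩ := hm.exists_seq_tendsto_ae
  rw [← ae_mu_iff]
  have hall : ∀ᵐ x ∂(mu L), ∀ n, ((h n)⁻¹ • (D (τ + h n) - D τ) : HL L) x =
      (h n)⁻¹ * (δ (τ + h n) x - δ τ x) := by
    rw [ae_all_iff]
    intro n
    filter_upwards [Lp.coeFn_smul (h n)⁻¹ (D (τ + h n) - D τ), Lp.coeFn_sub (D (τ + h n)) (D τ),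
      ae_mu_iff.2 (hae _ (hmem n)), ae_mu_iff.2 (hae τ hτ)] with x h1 h2 h3 h4
    rw [h1, Pi.smul_apply, h2, Pi.sub_apply, h3, h4, smul_eq_mul]
  filter_upwards [hlim, hall, ae_mu_mem L] with x hx1 hx2 hx3
  have h5 : Tendsto (fun n => (h n)⁻¹ • (δ (τ + h n) x - δ τ x)) atTop (𝓝 (δ1 x)) :=
    (hδ x hx3).tendsto_slope_zero.comp hne
  have h6 := h5.comp hns.tendsto_atTop
  refine tendsto_nhds_unique hx1 (h6.congr fun i => ?_)
  simp only [Function.comp, smul_eq_mul]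
  exact (hx2 (ns i)).symm

theorem dprim_reflect (a b : ℝ → ℝ) (r : ℝ → ℝ → ℝ) (τ y : ℝ) :
    dprim (L / 2) a b r τ (L - y) =
      dprim (L / 2) a (fun τ => - b τ) (fun τ x => r τ (L - x)) τ y := by
  unfold dprim
  have h := intervalIntegral.integral_comp_sub_left (a := y) (b := L / 2)
    (fun x => ((L - y) - x) * r τ x) L
  have e1 : L - L / 2 = L / 2 := by ring
  rw [e1] at h
  rw [← h, intervalIntegral.integral_symm, ← intervalIntegral.integral_neg]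
  have e2 : ∫ x in (L / 2)..y, -((L - y - (L - x)) * r τ (L - x)) =
      ∫ x in (L / 2)..y, (y - x) * r τ (L - x) :=
    intervalIntegral.integral_congr fun x _ => by ring
  rw [e2]
  ring

theorem MN_reflect (hL : 0 < L) {F : ℝ → ℝ} (hF : IntervalIntegrable (fun x => x ^ 9 * F x) volume 0 L)
    (h0 : ∫ x in (0 : ℝ)..L, x ^ 9 * F x = 0) (h1 : ∫ x in (0 : ℝ)..L, x ^ 10 * F x = 0)
    {y : ℝ} (hy : 0 < y) (hyL : y ≤ L) :
    y ^ 2 * MN 0 (fun x => (L - x) ^ 9 * F (L - x)) y = Kint F (L - y) := by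
  have e1 := MN_eq 0 (fun x => (L - x) ^ 9 * F (L - x)) hy
  simp only [pow_zero, one_mul, zero_add] at e1
  rw [e1]
  set g : ℝ → ℝ := fun z => (z - (L - y)) * (z ^ 9 * F z) with hg
  have e2 : ∫ x in (0 : ℝ)..y, (y - x) * ((L - x) ^ 9 * F (L - x)) =
      ∫ x in (L - y)..L, g x := by
    have h := intervalIntegral.integral_comp_sub_left (a := (0 : ℝ)) (b := y) g L
    rw [sub_zero] at h
    rw [← h]
    refine intervalIntegral.integral_congr fun x _ => ?_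
    simp only [hg]
    ring
  have e3 : Kint F (L - y) = - ∫ x in (0 : ℝ)..(L - y), g x := by
    unfold Kint
    rw [← intervalIntegral.integral_neg]
    refine intervalIntegral.integral_congr fun x _ => ?_
    simp only [hg]
    ring
  have hgi : IntervalIntegrable g volume 0 L := hF.continuousOn_mul (by fun_prop)
  have e4 : ∫ x in (0 : ℝ)..L, g x = 0 := by
    have e5 : ∀ x, g x = x ^ 10 * F x - (L - y) * (x ^ 9 * F x) := fun x => by
      simp only [hg]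
      ring
    have hi : IntervalIntegrable (fun x => x ^ 10 * F x) volume 0 L := by
      have := hF.continuousOn_mul (g := fun x : ℝ => x) (by fun_prop)
      exact this.congr fun x _ => by
        ring
    simp_rw [e5]
    rw [intervalIntegral.integral_sub hi (hF.const_mul _), intervalIntegral.integral_const_mul,
      h0, h1]
    ring
  have hm : L - y ∈ Icc 0 L := ⟨by linarith, by linarith⟩
  have e6 := intervalIntegral.integral_add_adjacent_intervals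
    (ii_sub hgi (left_mem_Icc.2 hL.le) hm hL.le) (ii_sub hgi hm (right_mem_Icc.2 hL.le) hL.le)
  rw [e2, e3]
  linarith

theorem Sm_reflect {u : ℝ → ℝ → ℝ} (hu : Sm s L u) (h : y0 ≤ L) :
    Sm s y0 (fun τ y => u τ (L - y)) := by
  unfold Sm at hu ⊢
  exact ContDiffOn.comp (g := fun p : ℝ × ℝ => u p.1 p.2) (f := fun p : ℝ × ℝ => (p.1, L - p.2))
    hu (by fun_prop) (fun p hp => ⟨hp.1, ⟨by linarith [hp.2.2], by linarith [hp.2.1]⟩⟩)

theorem Sm_glue (hL : 0 < L) {u : ℝ → ℝ → ℝ} (h1 : Sm s (3 * L / 4) u)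
    (h2 : Sm s (3 * L / 4) (fun τ y => u τ (L - y))) : Sm s L u := by
  unfold Sm at h1 h2 ⊢
  have h3 : ContDiffOn ℝ (⊤ : ℕ∞) (fun p : ℝ × ℝ => u p.1 p.2) (s ×ˢ Icc (L / 4) L) := by
    have := ContDiffOn.comp (g := fun p : ℝ × ℝ => u p.1 (L - p.2))
      (f := fun p : ℝ × ℝ => (p.1, L - p.2)) (s := s ×ˢ Icc (L / 4) L) h2 (by fun_prop)
      (fun p hp => ⟨hp.1, ⟨by linarith [hp.2.2], by linarith [hp.2.1]⟩⟩)
    refine this.congr fun p _ => ?_
    simp only [Function.comp, sub_sub_cancel]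
  intro p hp
  rcases le_or_gt p.2 (L / 2) with h | h
  · refine (h1 p ⟨hp.1, ⟨hp.2.1, by linarith⟩⟩).mono_of_mem_nhdsWithin ?_
    have ho : {q : ℝ × ℝ | q.2 < 3 * L / 4} ∈ 𝓝 p :=
      (isOpen_lt continuous_snd continuous_const).mem_nhds (by
        show p.2 < 3 * L / 4
        linarith)
    filter_upwards [mem_nhdsWithin_of_mem_nhds ho, self_mem_nhdsWithin] with q hq1 hq2
    exact ⟨hq2.1, ⟨hq2.2.1, le_of_lt hq1⟩⟩
  · refine (h3 p ⟨hp.1, ⟨by linarith, hp.2.2⟩⟩).mono_of_mem_nhdsWithin ?_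
    have ho : {q : ℝ × ℝ | L / 4 < q.2} ∈ 𝓝 p :=
      (isOpen_lt continuous_const continuous_snd).mem_nhds (by
        show L / 4 < p.2
        linarith)
    filter_upwards [mem_nhdsWithin_of_mem_nhds ho, self_mem_nhdsWithin] with q hq1 hq2
    exact ⟨hq2.1, ⟨le_of_lt hq1, hq2.2.2⟩⟩

theorem dprim_hasDeriv2 {y1 : ℝ} {a b : ℝ → ℝ} {r : ℝ → ℝ → ℝ} {τ : ℝ}
    (hr : ContinuousOn (r τ) (Ioo 0 L)) (hy1 : y1 ∈ Ioo 0 L) {x : ℝ} (hx : x ∈ Ioo 0 L) :
    HasDerivAt (dprim y1 a b r τ) (b τ + ∫ t in y1..x, r τ t) x ∧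
      HasDerivAt (fun x => b τ + ∫ t in y1..x, r τ t) (r τ x) x := by
  have hsub : ∀ z ∈ Ioo 0 L, uIcc y1 z ⊆ Ioo 0 L := fun z hz =>
    ordConnected_Ioo.uIcc_subset hy1 hz
  have hi : ∀ z ∈ Ioo 0 L, ∀ {k : ℝ → ℝ}, ContinuousOn k (Ioo 0 L) →
      HasDerivAt (fun x => ∫ t in y1..x, k t) (k z) z := by
    intro z hz k hk
    refine intervalIntegral.integral_hasDerivAt_right
      ((hk.mono (hsub z hz)).intervalIntegrable) ?_ (hk.continuousAt (Ioo_mem_nhds hz.1 hz.2))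
    exact hk.stronglyMeasurableAtFilter isOpen_Ioo z hz
  refine ⟨?_, (hi x hx hr).const_add _⟩
  have hr2 : ContinuousOn (fun t => t * r τ t) (Ioo 0 L) := continuousOn_id.mul hr
  have e : ∀ z ∈ Ioo 0 L, dprim y1 a b r τ z =
      a τ + b τ * (z - y1) + (z * (∫ t in y1..z, r τ t) - ∫ t in y1..z, t * r τ t) := by
    intro z hz
    unfold dprim
    rw [← intervalIntegral.integral_const_mul, ← intervalIntegral.integral_sub]
    · congr 1
      exact intervalIntegral.integral_congr fun t _ => by ring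
    · exact ((hr.mono (hsub z hz)).intervalIntegrable).const_mul _
    · exact (hr2.mono (hsub z hz)).intervalIntegrable
  have h1 : HasDerivAt (fun z => a τ + b τ * (z - y1) +
      (z * (∫ t in y1..z, r τ t) - ∫ t in y1..z, t * r τ t))
      (b τ * 1 + ((1 * (∫ t in y1..x, r τ t) + x * r τ x) - x * r τ x)) x := by
    refine HasDerivAt.add ?_ (((hasDerivAt_id' x).mul (hi x hx hr)).sub (hi x hx hr2))
    exact (((hasDerivAt_id' x).sub_const y1).const_mul (b τ)).const_add (a τ)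
  have h2 : b τ * 1 + ((1 * (∫ t in y1..x, r τ t) + x * r τ x) - x * r τ x) =
      b τ + ∫ t in y1..x, r τ t := by ring
  rw [h2] at h1
  refine h1.congr_of_eventuallyEq ?_
  filter_upwards [Ioo_mem_nhds hx.1 hx.2] with z hz
  exact e z hz

theorem boot {c0 C0 : ℝ} {g : ℝ → ℝ} {φ m : ℝ → ℝ → ℝ} (hB : Bg c0 C0 g L φ m)
    (hc0 : 0 < c0) {E ht : ℝ → ℝ → ℝ} (hE : Sm (Ioo 0 1) L E) (hh : Sm (Ioo 0 1) L ht)
    {D : ℝ → HL L} (hD : ContDiffOn ℝ (⊤ : ℕ∞) D (Ioo 0 1)) {a b : ℝ → ℝ}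
    (ha : ContDiffOn ℝ (⊤ : ℕ∞) a (Ioo 0 1)) (hb : ContDiffOn ℝ (⊤ : ℕ∞) b (Ioo 0 1))
    (hrep : ∀ τ ∈ Ioo (0 : ℝ) 1, ∀ᵐ x ∂(volume.restrict (Ioo 0 L)),
        (D τ) x = a τ + b τ * (x - L / 2) + ∫ ξ in (L / 2)..x, (x - ξ) *
          (ht τ ξ + Kint (fun z => E τ z + (deriv D τ : HL L) z) ξ / (ξ ^ 9 * φ τ ξ ^ 2)))
    (hm0 : ∀ τ ∈ Ioo (0 : ℝ) 1, ∫ x in (0 : ℝ)..L, x ^ 9 * (E τ x + (deriv D τ : HL L) x) = 0)
    (hm1 : ∀ τ ∈ Ioo (0 : ℝ) 1, ∫ x in (0 : ℝ)..L, x ^ 10 * (E τ x + (deriv D τ : HL L) x) = 0) :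
    ∃ δ' : ℝ → ℝ → ℝ, Sm (Ioo 0 1) L δ' ∧ ∀ τ ∈ Ioo (0 : ℝ) 1,
      (∀ᵐ x ∂(volume.restrict (Ioo 0 L)), (D τ) x = δ' τ x) ∧
      (∀ᵐ x ∂(volume.restrict (Ioo 0 L)), dt δ' τ x = (deriv D τ : HL L) x) ∧
      (∀ x ∈ Ioo 0 L, dx L (dx L δ') τ x = ht τ x +
        Kint (fun z => E τ z + (deriv D τ : HL L) z) x / (x ^ 9 * φ τ x ^ 2)) ∧
      ∀ x ∈ Icc 0 L, x ^ 9 * (φ τ x ^ 2 * dx L (dx L δ') τ x - φ τ x ^ 2 * ht τ x) =
        Kint (fun ξ => E τ ξ + dt δ' τ ξ) x := by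
  have hL : 0 < L := bg_L_pos hB
  have hs : IsOpen (Ioo (0 : ℝ) 1) := isOpen_Ioo
  have hy0 : 0 < 3 * L / 4 := by positivity
  have hy0L : 3 * L / 4 < L := by linarith
  have hy1 : L / 2 ∈ Ioc 0 (3 * L / 4) := ⟨by positivity, by linarith⟩
  have hD' : ContDiffOn ℝ ∞ (deriv D) (Ioo 0 1) := smoothCurve_deriv hs hD
  set F : ℝ → ℝ → ℝ := fun τ z => E τ z + (deriv D τ : HL L) z with hF
  set r : ℝ → ℝ → ℝ := fun τ ξ => ht τ ξ + Kint (F τ) ξ / (ξ ^ 9 * φ τ ξ ^ 2) with hr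
  set δ : ℝ → ℝ → ℝ := dprim (L / 2) a b r with hδ
  set rR : ℝ → ℝ → ℝ := fun τ y => r τ (L - y) with hrR
  have hδR : ∀ τ y, δ τ (L - y) = dprim (L / 2) a (fun τ => - b τ) rR τ y := fun τ y =>
    dprim_reflect a b r τ y
  -- the coefficients
  set aL : ℝ → ℝ → ℝ := fun τ y => ((1 - y / L) ^ 2 * (m τ y * m τ y))⁻¹ with haL
  set aR : ℝ → ℝ → ℝ := fun τ y => L ^ 2 * ((L - y) ^ 11 * (m τ (L - y) * m τ (L - y)))⁻¹ with haR
  have hmpos : ∀ τ ∈ Ioo (0 : ℝ) 1, ∀ x ∈ Icc 0 L, m τ x ≠ 0 := fun τ hτ x hx =>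
    (lt_of_lt_of_le hc0 (hB.lower τ hτ x hx)).ne'
  have hmL : ∀ k, CK (Ioo 0 1) (3 * L / 4) k m := fun k =>
    CK.of_sm hs hy0 (hB.sm.mono_right hy0L.le) k
  have hmR : ∀ k, CK (Ioo 0 1) (3 * L / 4) k (fun τ y => m τ (L - y)) := fun k =>
    CK.of_sm hs hy0 (Sm_reflect hB.sm hy0L.le) k
  have hEL : ∀ k, CK (Ioo 0 1) (3 * L / 4) k E := fun k =>
    CK.of_sm hs hy0 (hE.mono_right hy0L.le) k
  have hhL : ∀ k, CK (Ioo 0 1) (3 * L / 4) k ht := fun k =>
    CK.of_sm hs hy0 (hh.mono_right hy0L.le) k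
  have hhR : ∀ k, CK (Ioo 0 1) (3 * L / 4) k (fun τ y => ht τ (L - y)) := fun k =>
    CK.of_sm hs hy0 (Sm_reflect hh hy0L.le) k
  have hw : ∀ k, CK (Ioo 0 1) (3 * L / 4) k (fun _ y => (L - y) ^ 9) := fun k =>
    CK.of_right (by fun_prop) k
  have hER : ∀ k, CK (Ioo 0 1) (3 * L / 4) k (fun τ y => (L - y) ^ 9 * E τ (L - y)) := fun k =>
    (hw k).mul (CK.of_sm hs hy0 (Sm_reflect hE hy0L.le) k)
  have haLk : ∀ k, CK (Ioo 0 1) (3 * L / 4) k aL := fun k => by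
    refine CK.inv ((CK.of_right (c := fun y => (1 - y / L) ^ 2) (by fun_prop) k).mul
      ((hmL k).mul (hmL k))) fun τ hτ y hy => ?_
    have h1 := hmpos τ hτ y ⟨hy.1, hy.2.trans hy0L.le⟩
    have h2 : 1 - y / L ≠ 0 := by
      have : y / L < 1 := (div_lt_one hL).2 (lt_of_le_of_lt hy.2 hy0L)
      linarith
    exact mul_ne_zero (pow_ne_zero 2 h2) (mul_ne_zero h1 h1)
  have haRk : ∀ k, CK (Ioo 0 1) (3 * L / 4) k aR := fun k => by
    refine (CK.const (L ^ 2) k).mul (CK.inv ((CK.of_right (c := fun y => (L - y) ^ 11)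
      (by fun_prop) k).mul ((hmR k).mul (hmR k))) fun τ hτ y hy => ?_)
    have h1 := hmpos τ hτ (L - y) ⟨by linarith [hy.2], by linarith [hy.1]⟩
    have h2 : L - y ≠ 0 := by
      have := hy.2
      intro h
      linarith
    exact mul_ne_zero (pow_ne_zero 11 h2) (mul_ne_zero h1 h1)
  -- integrability
  have iE : ∀ τ ∈ Ioo (0 : ℝ) 1, IntervalIntegrable (fun x => x ^ 9 * E τ x) volume 0 L := by
    intro τ hτ
    refine ContinuousOn.intervalIntegrable ?_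
    rw [uIcc_of_le hL.le]
    exact ContinuousOn.mul (by fun_prop) (hE.continuousOn_right hτ)
  have iD : ∀ τ, IntervalIntegrable (fun x => x ^ 9 * (deriv D τ : HL L) x) volume 0 L := fun τ =>
    ii_of_Ioo hL (integrableOn_wHL _)
  have iF : ∀ τ ∈ Ioo (0 : ℝ) 1, IntervalIntegrable (fun x => x ^ 9 * F τ x) volume 0 L := by
    intro τ hτ
    exact ((iE τ hτ).add (iD τ)).congr fun x _ => by
      simp only [hF]
      ring
  -- left and right formulas
  have fL : ∀ τ ∈ Ioo (0 : ℝ) 1, ∀ y ∈ Ioc 0 (3 * L / 4), ∀ G : ℝ → ℝ,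
      Kint G y / (y ^ 9 * φ τ y ^ 2) = aL τ y * MN 9 G y := by
    intro τ hτ y hy G
    have hyI : y ∈ Icc 0 L := ⟨hy.1.le, hy.2.trans hy0L.le⟩
    rw [Kint_eq_MN G hy.1, hB.phi_eq τ hτ y hyI, haL]
    have h1 := hmpos τ hτ y hyI
    have h2 : 1 - y / L ≠ 0 := by
      have : y / L < 1 := (div_lt_one hL).2 (lt_of_le_of_lt hy.2 hy0L)
      linarith
    have h3 := hy.1.ne'
    simp only
    generalize 1 - y / L = t at h2
    field_simp
  have fR : ∀ τ ∈ Ioo (0 : ℝ) 1, ∀ y ∈ Ioc 0 (3 * L / 4), ∀ G : ℝ → ℝ, ∀ M : ℝ,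
      y ^ 2 * M = Kint G (L - y) →
      Kint G (L - y) / ((L - y) ^ 9 * φ τ (L - y) ^ 2) = aR τ y * M := by
    intro τ hτ y hy G M hM
    have hyI : L - y ∈ Icc 0 L := ⟨by linarith [hy.2], by linarith [hy.1]⟩
    rw [← hM, hB.phi_eq τ hτ (L - y) hyI, haR]
    have h1 := hmpos τ hτ (L - y) hyI
    have h2 : L - y ≠ 0 := by
      have := hy.2
      intro h
      linarith
    have h3 := hy.1.ne'
    have h4 := hL.ne'
    have h5 : 1 - (L - y) / L = y / L := by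
      field_simp
      ring
    simp only
    rw [h5]
    generalize L - y = t at h2
    field_simp
  -- H1
  have H1L : SC (Ioo 0 1) (3 * L / 4) 10 r := by
    have h1 : SC (Ioo 0 1) (3 * L / 4) 10 (fun τ y => MN 9 (E τ) y) :=
      SC.of_c0 (R213.C0.MN hy0.le 9 (hEL 0).c0)
    have h2 : SC (Ioo 0 1) (3 * L / 4) 10 (fun τ y => MN 9 (fun x => (deriv D τ : HL L) x) y) :=
      SC_MN_left hL hy0L hD'
    refine ((SC.of_c0 (hhL 0).c0).add ((h1.add h2).mul_c0 (haLk 0).c0)).congr fun τ hτ y hy => ?_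
    simp only [hr]
    rw [fL τ hτ y hy, ← MN_add hy.1]
    · exact ii_sub (iE τ hτ) (left_mem_Icc.2 hL.le) ⟨hy.1.le, hy.2.trans hy0L.le⟩ hL.le
    · exact ii_sub (iD τ) (left_mem_Icc.2 hL.le) ⟨hy.1.le, hy.2.trans hy0L.le⟩ hL.le
  have keyR : ∀ τ ∈ Ioo (0 : ℝ) 1, ∀ y ∈ Ioc 0 (3 * L / 4),
      y ^ 2 * MN 0 (fun x => (L - x) ^ 9 * F τ (L - x)) y = Kint (F τ) (L - y) := by
    intro τ hτ y hy
    exact MN_reflect hL (iF τ hτ) (hm0 τ hτ) (hm1 τ hτ) hy.1 (hy.2.trans hy0L.le)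
  have H1R : SC (Ioo 0 1) (3 * L / 4) 1 rR := by
    have h1 : SC (Ioo 0 1) (3 * L / 4) 1 (fun τ y => MN 0 (fun x => (L - x) ^ 9 * E τ (L - x)) y) :=
      SC.of_c0 (R213.C0.MN hy0.le 0 (hER 0).c0)
    have h2 : SC (Ioo 0 1) (3 * L / 4) 1
        (fun τ y => MN 0 (fun x => (L - x) ^ 9 * (deriv D τ : HL L) (L - x)) y) :=
      SC_MN_right hL hy0L hD'
    refine ((SC.of_c0 (hhR 0).c0).add ((h1.add h2).mul_c0 (haRk 0).c0)).congr fun τ hτ y hy => ?_
    simp only [hrR, hr]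
    rw [fR τ hτ y hy (F τ) _ (keyR τ hτ y hy), ← MN_add hy.1]
    · congr 3
      funext x
      simp only [hF]
      ring
    · refine (ii_sub (ii_reflect (iE τ hτ)) (left_mem_Icc.2 hL.le)
        ⟨hy.1.le, hy.2.trans hy0L.le⟩ hL.le).congr fun x _ => ?_
      simp only [pow_zero, one_mul]
    · refine (ii_sub (ii_reflect (iD τ)) (left_mem_Icc.2 hL.le)
        ⟨hy.1.le, hy.2.trans hy0L.le⟩ hL.le).congr fun x _ => ?_
      simp only [pow_zero, one_mul]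
  -- pointwise time derivative of δ on (0,L)
  have hb' : ContDiffOn ℝ ∞ (fun τ => - b τ) (Ioo 0 1) := hb.neg
  have hδt : ∀ τ ∈ Ioo (0 : ℝ) 1, ∀ x ∈ Ioo 0 L, HasDerivAt (fun r => δ r x) (dt δ τ x) τ := by
    intro τ hτ x hx
    rcases le_or_gt x (L / 2) with h | h
    · exact SC.hasDerivAt hs (SC.dprim (p := 9) hy1 ha hb H1L) hτ ⟨hx.1, by linarith⟩
    · have h1 := SC.hasDerivAt hs (SC.dprim (p := 0) hy1 ha hb' H1R) hτ (y := L - x)
        ⟨by linarith [hx.2], by linarith⟩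
      have h2 : (fun r => δ r x) = fun r => dprim (L / 2) a (fun τ => - b τ) rR r (L - x) := by
        funext r
        rw [← hδR, sub_sub_cancel]
      rw [h2]
      have h3 : dt δ τ x = dt (dprim (L / 2) a (fun τ => - b τ) rR) τ (L - x) := by
        unfold dt
        rw [h2]
      rw [h3]
      exact h1
  have hDae : ∀ τ ∈ Ioo (0 : ℝ) 1, ∀ᵐ x ∂(volume.restrict (Ioo 0 L)),
      (deriv D τ : HL L) x = dt δ τ x := fun τ hτ =>
    ae_deriv hτ (smoothCurve_hasDerivAt hs hD hτ) hrep (hδt τ hτ)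
  have hFae : ∀ τ ∈ Ioo (0 : ℝ) 1, ∀ᵐ x ∂(volume.restrict (Ioo 0 L)),
      F τ x = E τ x + dt δ τ x := fun τ hτ => by
    filter_upwards [hDae τ hτ] with x hx
    simp only [hF]
    rw [hx]
  -- H2
  have H2L : ∀ τ ∈ Ioo (0 : ℝ) 1, ∀ y ∈ Ioc 0 (3 * L / 4), r τ y = ht τ y + aL τ y *
      MN 9 (fun z => E τ z + 1 * dt (dprim (L / 2) a b r) τ z) y := by
    intro τ hτ y hy
    simp only [hr]
    rw [fL τ hτ y hy]
    congr 2
    refine MN_congr_ae hy.1 (hy.2.trans hy0L.le) ?_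
    filter_upwards [hFae τ hτ] with x hx
    rw [hx, one_mul]
  have H2R : ∀ τ ∈ Ioo (0 : ℝ) 1, ∀ y ∈ Ioc 0 (3 * L / 4), rR τ y = ht τ (L - y) + aR τ y *
      MN 0 (fun z => (L - z) ^ 9 * E τ (L - z) + (L - z) ^ 9 *
        dt (dprim (L / 2) a (fun τ => - b τ) rR) τ z) y := by
    intro τ hτ y hy
    have hdt : ∀ z, dt (dprim (L / 2) a (fun τ => - b τ) rR) τ z = dt δ τ (L - z) := by
      intro z
      unfold dt
      congr 1
      funext r
      exact (hδR r z).symm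
    simp only [hrR, hr]
    congr 1
    refine fR τ hτ y hy (F τ) _ ?_
    have hFae' := (ae_restrict_iff' measurableSet_Ioo).1 (hFae τ hτ)
    have hne : ∀ c : ℝ, ∀ᵐ x : ℝ, x ≠ c := fun c => by
      have : volume ({c} : Set ℝ) = 0 := by simp
      exact compl_mem_ae_iff.2 this
    have iG : IntervalIntegrable (fun x => x ^ 9 * (E τ x + dt δ τ x)) volume 0 L := by
      refine (iF τ hτ).congr_ae ?_
      rw [Filter.EventuallyEq, ae_restrict_iff' measurableSet_uIoc]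
      filter_upwards [hFae', hne L] with x hx hxL hxu
      rw [uIoc_of_le hL.le] at hxu
      rw [hx ⟨hxu.1, lt_of_le_of_ne hxu.2 hxL⟩]
    have hGm : ∀ n : ℕ, ∫ x in (0 : ℝ)..L, x ^ n * (E τ x + dt δ τ x) =
        ∫ x in (0 : ℝ)..L, x ^ n * F τ x := by
      intro n
      refine intervalIntegral.integral_congr_ae ?_
      filter_upwards [hFae', hne L] with x hx hxL hxu
      rw [uIoc_of_le hL.le] at hxu
      rw [hx ⟨hxu.1, lt_of_le_of_ne hxu.2 hxL⟩]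
    have hR := MN_reflect hL iG (by rw [hGm]; exact hm0 τ hτ) (by rw [hGm]; exact hm1 τ hτ) hy.1
      (hy.2.trans hy0L.le)
    have hK : Kint (F τ) (L - y) = Kint (fun x => E τ x + dt δ τ x) (L - y) :=
      Kint_congr_ae' (by linarith [hy.2]) (by linarith [hy.1]) (hFae τ hτ)
    rw [hK, ← hR]
    congr 2
    funext z
    rw [hdt z]
    ring
  obtain ⟨bL1, bL2⟩ := half_boot hs hy0 hy1 (p := 9) (N := 9) le_rfl hhL haLk hEL
    (fun k => CK.const 1 k) ha hb H1L H2L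
  obtain ⟨bR1, bR2⟩ := half_boot hs hy0 hy1 (p := 0) (N := 0) le_rfl hhR haRk hER hw ha hb' H1R H2R
  have smL : Sm (Ioo 0 1) (3 * L / 4) δ := sm_of_CK hy0 bL1
  have smR : Sm (Ioo 0 1) (3 * L / 4) (fun τ y => δ τ (L - y)) :=
    (sm_of_CK hy0 bR1).congr fun τ _ y _ => hδR τ y
  have smδ : Sm (Ioo 0 1) L δ := Sm_glue hL smL smR
  have hrc : ∀ τ ∈ Ioo (0 : ℝ) 1, ContinuousOn (r τ) (Ioo 0 L) := by
    intro τ hτ x hx
    have c1 : ContinuousOn (r τ) (Ioc 0 (3 * L / 4)) :=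
      (((bL2 0).c0.continuousOn_right hτ).mono Ioc_subset_Icc_self).congr fun y hy => H2L τ hτ y hy
    have c2 : ContinuousOn (rR τ) (Ioc 0 (3 * L / 4)) :=
      (((bR2 0).c0.continuousOn_right hτ).mono Ioc_subset_Icc_self).congr fun y hy => H2R τ hτ y hy
    refine ContinuousAt.continuousWithinAt ?_
    rcases le_or_gt x (L / 2) with h | h
    · exact c1.continuousAt (mem_of_superset (Ioo_mem_nhds hx.1 (by linarith : x < 3 * L / 4))
        Ioo_subset_Ioc_self)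
    · have h1 : ContinuousAt (rR τ) (L - x) :=
        c2.continuousAt (mem_of_superset (Ioo_mem_nhds (by linarith [hx.2])
          (by linarith : L - x < 3 * L / 4)) Ioo_subset_Ioc_self)
      have h2 : r τ = fun z => rR τ (L - z) := by
        funext z
        simp only [hrR, sub_sub_cancel]
      rw [h2]
      exact ContinuousAt.comp (f := fun z : ℝ => L - z) (x := x) h1 (by fun_prop)
  have hm2 : L / 2 ∈ Ioo 0 L := ⟨by positivity, by linarith⟩
  have hdd : ∀ τ ∈ Ioo (0 : ℝ) 1, ∀ x ∈ Ioo 0 L, dx L (dx L δ) τ x = r τ x := by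
    intro τ hτ x hx
    rw [dxdx_eq_interior hx (f := δ τ) (fun y _ => rfl)]
    have h1 : deriv (δ τ) =ᶠ[𝓝 x] fun z => b τ + ∫ t in (L / 2)..z, r τ t := by
      filter_upwards [Ioo_mem_nhds hx.1 hx.2] with z hz
      exact (dprim_hasDeriv2 (hrc τ hτ) hm2 hz).1.deriv
    rw [h1.deriv_eq]
    exact (dprim_hasDeriv2 (a := a) (b := b) (hrc τ hτ) hm2 hx).2.deriv
  refine ⟨δ, smδ, fun τ hτ => ⟨hrep τ hτ, ?_, fun x hx => hdd τ hτ x hx, ?_⟩⟩
  · filter_upwards [hDae τ hτ] with x hx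
    exact hx.symm
  · intro x hx
    rcases eq_or_lt_of_le hx.1 with h0 | h0
    · rw [← h0]
      simp [Kint]
    · rcases eq_or_lt_of_le hx.2 with h1 | h1
      · have e1 : φ τ x = 0 := by
          rw [hB.phi_eq τ hτ x hx, h1, div_self hL.ne']
          ring
        have e2 : Kint (fun ξ => E τ ξ + dt δ τ ξ) x = Kint (F τ) x :=
          (Kint_congr_ae' h0 hx.2 (hFae τ hτ)).symm
        rw [e1, e2, h1]
        unfold Kint
        have e3 : ∀ ξ, (L - ξ) * ξ ^ 9 * F τ ξ = L * (ξ ^ 9 * F τ ξ) - ξ ^ 10 * F τ ξ := fun ξ => by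
          ring
        have hi : IntervalIntegrable (fun x => x ^ 10 * F τ x) volume 0 L := by
          have := (iF τ hτ).continuousOn_mul (g := fun x : ℝ => x) (by fun_prop)
          exact this.congr fun x _ => by
            ring
        simp_rw [e3]
        rw [intervalIntegral.integral_sub ((iF τ hτ).const_mul _) hi,
          intervalIntegral.integral_const_mul, hm0 τ hτ, hm1 τ hτ]
        ring
      · have hxI : x ∈ Ioo 0 L := ⟨h0, h1⟩
        rw [hdd τ hτ x hxI, ← Kint_congr_ae' h0 hx.2 (hFae τ hτ)]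
        simp only [hr]
        have hφ : φ τ x ≠ 0 := by
          rw [hB.phi_eq τ hτ x hx]
          have h2 : 1 - x / L ≠ 0 := by
            have : x / L < 1 := (div_lt_one hL).2 h1
            linarith
          exact mul_ne_zero (mul_ne_zero h0.ne' h2) (hmpos τ hτ x hx)
        have hx0 := h0.ne'
        field_simp
        ring

end Crest.Agent.R213.B
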