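import Crest.Agent.R213.B.Rep

/-!
# Row 213, part B3a (helper80): the tested equation gives `x⁹ φ² (δ'' - ht) = Kint (E + δ_τ)` and the
representation of `U` with smooth coefficients.
-/

set_option autoImplicit false

open Set MeasureTheory Filter Topology
open scoped RealInnerProductSpace ENNReal

noncomputable section

namespace Crest.Agent.R213.B

variable {L : ℝ}

theorem dd_const (_hL : 0 < L) (c : ℝ) {x : ℝ} (hx : x ∈ Icc 0 L) : dd L (fun _ => c) x = 0 := by
  unfold dd
  have h : ∀ y ∈ Icc 0 L, derivWithin (fun _ : ℝ => c) (Icc 0 L) y = 0 := fun y _ => by simp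
  rw [derivWithin_congr h (h x hx)]
  simp

theorem derivWithin_of_hasDerivAt (hL : 0 < L) {f : ℝ → ℝ} {a x : ℝ} (hx : x ∈ Icc 0 L)
    (h : HasDerivAt f a x) : derivWithin f (Icc 0 L) x = a :=
  h.hasDerivWithinAt.derivWithin (uniqueDiffOn_Icc hL x hx)

theorem dd_of_hasDerivAt (hL : 0 < L) {f f1 f2 : ℝ → ℝ} (h1 : ∀ x, HasDerivAt f (f1 x) x)
    (h2 : ∀ x, HasDerivAt f1 (f2 x) x) {x : ℝ} (hx : x ∈ Icc 0 L) : dd L f x = f2 x := by
  unfold dd
  have h : ∀ y ∈ Icc 0 L, derivWithin f (Icc 0 L) y = f1 y := fun y hy =>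
    derivWithin_of_hasDerivAt hL hy (h1 y)
  rw [derivWithin_congr h (h x hx)]
  exact derivWithin_of_hasDerivAt hL hx (h2 x)

/-- positive part kernel -/
def pk (x s : ℝ) : ℝ := max (x - s) 0

theorem continuous_pk : Continuous (fun p : ℝ × ℝ => pk p.1 p.2) := by
  unfold pk; fun_prop

theorem pk_sub (x s : ℝ) : pk x s = (x - s) + pk s x := by
  unfold pk
  rcases le_total x s with h | h
  · rw [max_eq_right (by linarith), max_eq_left (by linarith)]; ring
  · rw [max_eq_left (by linarith), max_eq_right (by linarith)]; ring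

theorem pk_nonneg (x s : ℝ) : 0 ≤ pk x s := le_max_right _ _

theorem pk_le {x s : ℝ} (hx : x ∈ Ioo 0 L) (hs : s ∈ Ioo 0 L) : ‖pk x s‖ ≤ L := by
  rw [Real.norm_of_nonneg (pk_nonneg x s)]
  exact max_le (by linarith [hx.2, hs.1]) (hx.1.trans hx.2).le

/-- `∫_{(0,L)} (s-x)⁺ w(x) dx = ∫_0^s (s-x) w(x) dx` -/
theorem integral_pk {w : ℝ → ℝ} {s : ℝ} (hs : s ∈ Ioo 0 L) :
    ∫ x in Ioo 0 L, pk s x * w x = ∫ x in (0 : ℝ)..s, (s - x) * w x := by
  rw [intervalIntegral.integral_of_le hs.1.le, integral_Ioc_eq_integral_Ioo]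
  have e1 : ∫ x in Ioo 0 L, pk s x * w x = ∫ x in Ioo 0 L, (Ioo 0 s).indicator
      (fun x => (s - x) * w x) x := by
    refine setIntegral_congr_fun measurableSet_Ioo fun x hx => ?_
    by_cases h : x ∈ Ioo 0 s
    · rw [indicator_of_mem h]
      simp only [pk]
      rw [max_eq_left (by linarith [h.2])]
    · rw [indicator_of_notMem h]
      have h2 : s ≤ x := by
        by_contra h3
        push Not at h3
        exact h ⟨hx.1, h3⟩
      simp only [pk]
      rw [max_eq_right (by linarith)]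
      ring
  rw [e1, setIntegral_indicator measurableSet_Ioo]
  congr 2
  ext x
  constructor
  · rintro ⟨_, h⟩; exact h
  · intro h
    exact ⟨⟨h.1, h.2.trans hs.2⟩, h⟩

/-- `w` integrable on `(0,L)` with vanishing moments: pairing with a double primitive. -/
theorem pairing_Kint {w : ℝ → ℝ} (hw : IntegrableOn w (Ioo 0 L))
    (h0 : ∫ x in Ioo 0 L, w x = 0) (h1 : ∫ x in Ioo 0 L, x * w x = 0)
    {χ : ℝ → ℝ} (hχ : Continuous χ) :
    ∫ x in Ioo 0 L, (∫ s in (0 : ℝ)..x, (x - s) * χ s) * w x =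
      ∫ s in Ioo 0 L, χ s * ∫ x in (0 : ℝ)..s, (s - x) * w x := by
  have hχi : IntegrableOn χ (Ioo 0 L) := by
    by_cases hL : 0 ≤ L
    · exact (hχ.integrableOn_Icc (a := 0) (b := L)).mono_set Ioo_subset_Icc_self
    · rw [Ioo_eq_empty (by linarith)]; simp
  have hprod : Integrable (fun p : ℝ × ℝ => pk p.1 p.2 * (w p.1 * χ p.2))
      ((volume.restrict (Ioo 0 L)).prod (volume.restrict (Ioo 0 L))) := by
    refine Integrable.bdd_mul (c := L) (Integrable.mul_prod hw hχi) ?_ ?_
    · exact continuous_pk.aestronglyMeasurable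
    · rw [Measure.prod_restrict]
      filter_upwards [ae_restrict_mem (measurableSet_Ioo.prod measurableSet_Ioo)] with p hp
      exact pk_le hp.1 hp.2
  have e1 : ∫ x in Ioo 0 L, (∫ s in (0 : ℝ)..x, (x - s) * χ s) * w x =
      ∫ x in Ioo 0 L, ∫ s in Ioo 0 L, pk x s * (w x * χ s) := by
    refine setIntegral_congr_fun measurableSet_Ioo fun x hx => ?_
    show (∫ s in (0 : ℝ)..x, (x - s) * χ s) * w x = ∫ s in Ioo 0 L, pk x s * (w x * χ s)
    rw [← integral_pk hx, mul_comm, ← integral_const_mul]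
    refine integral_congr_ae (Eventually.of_forall fun s => ?_)
    show w x * (pk x s * χ s) = pk x s * (w x * χ s)
    ring
  rw [e1, integral_integral_swap (f := fun x s => pk x s * (w x * χ s)) hprod]
  refine setIntegral_congr_fun measurableSet_Ioo fun s hs => ?_
  show ∫ x in Ioo 0 L, pk x s * (w x * χ s) = χ s * ∫ x in (0 : ℝ)..s, (s - x) * w x
  rw [← integral_pk hs]
  have hxw : IntegrableOn (fun x => x * w x) (Ioo 0 L) := by
    refine Integrable.bdd_mul (c := L) hw continuous_id.aestronglyMeasurable ?_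
    filter_upwards [ae_restrict_mem measurableSet_Ioo] with x hx
    show ‖x‖ ≤ L
    rw [Real.norm_of_nonneg hx.1.le]
    exact hx.2.le
  have hpw : IntegrableOn (fun x => pk s x * w x) (Ioo 0 L) := by
    refine Integrable.bdd_mul (c := L) hw ?_ ?_
    · exact (continuous_pk.comp (by fun_prop : Continuous (fun x : ℝ => (s, x)))).aestronglyMeasurable
    · filter_upwards [ae_restrict_mem measurableSet_Ioo] with x hx
      exact pk_le hs hx
  have e2 : ∀ x, pk x s * (w x * χ s) = χ s * (x * w x - s * w x + pk s x * w x) := by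
    intro x
    rw [pk_sub x s]; ring
  simp_rw [e2]
  rw [integral_const_mul, integral_add (f := fun x => x * w x - s * w x)
    (hxw.sub (hw.const_mul s)) hpw, integral_sub hxw (hw.const_mul s), integral_const_mul, h0, h1]
  ring

/-- continuity of `Kint` for integrable data -/
theorem continuousOn_K {w : ℝ → ℝ} (hw : IntegrableOn w (Ioo 0 L)) :
    ContinuousOn (fun s => ∫ x in (0 : ℝ)..s, (s - x) * w x) (Ioo 0 L) := by
  have h : Continuous (fun s => ∫ x in Ioo 0 L, max (min (s - x) L) 0 * w x) := by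
    refine continuous_of_dominated (bound := fun x => |L| * |w x|) (fun s => ?_) (fun s => ?_) ?_ ?_
    · exact AEStronglyMeasurable.mul (by
        have : Continuous (fun x : ℝ => max (min (s - x) L) 0) := by fun_prop
        exact this.aestronglyMeasurable) hw.aestronglyMeasurable
    · refine Eventually.of_forall fun x => ?_
      rw [norm_mul, Real.norm_eq_abs, Real.norm_eq_abs]
      refine mul_le_mul_of_nonneg_right ?_ (abs_nonneg _)
      rw [abs_of_nonneg (le_max_right _ _)]
      exact max_le ((min_le_right _ _).trans (le_abs_self L)) (abs_nonneg L)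
    · exact (hw.norm.const_mul |L|)
    · refine Eventually.of_forall fun x => ?_
      fun_prop
  refine h.continuousOn.congr fun s hs => ?_
  simp only
  rw [← integral_pk hs]
  refine setIntegral_congr_fun measurableSet_Ioo fun x hx => ?_
  simp only [pk]
  rw [min_eq_left (by linarith [hs.2, hx.1])]

/-- the tested equation gives the integrated equation -/
theorem eq_of_tested (hL : 0 < L) {F G : ℝ → ℝ} (hF : Integrable F (mu L))
    (hG : Integrable (fun x => phi0 L x * G x) (mu L))
    (heq : ∀ ζ : ℝ → ℝ, ContDiffOn ℝ (⊤ : ℕ∞) ζ (Icc 0 L) →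
      ∫ x, ζ x * F x ∂(mu L) = ∫ x, (phi0 L x * dd L ζ x) * G x ∂(mu L)) :
    (∫ x in (0 : ℝ)..L, x ^ 9 * F x = 0) ∧ (∫ x in (0 : ℝ)..L, x ^ 10 * F x = 0) ∧
      ∀ᵐ x ∂(volume.restrict (Ioo 0 L)), x ^ 9 * phi0 L x * G x = Kint F x := by
  have hFi : IntegrableOn (fun x => x ^ 9 * F x) (Ioo 0 L) := by
    have h := hF
    unfold mu at h
    rw [integrable_withDensity_iff_integrable_smul' measurable_w
      (Eventually.of_forall fun _ => ENNReal.ofReal_lt_top)] at h
    refine IntegrableOn.congr_fun h (fun x hx => ?_) measurableSet_Ioo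
    simp only [smul_eq_mul]
    rw [ENNReal.toReal_ofReal (pow_nonneg hx.1.le 9)]
  have hGi : IntegrableOn (fun x => x ^ 9 * (phi0 L x * G x)) (Ioo 0 L) := by
    have h := hG
    unfold mu at h
    rw [integrable_withDensity_iff_integrable_smul' measurable_w
      (Eventually.of_forall fun _ => ENNReal.ofReal_lt_top)] at h
    refine IntegrableOn.congr_fun h (fun x hx => ?_) measurableSet_Ioo
    simp only [smul_eq_mul]
    rw [ENNReal.toReal_ofReal (pow_nonneg hx.1.le 9)]
  have m0 : ∫ x in Ioo 0 L, x ^ 9 * F x = 0 := by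
    have h := heq (fun _ => 1) contDiffOn_const
    rw [integral_mu, integral_mu] at h
    have e : ∫ x in Ioo 0 L, x ^ 9 * ((phi0 L x * dd L (fun _ => (1 : ℝ)) x) * G x) = 0 := by
      rw [setIntegral_congr_fun (g := fun _ => (0 : ℝ)) measurableSet_Ioo fun x hx => ?_]
      · simp
      · simp only
        rw [dd_const hL 1 (Ioo_subset_Icc_self hx)]; ring
    rw [e] at h
    simpa using h
  have m1 : ∫ x in Ioo 0 L, x * (x ^ 9 * F x) = 0 := by
    have h := heq (fun x => x) contDiff_id.contDiffOn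
    rw [integral_mu, integral_mu] at h
    have e : ∫ x in Ioo 0 L, x ^ 9 * ((phi0 L x * dd L (fun x => x) x) * G x) = 0 := by
      rw [setIntegral_congr_fun (g := fun _ => (0 : ℝ)) measurableSet_Ioo fun x hx => ?_]
      · simp
      · simp only
        rw [dd_of_hasDerivAt (f := fun x => x) hL (f1 := fun _ => 1) (f2 := fun _ => 0)
          (fun y => hasDerivAt_id' y) (fun y => hasDerivAt_const y 1) (Ioo_subset_Icc_self hx)]
        ring
    rw [e] at h
    refine Eq.trans ?_ h
    refine setIntegral_congr_fun measurableSet_Ioo fun x hx => ?_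
    show x * (x ^ 9 * F x) = x ^ 9 * (x * F x)
    ring
  refine ⟨?_, ?_, ?_⟩
  · rw [intervalIntegral.integral_of_le hL.le, integral_Ioc_eq_integral_Ioo, m0]
  · rw [intervalIntegral.integral_of_le hL.le, integral_Ioc_eq_integral_Ioo]
    refine Eq.trans ?_ m1
    refine setIntegral_congr_fun measurableSet_Ioo fun x hx => ?_
    show x ^ 10 * F x = x * (x ^ 9 * F x)
    ring
  · have hKc : ContinuousOn (Kint F) (Ioo 0 L) := by
      have := continuousOn_K hFi
      refine this.congr fun s hs => ?_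
      unfold Kint
      refine intervalIntegral.integral_congr fun x _ => ?_
      show (s - x) * x ^ 9 * F x = (s - x) * (x ^ 9 * F x)
      ring
    have hloc : LocallyIntegrableOn (fun x => x ^ 9 * (phi0 L x * G x) - Kint F x) (Ioo 0 L) := by
      refine hGi.locallyIntegrableOn.sub ?_
      exact hKc.locallyIntegrableOn measurableSet_Ioo
    have key := isOpen_Ioo.ae_eq_zero_of_integral_contDiff_smul_eq_zero hloc (fun χ hχ hχc hχs => ?_)
    · rw [ae_restrict_iff' measurableSet_Ioo]
      filter_upwards [key] with x hx hx2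
      have := hx hx2
      linarith
    · -- the test function
      have hc : Continuous χ := hχ.continuous
      set P1 : ℝ → ℝ := fun x => ∫ s in (0 : ℝ)..x, χ s with hP1
      set P2 : ℝ → ℝ := fun x => ∫ s in (0 : ℝ)..x, (x - s) * χ s with hP2
      have d1 : ∀ x, HasDerivAt P1 (χ x) x := fun x =>
        intervalIntegral.integral_hasDerivAt_right (hc.intervalIntegrable _ _)
          hc.stronglyMeasurable.stronglyMeasurableAtFilter hc.continuousAt
      have e2 : P2 = fun x => x * P1 x - ∫ s in (0 : ℝ)..x, s * χ s := by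
        funext x
        simp only [hP2, hP1]
        rw [← intervalIntegral.integral_const_mul, ← intervalIntegral.integral_sub]
        · refine intervalIntegral.integral_congr fun s _ => ?_
          show (x - s) * χ s = x * χ s - s * χ s
          ring
        · exact (hc.const_smul x).intervalIntegrable _ _
        · exact (continuous_id.mul hc).intervalIntegrable _ _
      have d2 : ∀ x, HasDerivAt P2 (P1 x) x := by
        intro x
        have hc2 : Continuous (fun s => s * χ s) := by fun_prop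
        have h3 : HasDerivAt (fun x => ∫ s in (0 : ℝ)..x, s * χ s) (x * χ x) x :=
          intervalIntegral.integral_hasDerivAt_right (hc2.intervalIntegrable _ _)
            hc2.stronglyMeasurable.stronglyMeasurableAtFilter hc2.continuousAt
        rw [e2]
        refine (((hasDerivAt_id x).mul (d1 x)).sub h3).congr_deriv ?_
        simp
      have s1 : ContDiff ℝ (⊤ : ℕ∞) P1 := by
        rw [contDiff_infty_iff_deriv]
        refine ⟨fun x => (d1 x).differentiableAt, ?_⟩
        have : deriv P1 = χ := funext fun x => (d1 x).deriv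
        rw [this]; exact hχ
      have s2 : ContDiff ℝ (⊤ : ℕ∞) P2 := by
        rw [contDiff_infty_iff_deriv]
        refine ⟨fun x => (d2 x).differentiableAt, ?_⟩
        have : deriv P2 = P1 := funext fun x => (d2 x).deriv
        rw [this]; exact s1
      have h := heq P2 s2.contDiffOn
      rw [integral_mu, integral_mu] at h
      have e3 : ∫ x in Ioo 0 L, x ^ 9 * (P2 x * F x) =
          ∫ s in Ioo 0 L, χ s * Kint F s := by
        have hp := pairing_Kint hFi m0 m1 hc
        rw [show (∫ x in Ioo 0 L, x ^ 9 * (P2 x * F x)) = ∫ x in Ioo 0 L,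
          (∫ s in (0 : ℝ)..x, (x - s) * χ s) * (x ^ 9 * F x) from
            setIntegral_congr_fun measurableSet_Ioo fun x _ => by simp only [hP2]; ring, hp]
        refine setIntegral_congr_fun measurableSet_Ioo fun s _ => ?_
        show χ s * _ = χ s * _
        congr 1
        unfold Kint
        refine intervalIntegral.integral_congr fun x _ => ?_
        show (s - x) * (x ^ 9 * F x) = (s - x) * x ^ 9 * F x
        ring
      have e4 : ∫ x in Ioo 0 L, x ^ 9 * ((phi0 L x * dd L P2 x) * G x) =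
          ∫ x in Ioo 0 L, χ x * (x ^ 9 * (phi0 L x * G x)) := by
        refine setIntegral_congr_fun measurableSet_Ioo fun x hx => ?_
        show x ^ 9 * ((phi0 L x * dd L P2 x) * G x) = χ x * (x ^ 9 * (phi0 L x * G x))
        rw [dd_of_hasDerivAt hL d2 d1 (Ioo_subset_Icc_self hx)]
        ring
      rw [e3, e4] at h
      have hsup : ∀ x, x ∉ Ioo 0 L → χ x = 0 := fun x hx =>
        image_eq_zero_of_notMem_tsupport fun h => hx (hχs h)
      have e5 : ∫ x, χ x • (x ^ 9 * (phi0 L x * G x) - Kint F x) =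
          ∫ x in Ioo 0 L, χ x • (x ^ 9 * (phi0 L x * G x) - Kint F x) := by
        symm
        refine setIntegral_eq_integral_of_forall_compl_eq_zero fun x hx => ?_
        rw [hsup x hx, zero_smul]
      rw [e5]
      simp only [smul_eq_mul, mul_sub]
      obtain ⟨C, hC⟩ := hc.bounded_above_of_compact_support hχc
      rw [integral_sub, ← h, sub_self]
      · refine Integrable.bdd_mul (c := C) hGi hc.aestronglyMeasurable
          (Eventually.of_forall hC)
      · have hcs : IsCompact (tsupport χ) := hχc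
        have : IntegrableOn (fun x => χ x * Kint F x) (tsupport χ) :=
          ((hc.continuousOn).mul (hKc.mono hχs)).integrableOn_compact hcs
        have h2 : Integrable (fun x => χ x * Kint F x) volume := by
          rw [← integrableOn_univ]
          refine (integrableOn_iff_integrable_of_support_subset ?_).1 this |>.integrableOn
          intro x hx
          refine subset_tsupport _ ?_
          intro h0
          apply hx
          simp only [h0, zero_mul]
        exact h2.integrableOn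

/-- **B3a**: data for the bootstrap theorem. -/
theorem rep_data {c0 C0 : ℝ} {g : ℝ → ℝ} {φ m : ℝ → ℝ → ℝ} (hB : Bg c0 C0 g L φ m)
    (hc0 : 0 < c0) {E ht : ℝ → ℝ → ℝ} (hE : Sm (Ioo 0 1) L E) (hh : Sm (Ioo 0 1) L ht)
    {U Z : ℝ → HL L} (hU : ContDiffOn ℝ (⊤ : ℕ∞) U (Ioo 0 1))
    (hZ : ContDiffOn ℝ (⊤ : ℕ∞) Z (Ioo 0 1))
    (hV : ∀ τ ∈ Ioo (0 : ℝ) 1, InV L (U τ) (Z τ))
    (heq : ∀ τ ∈ Ioo (0 : ℝ) 1, ∀ ζ : ℝ → ℝ, ContDiffOn ℝ (⊤ : ℕ∞) ζ (Icc 0 L) →
        ∫ x, ζ x * (E τ x + (deriv U τ : HL L) x) ∂(mu L) =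
          ∫ x, (x * (1 - x / L) * dd L ζ x) *
            (m τ x ^ 2 * ((Z τ) x - x * (1 - x / L) * ht τ x)) ∂(mu L)) :
    ∃ a b : ℝ → ℝ, ContDiffOn ℝ (⊤ : ℕ∞) a (Ioo 0 1) ∧ ContDiffOn ℝ (⊤ : ℕ∞) b (Ioo 0 1) ∧
      (∀ τ ∈ Ioo (0 : ℝ) 1, ∀ᵐ x ∂(volume.restrict (Ioo 0 L)),
        (U τ) x = a τ + b τ * (x - L / 2) + ∫ ξ in (L / 2)..x, (x - ξ) *
          (ht τ ξ + Kint (fun z => E τ z + (deriv U τ : HL L) z) ξ / (ξ ^ 9 * φ τ ξ ^ 2))) ∧
      (∀ τ ∈ Ioo (0 : ℝ) 1, ∫ x in (0 : ℝ)..L, x ^ 9 * (E τ x + (deriv U τ : HL L) x) = 0) ∧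
      (∀ τ ∈ Ioo (0 : ℝ) 1, ∫ x in (0 : ℝ)..L, x ^ 10 * (E τ x + (deriv U τ : HL L) x) = 0) ∧
      (∀ τ ∈ Ioo (0 : ℝ) 1, ∀ᵐ x ∂(volume.restrict (Ioo 0 L)),
        (Z τ) x = x * (1 - x / L) *
          (ht τ x + Kint (fun z => E τ z + (deriv U τ : HL L) z) x / (x ^ 9 * φ τ x ^ 2))) := by
  have hL : 0 < L := lt_of_lt_of_le (by norm_num) hB.L_ge
  have hall : ∀ τ ∈ Ioo (0 : ℝ) 1,
      (∫ x in (0 : ℝ)..L, x ^ 9 * (E τ x + (deriv U τ : HL L) x) = 0) ∧
      (∫ x in (0 : ℝ)..L, x ^ 10 * (E τ x + (deriv U τ : HL L) x) = 0) ∧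
      ∀ᵐ x ∂(volume.restrict (Ioo 0 L)), x ^ 9 * phi0 L x *
        (m τ x ^ 2 * ((Z τ) x - x * (1 - x / L) * ht τ x)) =
          Kint (fun z => E τ z + (deriv U τ : HL L) z) x := by
    intro τ hτ
    refine eq_of_tested hL (F := fun x => E τ x + (deriv U τ : HL L) x)
      (G := fun x => m τ x ^ 2 * ((Z τ) x - x * (1 - x / L) * ht τ x)) ?_ ?_ (heq τ hτ)
    · have h1 : MemLp (E τ) 2 (mu L) := memLp_of_continuousOn hL (hE.continuousOn_right hτ)
      have h2 : MemLp (fun x => (deriv U τ : HL L) x) 2 (mu L) := Lp.memLp _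
      exact (h1.add h2).integrable (by norm_num)
    · have hmc : ContinuousOn (m τ) (Icc 0 L) := hB.sm.continuousOn_right hτ
      have hhc : ContinuousOn (ht τ) (Icc 0 L) := hh.continuousOn_right hτ
      have h1 : MemLp (fun x => phi0 L x * m τ x ^ 2) 2 (mu L) :=
        memLp_of_continuousOn hL ((continuous_phi0 L).continuousOn.mul (hmc.pow 2))
      have h2 : MemLp (fun x => (Z τ) x) 2 (mu L) := Lp.memLp _
      have h3 : MemLp (fun x => phi0 L x * m τ x ^ 2 * (x * (1 - x / L) * ht τ x)) 2 (mu L) := by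
        refine memLp_of_continuousOn hL ?_
        refine ((continuous_phi0 L).continuousOn.mul (hmc.pow 2)).mul
          (ContinuousOn.mul (by fun_prop) hhc)
      have h4 : Integrable (fun x => phi0 L x * m τ x ^ 2 * (Z τ) x) (mu L) :=
        h1.integrable_mul h2
      have h5 := h4.sub (h3.integrable (by norm_num))
      refine h5.congr (Eventually.of_forall fun x => ?_)
      simp only [Pi.sub_apply]
      ring
  have hZae : ∀ τ ∈ Ioo (0 : ℝ) 1, ∀ᵐ x ∂(volume.restrict (Ioo 0 L)),
        (Z τ) x = x * (1 - x / L) *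
          (ht τ x + Kint (fun z => E τ z + (deriv U τ : HL L) z) x / (x ^ 9 * φ τ x ^ 2)) := by
    intro τ hτ
    filter_upwards [(hall τ hτ).2.2, ae_restrict_mem measurableSet_Ioo] with x hx hx2
    rw [← hx, hB.phi_eq τ hτ x (Ioo_subset_Icc_self hx2)]
    have hp := (phi0_pos hx2).ne'
    unfold phi0 at hp ⊢
    have hm : m τ x ≠ 0 := (lt_of_lt_of_le hc0 (hB.lower τ hτ x (Ioo_subset_Icc_self hx2))).ne'
    have hx0 : x ≠ 0 := hx2.1.ne'
    have h1 : (1 - x / L) ≠ 0 := fun h => hp (by rw [h, mul_zero])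
    generalize (1 - x / L) = t at h1
    field_simp
    ring
  refine ⟨fun τ => al L (U τ) (Z τ), fun τ => be L (U τ) (Z τ), contDiffOn_al hU hZ,
    contDiffOn_be hU hZ, fun τ hτ => ?_, fun τ hτ => (hall τ hτ).1, fun τ hτ => (hall τ hτ).2.1,
    hZae⟩
  filter_upwards [rep_inV hL (hV τ hτ), ae_restrict_mem measurableSet_Ioo] with x hx hx2
  rw [hx]
  congr 1
  refine intervalIntegral.integral_congr_ae ?_
  have h := (ae_restrict_iff' measurableSet_Ioo).1 (hZae τ hτ)
  have h0 : L / 2 ∈ Ioo 0 L := ⟨by linarith, by linarith⟩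
  have hsub : uIcc (L / 2) x ⊆ Ioo 0 L := ordConnected_Ioo.uIcc_subset h0 hx2
  filter_upwards [h] with y hy hy2
  have hy3 : y ∈ Ioo 0 L := hsub (uIoc_subset_uIcc hy2)
  rw [hy hy3]
  have hp := (phi0_pos hy3).ne'
  unfold phi0 at hp ⊢
  rw [mul_div_cancel_left₀ _ hp]

end Crest.Agent.R213.B
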