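import Crest.Agent.R213.SCls
import Crest.Agent.R213.B.RepData

/-!
# Row 213, part B3b (helper962): operators `L² → SC`, identities for `MN`
-/

set_option autoImplicit false

open Set MeasureTheory Filter Topology
open scoped ContDiff BoundedContinuousFunction RealInnerProductSpace ENNReal

noncomputable section

namespace Crest.Agent.R213.B

variable {L y0 : ℝ} {s : Set ℝ}

/-! ### `MN` as an integral over `(0,y)` -/

theorem MN_eq (N : ℕ) (F : ℝ → ℝ) {y : ℝ} (hy : 0 < y) :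
    y ^ (N + 2) * MN N F y = ∫ x in (0 : ℝ)..y, (y - x) * (x ^ N * F x) := by
  have h1 := intervalIntegral.integral_comp_mul_right (a := (0 : ℝ)) (b := 1)
    (fun x => (y - x) * (x ^ N * F x)) hy.ne'
  rw [zero_mul, one_mul] at h1
  have h2 : ∫ x in (0 : ℝ)..y, (y - x) * (x ^ N * F x) =
      y * ∫ r in (0 : ℝ)..1, (y - r * y) * ((r * y) ^ N * F (r * y)) := by
    rw [h1, smul_eq_mul, ← mul_assoc, mul_inv_cancel₀ hy.ne', one_mul]
  rw [h2]
  unfold MN
  rw [← intervalIntegral.integral_const_mul, ← intervalIntegral.integral_const_mul]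
  refine intervalIntegral.integral_congr fun r _ => ?_
  rw [mul_pow]
  ring

theorem MN_add {N : ℕ} {F G : ℝ → ℝ} {y : ℝ} (hy : 0 < y)
    (hF : IntervalIntegrable (fun x => x ^ N * F x) volume 0 y)
    (hG : IntervalIntegrable (fun x => x ^ N * G x) volume 0 y) :
    MN N (fun x => F x + G x) y = MN N F y + MN N G y := by
  have hp : y ^ (N + 2) ≠ 0 := (pow_pos hy _).ne'
  apply mul_left_cancel₀ hp
  rw [mul_add, MN_eq N _ hy, MN_eq N _ hy, MN_eq N _ hy, ← intervalIntegral.integral_add]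
  · refine intervalIntegral.integral_congr fun x _ => ?_
    ring
  · exact hF.continuousOn_mul (by fun_prop)
  · exact hG.continuousOn_mul (by fun_prop)

theorem MN_congr_ae {N : ℕ} {F G : ℝ → ℝ} {y : ℝ} (hy : 0 < y) (hyL : y ≤ L)
    (h : ∀ᵐ x ∂(volume.restrict (Ioo 0 L)), F x = G x) : MN N F y = MN N G y := by
  have hp : y ^ (N + 2) ≠ 0 := (pow_pos hy _).ne'
  apply mul_left_cancel₀ hp
  rw [MN_eq N _ hy, MN_eq N _ hy]
  refine intervalIntegral.integral_congr_ae ?_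
  have h1 := (ae_restrict_iff' measurableSet_Ioo).1 h
  have h2 : ∀ᵐ x : ℝ, x ≠ y := by
    have : volume ({y} : Set ℝ) = 0 := by simp
    exact compl_mem_ae_iff.2 this
  filter_upwards [h1, h2] with x hx hxy hxu
  rw [uIoc_of_le hy.le] at hxu
  rw [hx ⟨hxu.1, lt_of_lt_of_le (lt_of_le_of_ne hxu.2 hxy) hyL⟩]

theorem Kint_eq_MN (F : ℝ → ℝ) {y : ℝ} (hy : 0 < y) : Kint F y = y ^ 11 * MN 9 F y := by
  rw [MN_eq 9 F hy]
  unfold Kint
  exact intervalIntegral.integral_congr fun x _ => by ring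

theorem Kint_congr_ae' {F G : ℝ → ℝ} {y : ℝ} (hy : 0 < y) (hyL : y ≤ L)
    (h : ∀ᵐ x ∂(volume.restrict (Ioo 0 L)), F x = G x) : Kint F y = Kint G y := by
  rw [Kint_eq_MN F hy, Kint_eq_MN G hy, MN_congr_ae hy hyL h]

/-! ### integrability -/

theorem integrableOn_wHL (U : HL L) : IntegrableOn (fun x => x ^ 9 * U x) (Ioo 0 L) := by
  have hU : Integrable (fun x => U x) (mu L) := (Lp.memLp U).integrable (by norm_num)
  unfold mu at hU
  rw [integrable_withDensity_iff_integrable_smul' measurable_w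
    (Eventually.of_forall fun _ => ENNReal.ofReal_lt_top)] at hU
  refine IntegrableOn.congr_fun (f := fun x => (ENNReal.ofReal (x ^ 9)).toReal • U x) hU
    (fun x hx => ?_) measurableSet_Ioo
  simp only [smul_eq_mul]
  rw [ENNReal.toReal_ofReal (pow_nonneg hx.1.le 9)]

theorem ii_of_Ioo (hL : 0 < L) {w : ℝ → ℝ} (hw : IntegrableOn w (Ioo 0 L)) :
    IntervalIntegrable w volume 0 L :=
  (intervalIntegrable_iff_integrableOn_Ioo_of_le hL.le).2 hw

theorem ii_sub {w : ℝ → ℝ} (hw : IntervalIntegrable w volume 0 L) {c d : ℝ} (hc : c ∈ Icc 0 L)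
    (hd : d ∈ Icc 0 L) (hL : 0 ≤ L) : IntervalIntegrable w volume c d :=
  hw.mono_set (by rw [uIcc_of_le hL]; exact Set.uIcc_subset_Icc hc hd)

theorem ii_reflect {w : ℝ → ℝ} (hw : IntervalIntegrable w volume 0 L) :
    IntervalIntegrable (fun x => w (L - x)) volume 0 L := by
  have h := (hw.comp_sub_left L).symm
  simpa using h

theorem integrableOn_Ioo_reflect (hL : 0 < L) {w : ℝ → ℝ} (hw : IntegrableOn w (Ioo 0 L)) :
    IntegrableOn (fun x => w (L - x)) (Ioo 0 L) :=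
  (intervalIntegrable_iff_integrableOn_Ioo_of_le hL.le).1 (ii_reflect (ii_of_Ioo hL hw))

theorem setIntegral_reflect (hL : 0 < L) (w : ℝ → ℝ) :
    ∫ x in Ioo 0 L, w (L - x) = ∫ x in Ioo 0 L, w x := by
  have h := intervalIntegral.integral_comp_sub_left (a := (0 : ℝ)) (b := L) w L
  rw [sub_self, sub_zero, intervalIntegral.integral_of_le hL.le,
    intervalIntegral.integral_of_le hL.le, integral_Ioc_eq_integral_Ioo,
    integral_Ioc_eq_integral_Ioo] at h
  exact h

/-! ### kernels -/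

theorem norm_toHL_le_sqrt {q : ℝ → ℝ} (hq : Continuous q)
    (hb : ∀ x ∈ Ioo 0 L, |q x| ≤ 1) (hL : 0 < L) :
    ‖toHL L q‖ ≤ √(∫ x in Ioo 0 L, x ^ 9) := by
  have hm : MemLp q 2 (mu L) := memLp_of_continuousOn hL hq.continuousOn
  refine Real.le_sqrt_of_sq_le ?_
  rw [← real_inner_self_eq_norm_sq, inner_toHL hm hm]
  have hi1 : IntegrableOn (fun x : ℝ => x ^ 9 * (q x * q x)) (Ioo 0 L) := by
    have : Continuous (fun x : ℝ => x ^ 9 * (q x * q x)) := by fun_prop
    exact (this.continuousOn.integrableOn_Icc).mono_set Ioo_subset_Icc_self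
  have hi2 : IntegrableOn (fun x : ℝ => x ^ 9) (Ioo 0 L) := by
    have : Continuous (fun x : ℝ => x ^ 9) := by fun_prop
    exact (this.continuousOn.integrableOn_Icc).mono_set Ioo_subset_Icc_self
  refine setIntegral_mono_on hi1 hi2 measurableSet_Ioo fun x hx => ?_
  have h1 := hb x hx
  have h2 : q x * q x ≤ 1 := by
    have := abs_le.1 h1
    nlinarith
  calc x ^ 9 * (q x * q x) ≤ x ^ 9 * 1 := mul_le_mul_of_nonneg_left h2 (pow_nonneg hx.1.le 9)
    _ = x ^ 9 := mul_one _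

/-- operator `L² → BX` given by a kernel -/
def kOp (hL : 0 < L) (q : ℝ → ℝ → ℝ) (hq : ∀ y ∈ Ioc 0 y0, Continuous (q y))
    (hb : ∀ y ∈ Ioc 0 y0, ∀ x ∈ Ioo 0 L, |q y x| ≤ 1)
    (hc : ∀ U : HL L, ContinuousOn (fun y => ⟪toHL L (q y), U⟫) (Ioc 0 y0)) : HL L →L[ℝ] BX y0 :=
  LinearMap.mkContinuous
    { toFun := fun U => BoundedContinuousFunction.ofNormedAddCommGroup
        (fun y : Ioc (0 : ℝ) y0 => ⟪toHL L (q y), U⟫)
        ((hc U).domRestrict) (√(∫ x in Ioo 0 L, x ^ 9) * ‖U‖) (fun y => by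
          rw [Real.norm_eq_abs]
          exact (abs_real_inner_le_norm _ _).trans (mul_le_mul_of_nonneg_right
            (norm_toHL_le_sqrt (hq y y.2) (hb y y.2) hL) (norm_nonneg U)))
      map_add' := fun U V => by
        ext y
        exact inner_add_right (𝕜 := ℝ) (toHL L (q y)) U V
      map_smul' := fun c U => by
        ext y
        exact real_inner_smul_right (toHL L (q y)) U c } (√(∫ x in Ioo 0 L, x ^ 9))
    (fun U => by
      refine (BoundedContinuousFunction.norm_le (by positivity)).2 fun y => ?_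
      change ‖(⟪toHL L (q y), U⟫ : ℝ)‖ ≤ _
      rw [Real.norm_eq_abs]
      exact (abs_real_inner_le_norm _ _).trans (mul_le_mul_of_nonneg_right
            (norm_toHL_le_sqrt (hq y y.2) (hb y y.2) hL) (norm_nonneg U)))

theorem SC.of_kernel (hL : 0 < L) (q : ℝ → ℝ → ℝ) (hq : ∀ y ∈ Ioc 0 y0, Continuous (q y))
    (hb : ∀ y ∈ Ioc 0 y0, ∀ x ∈ Ioo 0 L, |q y x| ≤ 1)
    {T : HL L → ℝ → ℝ} {p : ℕ}
    (hT : ∀ U : HL L, ∀ y ∈ Ioc 0 y0, y ^ p * T U y = ∫ x in Ioo 0 L, x ^ 9 * (q y x * U x))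
    (hc : ∀ U : HL L, ContinuousOn (fun y => y ^ p * T U y) (Ioc 0 y0))
    {U : ℝ → HL L} (hU : ContDiffOn ℝ ∞ U s) : SC s y0 p (fun τ y => T (U τ) y) := by
  have key : ∀ U : HL L, ∀ y ∈ Ioc 0 y0, ⟪toHL L (q y), U⟫ = y ^ p * T U y := by
    intro U y hy
    have hm : MemLp (q y) 2 (mu L) := memLp_of_continuousOn hL (hq y hy).continuousOn
    rw [inner_HL, hT U y hy]
    refine integral_congr_ae ?_
    filter_upwards [ae_mu_iff.1 (coe_toHL hm)] with x hx
    rw [hx]
  have hc' : ∀ U : HL L, ContinuousOn (fun y => ⟪toHL L (q y), U⟫) (Ioc 0 y0) := fun U =>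
    (hc U).congr (key U)
  refine ⟨fun τ => kOp hL q hq hb hc' (U τ), (kOp hL q hq hb hc').contDiff.comp_contDiffOn hU,
    fun τ _ y => ?_⟩
  change _ = (⟪toHL L (q y), U τ⟫ : ℝ)
  exact (key (U τ) y y.2).symm

theorem continuous_pk_right (y : ℝ) : Continuous (pk y) := by
  unfold pk; fun_prop

theorem abs_inv_mul_pk_le {y x : ℝ} (hy : 0 < y) (hx : 0 ≤ x) : |y⁻¹ * pk y x| ≤ 1 := by
  rw [abs_mul, abs_of_pos (inv_pos.2 hy), abs_of_nonneg (pk_nonneg y x)]
  have h1 : pk y x ≤ y := max_le (by linarith) hy.le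
  calc y⁻¹ * pk y x ≤ y⁻¹ * y := mul_le_mul_of_nonneg_left h1 (inv_nonneg.2 hy.le)
    _ = 1 := inv_mul_cancel₀ hy.ne'

/-- left end -/
theorem SC_MN_left (hL : 0 < L) (h0 : y0 < L) {U : ℝ → HL L} (hU : ContDiffOn ℝ ∞ U s) :
    SC s y0 10 (fun τ y => MN 9 (fun x => U τ x) y) := by
  have hval : ∀ U : HL L, ∀ y ∈ Ioc 0 y0, y ^ 10 * MN 9 (fun x => U x) y =
      y⁻¹ * ∫ x in (0 : ℝ)..y, (y - x) * (x ^ 9 * U x) := by
    intro U y hy
    rw [← MN_eq 9 _ hy.1]
    have := hy.1.ne'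
    field_simp
    ring
  refine SC.of_kernel hL (fun y x => y⁻¹ * pk y x) (fun y _ => (continuous_pk_right y).const_mul _)
    (fun y hy x hx => abs_inv_mul_pk_le hy.1 hx.1.le)
    (T := fun U y => MN 9 (fun x => U x) y) ?_ ?_ hU
  · intro U y hy
    rw [hval U y hy, ← integral_pk (L := L) ⟨hy.1, lt_of_le_of_lt hy.2 h0⟩, ← integral_const_mul]
    refine integral_congr_ae (Eventually.of_forall fun x => ?_)
    simp only
    ring
  · intro U
    refine ContinuousOn.congr ?_ (hval U)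
    refine ContinuousOn.mul (ContinuousOn.inv₀ continuousOn_id fun y hy => hy.1.ne') ?_
    exact (continuousOn_K (integrableOn_wHL U)).mono fun y hy => ⟨hy.1, lt_of_le_of_lt hy.2 h0⟩

/-- right end -/
theorem SC_MN_right (hL : 0 < L) (h0 : y0 < L) {U : ℝ → HL L} (hU : ContDiffOn ℝ ∞ U s) :
    SC s y0 1 (fun τ y => MN 0 (fun x => (L - x) ^ 9 * U τ (L - x)) y) := by
  have hval : ∀ U : HL L, ∀ y ∈ Ioc 0 y0, y ^ 1 * MN 0 (fun x => (L - x) ^ 9 * U (L - x)) y =
      y⁻¹ * ∫ x in (0 : ℝ)..y, (y - x) * ((L - x) ^ 9 * U (L - x)) := by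
    intro U y hy
    have h1 := MN_eq 0 (fun x => (L - x) ^ 9 * U (L - x)) hy.1
    simp only [pow_zero, one_mul] at h1
    rw [← h1]
    have := hy.1.ne'
    field_simp
    ring
  refine SC.of_kernel hL (fun y x => y⁻¹ * pk y (L - x))
    (fun y _ => ((continuous_pk_right y).comp (by fun_prop)).const_mul _)
    (fun y hy x hx => abs_inv_mul_pk_le hy.1 (by linarith [hx.2]))
    (T := fun U y => MN 0 (fun x => (L - x) ^ 9 * U (L - x)) y) ?_ ?_ hU
  · intro U y hy
    rw [hval U y hy, ← integral_pk (L := L) ⟨hy.1, lt_of_le_of_lt hy.2 h0⟩, ← integral_const_mul,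
      ← setIntegral_reflect hL]
    refine integral_congr_ae (Eventually.of_forall fun x => ?_)
    simp only
    rw [sub_sub_cancel]
    ring
  · intro U
    refine ContinuousOn.congr ?_ (hval U)
    refine ContinuousOn.mul (ContinuousOn.inv₀ continuousOn_id fun y hy => hy.1.ne') ?_
    exact (continuousOn_K (w := fun x => (L - x) ^ 9 * U (L - x))
      (integrableOn_Ioo_reflect hL (integrableOn_wHL U))).mono
      fun y hy => ⟨hy.1, lt_of_le_of_lt hy.2 h0⟩

end Crest.Agent.R213.B
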