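import Crest.Agent.R213.B.Space
import Mathlib

/-!
# Row 213, part B, B2: from the hypotheses of `reg` to the abstract setting
-/

set_option autoImplicit false

open Set MeasureTheory Filter Topology
open scoped BoundedContinuousFunction RealInnerProductSpace ENNReal

noncomputable section

namespace Crest.Agent.R213.B

variable {s : Set ℝ} {L : ℝ} {u : ℝ → ℝ → ℝ}

theorem toHL_congr_Icc {f g : ℝ → ℝ} (h : ∀ x ∈ Icc 0 L, f x = g x) : toHL L f = toHL L g := by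
  have e : f =ᵐ[mu L] g := by
    filter_upwards [ae_mu_mem L] with x hx
    exact h x (Ioo_subset_Icc_self hx)
  unfold toHL
  by_cases hf : MemLp f 2 (mu L)
  · have hg : MemLp g 2 (mu L) := (memLp_congr_ae e).1 hf
    rw [dif_pos hf, dif_pos hg]
    exact (MemLp.toLp_eq_toLp_iff hf hg).2 e
  · have hg : ¬ MemLp g 2 (mu L) := fun hg => hf ((memLp_congr_ae e).2 hg)
    rw [dif_neg hf, dif_neg hg]

theorem toHL_congr_ae {f g : ℝ → ℝ} (e : f =ᵐ[mu L] g) : toHL L f = toHL L g := by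
  unfold toHL
  by_cases hf : MemLp f 2 (mu L)
  · have hg : MemLp g 2 (mu L) := (memLp_congr_ae e).1 hf
    rw [dif_pos hf, dif_pos hg]
    exact (MemLp.toLp_eq_toLp_iff hf hg).2 e
  · have hg : ¬ MemLp g 2 (mu L) := fun hg => hf ((memLp_congr_ae e).2 hg)
    rw [dif_neg hf, dif_neg hg]

theorem Sm.hasDerivAt_toHL (hs : IsOpen s) (hL : 0 < L) (hu : Sm s L u) {t : ℝ} (ht : t ∈ s) :
    HasDerivAt (fun τ => toHL L (u τ)) (toHL L (dt u t)) t := by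
  have h := ((BoundedContinuousFunction.toLp 2 (mu L) ℝ (E := ℝ)).hasFDerivAt.comp_hasDerivAt t
    (Sm.hasDerivAt_ex hs hL hu ht))
  rw [← toHL_ex hL ((hu.dt hs hL).continuousOn_right ht)] at h
  refine h.congr_of_eventuallyEq ?_
  filter_upwards [hs.mem_nhds ht] with τ hτ
  exact toHL_ex hL (hu.continuousOn_right hτ)

theorem Sm.contDiffOn_toHL (hs : IsOpen s) (hL : 0 < L) (hu : Sm s L u) :
    ContDiffOn ℝ (⊤ : ℕ∞) (fun τ => toHL L (u τ)) s := by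
  have h := (BoundedContinuousFunction.toLp 2 (mu L) ℝ (E := ℝ)).contDiff.comp_contDiffOn
    (Sm.contDiffOn_ex hs hL hu)
  refine h.congr fun τ hτ => ?_
  exact toHL_ex hL (hu.continuousOn_right hτ)

/-- the coefficient operator -/
def NL (L : ℝ) (m : ℝ → ℝ → ℝ) (τ : ℝ) : HL L →L[ℝ] HL L := mulL L (ex L (fun x => m τ x ^ 2))

theorem NL_contDiffOn (hs : IsOpen s) (hL : 0 < L) {m : ℝ → ℝ → ℝ} (hm : Sm s L m) :
    ContDiffOn ℝ (⊤ : ℕ∞) (NL L m) s :=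
  (mulL L).contDiff.comp_contDiffOn (Sm.contDiffOn_ex hs hL (hm.pow 2))

theorem NL_symm {m : ℝ → ℝ → ℝ} (τ : ℝ) (x y : HL L) : ⟪NL L m τ x, y⟫ = ⟪x, NL L m τ y⟫ :=
  mulL_symm _ _ _

theorem NL_coer (hL : 0 < L) {m : ℝ → ℝ → ℝ} (hm : Sm s L m) {c0 : ℝ} (hc : 0 < c0) {τ : ℝ}
    (hτ : τ ∈ s) (hlow : ∀ x ∈ Icc 0 L, c0 ≤ m τ x) (x : HL L) :
    c0 ^ 2 * ‖x‖ ^ 2 ≤ ⟪NL L m τ x, x⟫ := by
  refine mulL_coercive (fun y hy => ?_) x
  rw [ex_apply_mem hL.le ((hm.pow 2).continuousOn_right hτ) (Ioo_subset_Icc_self hy)]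
  exact pow_le_pow_left₀ hc.le (hlow y (Ioo_subset_Icc_self hy)) 2

end Crest.Agent.R213.B
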