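import Crest.Agent.R213.B.Conc
import Mathlib

/-!
# Row 213, part B, B2: the weak solution as a curve in `V`
-/

set_option autoImplicit false

open Set MeasureTheory Filter Topology
open scoped BoundedContinuousFunction RealInnerProductSpace ENNReal

noncomputable section

namespace Crest.Agent.R213.B

variable {s : Set ℝ} {L : ℝ} {u : ℝ → ℝ → ℝ}

/-! ### weights -/

/-- lower bound of the weights -/
def om (L κ τ : ℝ) : ℝ := τ ^ (2 * κ) / (L ^ 2 + 1) ^ 60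

theorem om_pos {κ τ : ℝ} (hτ : τ ∈ Ioo (0 : ℝ) 1) : 0 < om L κ τ := by
  unfold om
  have := Real.rpow_pos_of_pos hτ.1 (2 * κ)
  positivity

theorem om_le_Wt {κ τ x : ℝ} (hτ : τ ∈ Ioo (0 : ℝ) 1) (hx : x ∈ Icc 0 L) :
    om L κ τ ≤ Wt κ τ x := by
  unfold om Wt
  have h0 := Real.rpow_pos_of_pos hτ.1 (2 * κ)
  have h1 : 0 < x ^ 2 + τ := by nlinarith [hτ.1, sq_nonneg x]
  apply div_le_div_of_nonneg_left h0.le (by positivity)
  apply pow_le_pow_left₀ h1.le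
  have : x ^ 2 ≤ L ^ 2 := pow_le_pow_left₀ hx.1 hx.2 2
  linarith [hτ.2]

theorem om_le_Wt' {κ τ x : ℝ} (hτ : τ ∈ Ioo (0 : ℝ) 1) (hx : x ∈ Icc 0 L) :
    om L κ τ ≤ Wt' κ τ x := by
  have h := om_le_Wt (κ := κ) hτ hx
  have h2 : 0 < Wt κ τ x := (om_pos hτ).trans_le h
  unfold Wt'
  rw [le_div_iff₀ hτ.1]
  nlinarith [hτ.2, om_pos (L := L) (κ := κ) hτ]

theorem om_lower {κ a b : ℝ} (ha : 0 < a) (hab : a ≤ b) :
    ∃ c > 0, ∀ τ ∈ Icc a b, c ≤ om L κ τ := by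
  have hc : ContinuousOn (om L κ) (Icc a b) := by
    unfold om
    apply ContinuousOn.div_const
    exact ContinuousOn.rpow_const continuousOn_id
      (fun x hx => Or.inl (ha.trans_le hx.1).ne')
  obtain ⟨y, hy, hy2⟩ := isCompact_Icc.exists_isMinOn ⟨a, left_mem_Icc.2 hab⟩ hc
  refine ⟨om L κ y, ?_, fun τ hτ => hy2 hτ⟩
  unfold om
  have := Real.rpow_pos_of_pos (ha.trans_le hy.1) (2 * κ)
  positivity

/-! ### norms in `HL` -/

theorem integrable_w_mul {f g : ℝ → ℝ} (hf : MemLp f 2 (mu L)) (hg : MemLp g 2 (mu L)) :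
    IntegrableOn (fun x => x ^ 9 * (f x * g x)) (Ioo 0 L) := by
  have h : Integrable (fun x => f x * g x) (mu L) := by
    have := MemLp.integrable_mul hf hg
    exact this
  unfold mu at h
  rw [integrable_withDensity_iff_integrable_smul₀' measurable_w.aemeasurable
    (Eventually.of_forall fun _ => ENNReal.ofReal_lt_top)] at h
  refine (integrableOn_congr_fun ?_ measurableSet_Ioo).1 h
  intro x hx
  simp only [smul_eq_mul]
  rw [ENNReal.toReal_ofReal (pow_nonneg hx.1.le 9)]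

theorem norm_toHL_sq {f : ℝ → ℝ} (hf : MemLp f 2 (mu L)) :
    ENNReal.ofReal (‖toHL L f‖ ^ 2) = ∫⁻ x in Ioo 0 L, ENNReal.ofReal (x ^ 9 * (f x) ^ 2) := by
  rw [← real_inner_self_eq_norm_sq, inner_toHL hf hf,
    ofReal_integral_eq_lintegral_ofReal (integrable_w_mul hf hf)]
  · refine lintegral_congr fun x => ?_
    rw [sq]
  · filter_upwards [ae_restrict_mem measurableSet_Ioo] with x hx
    exact mul_nonneg (pow_nonneg hx.1.le 9) (mul_self_nonneg _)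

theorem toHL_sub {f g : ℝ → ℝ} (hf : MemLp f 2 (mu L)) (hg : MemLp g 2 (mu L)) :
    toHL L (fun x => f x - g x) = toHL L f - toHL L g := by
  have h : MemLp (fun x => f x - g x) 2 (mu L) := hf.sub hg
  rw [toHL_eq hf, toHL_eq hg, toHL_eq h, ← MemLp.toLp_sub hf hg]
  rfl

theorem norm_toHL_sub_sq {f g : ℝ → ℝ} (hf : MemLp f 2 (mu L)) (hg : MemLp g 2 (mu L)) :
    ENNReal.ofReal (‖toHL L f - toHL L g‖ ^ 2)
      = ∫⁻ x in Ioo 0 L, ENNReal.ofReal (x ^ 9 * (f x - g x) ^ 2) := by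
  have h : MemLp (fun x => f x - g x) 2 (mu L) := hf.sub hg
  rw [← toHL_sub hf hg, norm_toHL_sq h]

theorem memLp_of_lintegral {f : ℝ → ℝ} (hm : AEStronglyMeasurable f (volume.restrict (Ioo 0 L)))
    (h : ∫⁻ x in Ioo 0 L, ENNReal.ofReal (x ^ 9 * (f x) ^ 2) < ⊤) : MemLp f 2 (mu L) := by
  have hm' : AEStronglyMeasurable f (mu L) :=
    hm.mono_ac (withDensity_absolutelyContinuous _ _)
  refine ⟨hm', ?_⟩
  rw [eLpNorm_lt_top_iff_lintegral_rpow_enorm_lt_top (by norm_num) (by norm_num)]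
  have e : ∫⁻ x, ‖f x‖ₑ ^ (2 : ℝ≥0∞).toReal ∂(mu L)
      = ∫⁻ x in Ioo 0 L, ENNReal.ofReal (x ^ 9 * (f x) ^ 2) := by
    rw [lintegral_mu]
    · refine setLIntegral_congr_fun measurableSet_Ioo fun x hx => ?_
      simp only [ENNReal.toReal_ofNat, ENNReal.rpow_ofNat]
      rw [ENNReal.ofReal_mul (pow_nonneg hx.1.le 9)]
      congr 1
      rw [← ofReal_norm (f x), ← ENNReal.ofReal_pow (norm_nonneg _), Real.norm_eq_abs,
        sq_abs]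
    · exact (hm.enorm.pow_const _)
  rw [e]
  exact h

/-! ### slicing -/

theorem meas_S : MeasurableSet (Ioo (0 : ℝ) 1 ×ˢ Ioo (0 : ℝ) L) :=
  measurableSet_Ioo.prod measurableSet_Ioo

theorem restrict_S : (volume : Measure (ℝ × ℝ)).restrict (Ioo (0 : ℝ) 1 ×ˢ Ioo (0 : ℝ) L)
    = (volume.restrict (Ioo (0 : ℝ) 1)).prod (volume.restrict (Ioo (0 : ℝ) L)) := by
  rw [Measure.prod_restrict]
  rfl

theorem lintegral_S {F : ℝ → ℝ → ℝ≥0∞}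
    (hF : AEMeasurable (fun p : ℝ × ℝ => F p.1 p.2)
      (volume.restrict (Ioo (0 : ℝ) 1 ×ˢ Ioo (0 : ℝ) L))) :
    ∫⁻ p in (Ioo (0 : ℝ) 1 ×ˢ Ioo (0 : ℝ) L), F p.1 p.2
      = ∫⁻ τ in Ioo (0 : ℝ) 1, ∫⁻ x in Ioo 0 L, F τ x := by
  rw [restrict_S] at hF ⊢
  exact lintegral_prod _ hF

theorem aemeas_slice {F : ℝ → ℝ → ℝ≥0∞}
    (hF : AEMeasurable (fun p : ℝ × ℝ => F p.1 p.2)
      (volume.restrict (Ioo (0 : ℝ) 1 ×ˢ Ioo (0 : ℝ) L))) :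
    AEMeasurable (fun τ => ∫⁻ x in Ioo 0 L, F τ x) (volume.restrict (Ioo (0 : ℝ) 1)) := by
  rw [restrict_S] at hF
  exact hF.lintegral_prod_right'

/-- convergence of double integrals gives a.e. convergence of slices along a subsequence. -/
theorem exists_subseq_slice {F : ℕ → ℝ → ℝ → ℝ≥0∞}
    (hF : ∀ k, AEMeasurable (fun p : ℝ × ℝ => F k p.1 p.2)
      (volume.restrict (Ioo (0 : ℝ) 1 ×ˢ Ioo (0 : ℝ) L)))
    (h : Tendsto (fun k => ∫⁻ p in (Ioo (0 : ℝ) 1 ×ˢ Ioo (0 : ℝ) L), F k p.1 p.2) atTop (𝓝 0)) :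
    ∃ φ : ℕ → ℕ, StrictMono φ ∧ ∀ᵐ τ ∂(volume.restrict (Ioo (0 : ℝ) 1)),
      Tendsto (fun k => ∫⁻ x in Ioo 0 L, F (φ k) τ x) atTop (𝓝 0) := by
  have h1 : ∀ j : ℕ, ∀ᶠ k in atTop,
      ∫⁻ p in (Ioo (0 : ℝ) 1 ×ˢ Ioo (0 : ℝ) L), F k p.1 p.2 < (1 / 2 : ℝ≥0∞) ^ j := by
    intro j
    apply h.eventually
    apply gt_mem_nhds
    exact ENNReal.pow_pos (by norm_num) j
  obtain ⟨φ, hφ, hφ2⟩ := extraction_forall_of_eventually (P := fun j k => ∫⁻ p in (Ioo (0 : ℝ) 1 ×ˢ Ioo (0 : ℝ) L), F k p.1 p.2 < (1 / 2 : ℝ≥0∞) ^ j) (fun j => (h1 j))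
  refine ⟨φ, hφ, ?_⟩
  have h2 : ∫⁻ τ in Ioo (0 : ℝ) 1, ∑' k, ∫⁻ x in Ioo 0 L, F (φ k) τ x ≠ ⊤ := by
    rw [lintegral_tsum (fun k => aemeas_slice (hF (φ k)))]
    have h3 : ∑' k, ∫⁻ τ in Ioo (0 : ℝ) 1, ∫⁻ x in Ioo 0 L, F (φ k) τ x
        ≤ ∑' k : ℕ, (1 / 2 : ℝ≥0∞) ^ k := by
      refine ENNReal.tsum_le_tsum fun k => ?_
      rw [← lintegral_S (hF (φ k))]
      exact (hφ2 k).le
    refine ne_top_of_le_ne_top ?_ h3
    rw [ENNReal.tsum_geometric]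
    norm_num
  have h4 := ae_lt_top' (AEMeasurable.tsum fun k => aemeas_slice (hF (φ k))) h2
  filter_upwards [h4] with τ hτ
  exact ENNReal.tendsto_atTop_zero_of_tsum_ne_top hτ.ne

/-! ### pointwise comparison of slices -/

theorem slice_le {w : ℝ} (hw : 0 ≤ w) {W y z : ℝ → ℝ} (hW : ∀ x ∈ Ioo 0 L, w ≤ W x) {c : ℝ}
    (hz : ∀ x ∈ Ioo 0 L, (z x) ^ 2 ≤ c * (y x) ^ 2) :
    ENNReal.ofReal w * ∫⁻ x in Ioo 0 L, ENNReal.ofReal (x ^ 9 * (z x) ^ 2)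
      ≤ ENNReal.ofReal c * ∫⁻ x in Ioo 0 L, ENNReal.ofReal (W x * x ^ 9 * (y x) ^ 2) := by
  rw [← lintegral_const_mul' _ _ ENNReal.ofReal_ne_top, ← lintegral_const_mul' _ _ ENNReal.ofReal_ne_top]
  refine setLIntegral_mono' measurableSet_Ioo fun x hx => ?_
  have hx9 : 0 ≤ x ^ 9 := pow_nonneg hx.1.le 9
  by_cases hc : 0 ≤ c
  · rw [← ENNReal.ofReal_mul hw, ← ENNReal.ofReal_mul hc]
    apply ENNReal.ofReal_le_ofReal
    have h1 := hW x hx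
    have h2 := hz x hx
    calc w * (x ^ 9 * z x ^ 2) ≤ W x * (x ^ 9 * (c * y x ^ 2)) := by
          apply mul_le_mul h1 _ (by positivity) (hw.trans h1)
          exact mul_le_mul_of_nonneg_left h2 hx9
      _ = c * (W x * x ^ 9 * y x ^ 2) := by ring
  · have h2 := hz x hx
    have h3 : z x ^ 2 ≤ 0 := h2.trans (by nlinarith [sq_nonneg (y x), not_le.1 hc])
    have h4 : z x ^ 2 = 0 := le_antisymm h3 (sq_nonneg _)
    rw [h4, mul_zero, ENNReal.ofReal_zero, mul_zero]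
    exact zero_le

theorem slice_lt_top {w : ℝ} (hw : 0 < w) {W y z : ℝ → ℝ} (hW : ∀ x ∈ Ioo 0 L, w ≤ W x) {c : ℝ}
    (hz : ∀ x ∈ Ioo 0 L, (z x) ^ 2 ≤ c * (y x) ^ 2)
    (h : ∫⁻ x in Ioo 0 L, ENNReal.ofReal (W x * x ^ 9 * (y x) ^ 2) < ⊤) :
    ∫⁻ x in Ioo 0 L, ENNReal.ofReal (x ^ 9 * (z x) ^ 2) < ⊤ := by
  have h1 := slice_le hw.le hW hz
  have h2 : ENNReal.ofReal w * ∫⁻ x in Ioo 0 L, ENNReal.ofReal (x ^ 9 * (z x) ^ 2) < ⊤ :=
    h1.trans_lt (ENNReal.mul_lt_top ENNReal.ofReal_lt_top h)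
  by_contra h3
  rw [not_lt, top_le_iff] at h3
  rw [h3, ENNReal.mul_top (by simpa using hw)] at h2
  exact lt_irrefl _ h2

theorem slice_tendsto {w : ℝ} (hw : 0 < w) {W : ℝ → ℝ} {y z : ℕ → ℝ → ℝ}
    (hW : ∀ x ∈ Ioo 0 L, w ≤ W x) {c : ℝ}
    (hz : ∀ k, ∀ x ∈ Ioo 0 L, (z k x) ^ 2 ≤ c * (y k x) ^ 2)
    (h : Tendsto (fun k => ∫⁻ x in Ioo 0 L, ENNReal.ofReal (W x * x ^ 9 * (y k x) ^ 2)) atTop
      (𝓝 0)) :
    Tendsto (fun k => ∫⁻ x in Ioo 0 L, ENNReal.ofReal (x ^ 9 * (z k x) ^ 2)) atTop (𝓝 0) := by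
  have h1 : Tendsto (fun k => (ENNReal.ofReal w)⁻¹ * (ENNReal.ofReal c *
      ∫⁻ x in Ioo 0 L, ENNReal.ofReal (W x * x ^ 9 * (y k x) ^ 2))) atTop (𝓝 0) := by
    have h2 := ENNReal.Tendsto.const_mul (a := ENNReal.ofReal c) h (Or.inr ENNReal.ofReal_ne_top)
    rw [mul_zero] at h2
    have h3 := ENNReal.Tendsto.const_mul (a := (ENNReal.ofReal w)⁻¹) h2
      (Or.inr (ENNReal.inv_ne_top.2 (by simpa using hw)))
    rwa [mul_zero] at h3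
  refine tendsto_of_tendsto_of_tendsto_of_le_of_le tendsto_const_nhds h1 (fun _ => zero_le)
    fun k => ?_
  have h4 := slice_le hw.le hW (hz k)
  have hw' : ENNReal.ofReal w ≠ 0 := by simpa using hw
  calc _ = (ENNReal.ofReal w)⁻¹ * (ENNReal.ofReal w *
        ∫⁻ x in Ioo 0 L, ENNReal.ofReal (x ^ 9 * (z k x) ^ 2)) := by
        rw [← mul_assoc, ENNReal.inv_mul_cancel hw' ENNReal.ofReal_ne_top, one_mul]
    _ ≤ _ := by gcongr

/-! ### measurability of the integrands -/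

theorem meas_Wt (κ : ℝ) : Measurable (fun p : ℝ × ℝ => Wt κ p.1 p.2) := by
  unfold Wt
  fun_prop

theorem meas_Wt' (κ : ℝ) : Measurable (fun p : ℝ × ℝ => Wt' κ p.1 p.2) := by
  unfold Wt'
  exact (meas_Wt κ).div measurable_fst

theorem Sm.aemeas (hu : Sm (Ioo 0 1) L u) :
    AEMeasurable (fun p : ℝ × ℝ => u p.1 p.2)
      (volume.restrict (Ioo (0 : ℝ) 1 ×ˢ Ioo (0 : ℝ) L)) :=
  (hu.continuousOn.mono (prod_mono (subset_refl _) Ioo_subset_Icc_self)).aemeasurable meas_S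

theorem aemeas_integrand {V y : ℝ → ℝ → ℝ} (hV : Measurable (fun p : ℝ × ℝ => V p.1 p.2))
    (hy : AEMeasurable (fun p : ℝ × ℝ => y p.1 p.2)
      (volume.restrict (Ioo (0 : ℝ) 1 ×ˢ Ioo (0 : ℝ) L))) :
    AEMeasurable (fun p : ℝ × ℝ => ENNReal.ofReal (V p.1 p.2 * p.2 ^ 9 * (y p.1 p.2) ^ 2))
      (volume.restrict (Ioo (0 : ℝ) 1 ×ˢ Ioo (0 : ℝ) L)) := by
  apply AEMeasurable.ennreal_ofReal
  exact (hV.aemeasurable.mul (measurable_snd.pow_const 9).aemeasurable).mul (hy.pow_const 2)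

/-- finite `N2` norm: almost every slice is finite. -/
theorem ae_slice_lt_top {V y : ℝ → ℝ → ℝ} (hV : Measurable (fun p : ℝ × ℝ => V p.1 p.2))
    (hy : AEMeasurable (fun p : ℝ × ℝ => y p.1 p.2)
      (volume.restrict (Ioo (0 : ℝ) 1 ×ˢ Ioo (0 : ℝ) L))) (h : N2 L V y < ⊤) :
    ∀ᵐ τ ∂(volume.restrict (Ioo (0 : ℝ) 1)),
      ∫⁻ x in Ioo 0 L, ENNReal.ofReal (V τ x * x ^ 9 * (y τ x) ^ 2) < ⊤ := by
  unfold N2 at h
  rw [lintegral_S (F := fun τ x => ENNReal.ofReal (V τ x * x ^ 9 * (y τ x) ^ 2))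
    (aemeas_integrand hV hy)] at h
  exact ae_lt_top' (aemeas_slice (aemeas_integrand hV hy)) h.ne

end Crest.Agent.R213.B
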