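import Crest.Agent.R213.B.Conc2
import Mathlib

/-!
# Row 213, part B, B2: the weak solution as a curve in `V` (continued)
-/

set_option autoImplicit false

open Set MeasureTheory Filter Topology
open scoped BoundedContinuousFunction RealInnerProductSpace ENNReal

noncomputable section

namespace Crest.Agent.R213.B

variable {L : ℝ} {u : ℝ → ℝ → ℝ}

open Classical in
/-- smooth functions as elements of `V` (zero if not smooth) -/
def smV' (L : ℝ) (p : ℝ → ℝ) : VL L :=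
  if h : ContDiffOn ℝ (⊤ : ℕ∞) p (Icc 0 L) then smV L p h else 0

theorem smV'_eq {p : ℝ → ℝ} (h : ContDiffOn ℝ (⊤ : ℕ∞) p (Icc 0 L)) : smV' L p = smV L p h := by
  unfold smV'
  rw [dif_pos h]

theorem sm_phi0dd (hL : 0 < L) (hu : Sm (Ioo 0 1) L u) :
    Sm (Ioo 0 1) L (fun τ x => phi0 L x * dx L (dx L u) τ x) := by
  apply Sm.mul
  · apply Sm.of_right
    unfold phi0
    fun_prop
  · exact (hu.dx isOpen_Ioo hL).dx isOpen_Ioo hL

theorem continuousOn_smV' (hL : 0 < L) (hu : Sm (Ioo 0 1) L u) :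
    ContinuousOn (fun τ => smV' L (u τ)) (Ioo 0 1) := by
  rw [Topology.IsInducing.subtypeVal.continuousOn_iff]
  have h1 : ContinuousOn (fun τ => WithLp.toLp 2 (toHL L (u τ),
      toHL L (fun x => phi0 L x * dx L (dx L u) τ x))) (Ioo (0 : ℝ) 1) := by
    have e1 : ContinuousOn (fun τ => toHL L (u τ)) (Ioo (0 : ℝ) 1) :=
      (Sm.contDiffOn_toHL isOpen_Ioo hL hu).continuousOn
    have e2 : ContinuousOn (fun τ => toHL L (fun x => phi0 L x * dx L (dx L u) τ x))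
        (Ioo (0 : ℝ) 1) :=
      (Sm.contDiffOn_toHL isOpen_Ioo hL (sm_phi0dd hL hu)).continuousOn
    exact (WithLp.prodContinuousLinearEquiv 2 ℝ (HL L) (HL L)).symm.continuous.comp_continuousOn
      (e1.prodMk e2)
  refine h1.congr fun τ hτ => ?_
  have hs := hu.contDiffOn_right hτ
  simp only [Function.comp]
  rw [smV'_eq hs]
  rfl

open Classical in
/-- the curve -/
def wc (L : ℝ) (m δ b : ℝ → ℝ → ℝ) (τ : ℝ) : VL L :=
  if h : WithLp.toLp 2 (toHL L (δ τ), toHL L (fun x => b τ x / m τ x)) ∈ VS L then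
    ⟨_, h⟩ else 0

theorem wc_coe {m δ b : ℝ → ℝ → ℝ} {τ : ℝ}
    (h : WithLp.toLp 2 (toHL L (δ τ), toHL L (fun x => b τ x / m τ x)) ∈ VS L) :
    (wc L m δ b τ : WithLp 2 (HL L × HL L)) =
      WithLp.toLp 2 (toHL L (δ τ), toHL L (fun x => b τ x / m τ x)) := by
  unfold wc
  rw [dif_pos h]

theorem Bg.L_pos {c0 C0 : ℝ} {g : ℝ → ℝ} {φ m : ℝ → ℝ → ℝ} (hB : Bg c0 C0 g L φ m) : 0 < L := by
  linarith [hB.L_ge]

theorem tendsto_toHL {y : ℕ → ℝ → ℝ} {z : ℝ → ℝ} (hy : ∀ k, MemLp (y k) 2 (mu L))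
    (hz : MemLp z 2 (mu L))
    (h : Tendsto (fun k => ∫⁻ x in Ioo 0 L, ENNReal.ofReal (x ^ 9 * (y k x - z x) ^ 2)) atTop
      (𝓝 0)) :
    Tendsto (fun k => toHL L (y k)) atTop (𝓝 (toHL L z)) := by
  rw [tendsto_iff_norm_sub_tendsto_zero]
  have e : ∀ k, ENNReal.ofReal (‖toHL L (y k) - toHL L z‖ ^ 2)
      = ∫⁻ x in Ioo 0 L, ENNReal.ofReal (x ^ 9 * (y k x - z x) ^ 2) := fun k =>
    norm_toHL_sub_sq (hy k) hz
  simp only [← e] at h
  have h5 := (ENNReal.tendsto_toReal ENNReal.zero_ne_top).comp h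
  simp only [ENNReal.toReal_zero] at h5
  have h6 : Tendsto (fun k => ‖toHL L (y k) - toHL L z‖ ^ 2) atTop (𝓝 0) := by
    refine h5.congr fun k => ?_
    simp only [Function.comp]
    rw [ENNReal.toReal_ofReal (sq_nonneg _)]
  have h7 := h6.sqrt
  rw [Real.sqrt_zero] at h7
  refine h7.congr fun k => ?_
  rw [Real.sqrt_sq (norm_nonneg _)]

theorem tendsto_pair {y : ℕ → ℝ → ℝ} {z : HL L × HL L}
    (hy : ∀ k, ContDiffOn ℝ (⊤ : ℕ∞) (y k) (Icc 0 L))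
    (h1 : Tendsto (fun k => toHL L (y k)) atTop (𝓝 z.1))
    (h2 : Tendsto (fun k => toHL L (fun x => phi0 L x * dd L (y k) x)) atTop (𝓝 z.2)) :
    Tendsto (fun k => (smV' L (y k) : WithLp 2 (HL L × HL L))) atTop (𝓝 (WithLp.toLp 2 z)) := by
  have c3 := ((WithLp.prodContinuousLinearEquiv 2 ℝ (HL L) (HL L)).symm.continuous.tendsto
    _).comp (h1.prodMk_nhds h2)
  refine Tendsto.congr (fun k => ?_) c3
  rw [smV'_eq (hy _)]
  rfl

theorem hphi_sm {c0 C0 : ℝ} {g : ℝ → ℝ} {φ m : ℝ → ℝ → ℝ} (hB : Bg c0 C0 g L φ m) :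
    Sm (Ioo 0 1) L φ := by
  refine Sm.congr (u := fun τ x => phi0 L x * m τ x) (Sm.mul (Sm.of_right ?_) hB.sm) ?_
  · unfold phi0; fun_prop
  · intro t ht x hx
    rw [hB.phi_eq t ht x hx]; rfl

theorem sq_div_le {c0 y m : ℝ} (hc0 : 0 < c0) (hm : c0 ≤ m) : (y / m) ^ 2 ≤ (c0 ^ 2)⁻¹ * y ^ 2 := by
  rw [div_pow, div_eq_mul_inv, mul_comm]
  apply mul_le_mul_of_nonneg_right _ (sq_nonneg y)
  exact inv_anti₀ (by positivity) (pow_le_pow_left₀ hc0.le hm 2)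

/-- subsequence along which almost all slices converge -/
theorem exists_sub {c0 C0 : ℝ} {g : ℝ → ℝ} {φ m : ℝ → ℝ → ℝ} (hB : Bg c0 C0 g L φ m)
    {κ : ℝ} {b δ : ℝ → ℝ → ℝ}
    (hbm : Measurable (fun p : ℝ × ℝ => b p.1 p.2))
    (hdm : Measurable (fun p : ℝ × ℝ => δ p.1 p.2))
    {u : ℕ → ℝ → ℝ → ℝ} (hSu : ∀ k, Sm (Ioo 0 1) L (u k))
    (hu1 : Tendsto (fun k => N2 L (Wt κ) (fun τ x => φ τ x * dx L (dx L (u k)) τ x - b τ x))
            atTop (𝓝 0))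
    (hu2 : Tendsto (fun k => N2 L (Wt' κ) (fun τ x => u k τ x - δ τ x)) atTop (𝓝 0)) :
    ∃ ν : ℕ → ℕ, ∀ᵐ τ ∂(volume.restrict (Ioo (0 : ℝ) 1)),
      Tendsto (fun k => ∫⁻ x in Ioo 0 L, ENNReal.ofReal (Wt κ τ x * x ^ 9 *
        (φ τ x * dx L (dx L (u (ν k))) τ x - b τ x) ^ 2)) atTop (𝓝 0) ∧
      Tendsto (fun k => ∫⁻ x in Ioo 0 L, ENNReal.ofReal (Wt' κ τ x * x ^ 9 *
        (u (ν k) τ x - δ τ x) ^ 2)) atTop (𝓝 0) := by
  have hL := Bg.L_pos hB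
  have hphi := hphi_sm hB
  have hSuu : ∀ k, Sm (Ioo 0 1) L (dx L (dx L (u k))) := fun k =>
    ((hSu k).dx isOpen_Ioo hL).dx isOpen_Ioo hL
  -- measurability of the two integrands
  have mF1 : ∀ k, AEMeasurable (fun p : ℝ × ℝ => ENNReal.ofReal (Wt κ p.1 p.2 * p.2 ^ 9 *
      (φ p.1 p.2 * dx L (dx L (u k)) p.1 p.2 - b p.1 p.2) ^ 2))
      (volume.restrict (Ioo (0 : ℝ) 1 ×ˢ Ioo (0 : ℝ) L)) := fun k =>
    aemeas_integrand (y := fun τ x => φ τ x * dx L (dx L (u k)) τ x - b τ x) (meas_Wt κ)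
      (((Sm.aemeas hphi).mul (Sm.aemeas (hSuu k))).sub hbm.aemeasurable)
  have mF2 : ∀ k, AEMeasurable (fun p : ℝ × ℝ => ENNReal.ofReal (Wt' κ p.1 p.2 * p.2 ^ 9 *
      (u k p.1 p.2 - δ p.1 p.2) ^ 2))
      (volume.restrict (Ioo (0 : ℝ) 1 ×ˢ Ioo (0 : ℝ) L)) := fun k =>
    aemeas_integrand (y := fun τ x => u k τ x - δ τ x) (meas_Wt' κ)
      ((Sm.aemeas (hSu k)).sub hdm.aemeasurable)
  have hsum : Tendsto (fun k => ∫⁻ p in (Ioo (0 : ℝ) 1 ×ˢ Ioo (0 : ℝ) L),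
      (ENNReal.ofReal (Wt κ p.1 p.2 * p.2 ^ 9 *
      (φ p.1 p.2 * dx L (dx L (u k)) p.1 p.2 - b p.1 p.2) ^ 2) +
        ENNReal.ofReal (Wt' κ p.1 p.2 * p.2 ^ 9 * (u k p.1 p.2 - δ p.1 p.2) ^ 2))) atTop
          (𝓝 0) := by
    have h := hu1.add hu2
    rw [add_zero] at h
    refine h.congr fun k => ?_
    rw [lintegral_add_left' (mF1 k)]
    rfl
  obtain ⟨ν, -, hν⟩ := exists_subseq_slice
    (F := fun k τ x => ENNReal.ofReal (Wt κ τ x * x ^ 9 *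
      (φ τ x * dx L (dx L (u k)) τ x - b τ x) ^ 2) +
        ENNReal.ofReal (Wt' κ τ x * x ^ 9 * (u k τ x - δ τ x) ^ 2))
    (fun k => (mF1 k).add (mF2 k)) hsum
  refine ⟨ν, ?_⟩
  filter_upwards [hν] with τ h1
  constructor
  · refine tendsto_of_tendsto_of_tendsto_of_le_of_le tendsto_const_nhds h1 (fun _ => zero_le)
      fun k => ?_
    exact lintegral_mono fun x => le_self_add
  · refine tendsto_of_tendsto_of_tendsto_of_le_of_le tendsto_const_nhds h1 (fun _ => zero_le)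
      fun k => ?_
    exact lintegral_mono fun x => le_add_self

/-- slices of the weak solution are in `L²`. -/
theorem slice_memLp {c0 C0 : ℝ} {g : ℝ → ℝ} {φ m : ℝ → ℝ → ℝ} (hB : Bg c0 C0 g L φ m)
    (hc0 : 0 < c0) {κ : ℝ} {b δ : ℝ → ℝ → ℝ}
    (hbm : Measurable (fun p : ℝ × ℝ => b p.1 p.2))
    (hdm : Measurable (fun p : ℝ × ℝ => δ p.1 p.2)) {τ : ℝ} (hτ : τ ∈ Ioo (0 : ℝ) 1)
    (h2 : ∫⁻ x in Ioo 0 L, ENNReal.ofReal (Wt κ τ x * x ^ 9 * (b τ x) ^ 2) < ⊤)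
    (h3 : ∫⁻ x in Ioo 0 L, ENNReal.ofReal (Wt' κ τ x * x ^ 9 * (δ τ x) ^ 2) < ⊤) :
    MemLp (δ τ) 2 (mu L) ∧ MemLp (fun x => b τ x / m τ x) 2 (mu L) := by
  have hw := om_pos (L := L) (κ := κ) hτ
  have hmc : ContinuousOn (m τ) (Icc 0 L) := hB.sm.continuousOn_right hτ
  have measδ : Measurable (δ τ) := hdm.comp (measurable_const.prodMk measurable_id)
  have measb : Measurable (b τ) := hbm.comp (measurable_const.prodMk measurable_id)
  constructor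
  · apply memLp_of_lintegral measδ.aestronglyMeasurable
    exact slice_lt_top hw (W := Wt' κ τ) (y := δ τ) (c := 1)
      (fun x hx => om_le_Wt' hτ (Ioo_subset_Icc_self hx)) (fun x _ => by rw [one_mul]) h3
  · apply memLp_of_lintegral
    · apply AEMeasurable.aestronglyMeasurable
      exact measb.aemeasurable.div
        ((hmc.mono Ioo_subset_Icc_self).aemeasurable measurableSet_Ioo)
    · exact slice_lt_top hw (W := Wt κ τ) (y := b τ) (c := (c0 ^ 2)⁻¹)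
        (fun x hx => om_le_Wt hτ (Ioo_subset_Icc_self hx))
        (fun x hx => sq_div_le hc0 (hB.lower τ hτ x (Ioo_subset_Icc_self hx))) h2

/-- everything we need to know about the slices -/
theorem conc_ae {c0 C0 : ℝ} {g : ℝ → ℝ} {φ m : ℝ → ℝ → ℝ} (hB : Bg c0 C0 g L φ m)
    (hc0 : 0 < c0) {κ : ℝ} {b δ : ℝ → ℝ → ℝ}
    (hbm : Measurable (fun p : ℝ × ℝ => b p.1 p.2))
    (hdm : Measurable (fun p : ℝ × ℝ => δ p.1 p.2))
    (hb : N2 L (Wt κ) b < ⊤) (hd : N2 L (Wt' κ) δ < ⊤)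
    (h1 : ∃ u : ℕ → ℝ → ℝ → ℝ, (∀ k, Tst L (u k)) ∧
          Tendsto (fun k => N2 L (Wt κ) (fun τ x => φ τ x * dx L (dx L (u k)) τ x - b τ x))
            atTop (𝓝 0) ∧
          Tendsto (fun k => N2 L (Wt' κ) (fun τ x => u k τ x - δ τ x)) atTop (𝓝 0)) :
    ∃ wk : ℕ → ℝ → VL L, (∀ k, ContinuousOn (wk k) (Ioo 0 1)) ∧
      ∀ᵐ τ ∂(volume.restrict (Ioo (0 : ℝ) 1)),
        MemLp (δ τ) 2 (mu L) ∧ MemLp (fun x => b τ x / m τ x) 2 (mu L) ∧
        Tendsto (fun k => (wk k τ : WithLp 2 (HL L × HL L))) atTop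
          (𝓝 (WithLp.toLp 2 (toHL L (δ τ), toHL L (fun x => b τ x / m τ x)))) := by
  obtain ⟨u, hu, hu1, hu2⟩ := h1
  have hL := Bg.L_pos hB
  have hSu : ∀ k, Sm (Ioo 0 1) L (u k) := fun k => (hu k).1
  obtain ⟨ν, hν⟩ := exists_sub hB hbm hdm hSu hu1 hu2
  refine ⟨fun k τ => smV' L (u (ν k) τ), fun k => continuousOn_smV' hL (hSu _), ?_⟩
  have a1 := ae_slice_lt_top (meas_Wt κ) hbm.aemeasurable hb
  have a2 := ae_slice_lt_top (meas_Wt' κ) hdm.aemeasurable hd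
  filter_upwards [hν, a1, a2, ae_restrict_mem measurableSet_Ioo] with τ h1 h2 h3 hτ
  obtain ⟨hF1, hF2⟩ := h1
  have hw := om_pos (L := L) (κ := κ) hτ
  obtain ⟨hδ, hβ⟩ := slice_memLp hB hc0 hbm hdm hτ h2 h3
  have hsm : ∀ k, ContDiffOn ℝ (⊤ : ℕ∞) (u k τ) (Icc 0 L) := fun k =>
    (hSu k).contDiffOn_right hτ
  have hcu : ∀ k, MemLp (u k τ) 2 (mu L) := fun k => memLp_of_continuousOn hL (hsm k).continuousOn
  have hcuu : ∀ k, MemLp (fun x => phi0 L x * dd L (u k τ) x) 2 (mu L) := fun k =>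
    memLp_of_continuousOn hL ((sm_phi0dd hL (hSu k)).continuousOn_right hτ)
  refine ⟨hδ, hβ, ?_⟩
  refine tendsto_pair (fun k => hsm _) ?_ ?_
  · refine tendsto_toHL (fun k => hcu _) hδ ?_
    exact slice_tendsto hw (W := Wt' κ τ) (c := 1)
      (fun x hx => om_le_Wt' hτ (Ioo_subset_Icc_self hx)) (fun k x _ => by rw [one_mul]) hF2
  · refine tendsto_toHL (fun k => hcuu _) hβ ?_
    refine slice_tendsto hw (W := Wt κ τ) (c := (c0 ^ 2)⁻¹)
      (fun x hx => om_le_Wt hτ (Ioo_subset_Icc_self hx)) (fun k x hx => ?_) hF1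
    have h5 := hB.lower τ hτ x (Ioo_subset_Icc_self hx)
    have h6 : m τ x ≠ 0 := (hc0.trans_le h5).ne'
    have e : phi0 L x * dd L (u (ν k) τ) x - b τ x / m τ x
        = (φ τ x * dx L (dx L (u (ν k))) τ x - b τ x) / m τ x := by
      rw [hB.phi_eq τ hτ x (Ioo_subset_Icc_self hx)]
      unfold phi0 dd dx
      field_simp
    rw [e]
    exact sq_div_le hc0 h5

end Crest.Agent.R213.B
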