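import Crest.Agent.R213.B.Conc3
import Mathlib

/-!
# Row 213, part B, B2: the weak solution as a curve in `V` (measurability, local square integrability)
-/

set_option autoImplicit false

open Set MeasureTheory Filter Topology
open scoped BoundedContinuousFunction RealInnerProductSpace ENNReal

noncomputable section

namespace Crest.Agent.R213.B

variable {L : ℝ} {u : ℝ → ℝ → ℝ}

/-- the hypotheses of part B on the weak solution -/
structure WS (L κ : ℝ) (φ b δ : ℝ → ℝ → ℝ) : Prop where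
  bm : Measurable (fun p : ℝ × ℝ => b p.1 p.2)
  dm : Measurable (fun p : ℝ × ℝ => δ p.1 p.2)
  bN : N2 L (Wt κ) b < ⊤
  dN : N2 L (Wt' κ) δ < ⊤
  ap : ∃ u : ℕ → ℝ → ℝ → ℝ, (∀ k, Tst L (u k)) ∧
          Tendsto (fun k => N2 L (Wt κ) (fun τ x => φ τ x * dx L (dx L (u k)) τ x - b τ x))
            atTop (𝓝 0) ∧
          Tendsto (fun k => N2 L (Wt' κ) (fun τ x => u k τ x - δ τ x)) atTop (𝓝 0)

instance : SecondCountableTopologyEither ℝ (VL L) := ⟨Or.inl inferInstance⟩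

variable {c0 C0 κ : ℝ} {g : ℝ → ℝ} {φ m b δ : ℝ → ℝ → ℝ}

theorem wc_ae (hB : Bg c0 C0 g L φ m) (hc0 : 0 < c0) (hW : WS L κ φ b δ) :
    AEStronglyMeasurable (wc L m δ b) (volume.restrict (Ioo (0 : ℝ) 1)) ∧
    ∀ᵐ τ ∂(volume.restrict (Ioo (0 : ℝ) 1)),
      MemLp (δ τ) 2 (mu L) ∧ MemLp (fun x => b τ x / m τ x) 2 (mu L) ∧
      (wc L m δ b τ : WithLp 2 (HL L × HL L)) =
        WithLp.toLp 2 (toHL L (δ τ), toHL L (fun x => b τ x / m τ x)) := by
  obtain ⟨wk, hwk, hae⟩ := conc_ae hB hc0 hW.bm hW.dm hW.bN hW.dN hW.ap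
  have hmem : ∀ {τ : ℝ}, Tendsto (fun k => (wk k τ : WithLp 2 (HL L × HL L))) atTop
      (𝓝 (WithLp.toLp 2 (toHL L (δ τ), toHL L (fun x => b τ x / m τ x)))) →
      WithLp.toLp 2 (toHL L (δ τ), toHL L (fun x => b τ x / m τ x)) ∈ VS L := by
    intro τ h
    have hcl : IsClosed (VS L : Set (WithLp 2 (HL L × HL L))) :=
      Submodule.isClosed_topologicalClosure _
    exact hcl.mem_of_tendsto h (Eventually.of_forall fun k => (wk k τ).2)
  constructor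
  · refine aestronglyMeasurable_of_tendsto_ae (u := atTop) (f := wk)
      (fun k => (hwk k).aestronglyMeasurable measurableSet_Ioo) ?_
    filter_upwards [hae] with τ hτ
    rw [tendsto_subtype_rng, wc_coe (hmem hτ.2.2)]
    exact hτ.2.2
  · filter_upwards [hae] with τ hτ
    exact ⟨hτ.1, hτ.2.1, wc_coe (hmem hτ.2.2)⟩

theorem JL_wc {τ : ℝ} (h : (wc L m δ b τ : WithLp 2 (HL L × HL L)) =
      WithLp.toLp 2 (toHL L (δ τ), toHL L (fun x => b τ x / m τ x))) :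
    JL L (wc L m δ b τ) = toHL L (δ τ) := by
  rw [JL_apply, h]; rfl

theorem BL_wc {τ : ℝ} (h : (wc L m δ b τ : WithLp 2 (HL L × HL L)) =
      WithLp.toLp 2 (toHL L (δ τ), toHL L (fun x => b τ x / m τ x))) :
    BL L (wc L m δ b τ) = toHL L (fun x => b τ x / m τ x) := by
  rw [BL_apply, h]; rfl

/-- norm bound for almost every slice in terms of the weighted slices -/
theorem wc_norm_le (hB : Bg c0 C0 g L φ m) (hc0 : 0 < c0) {τ : ℝ} (hτ : τ ∈ Ioo (0 : ℝ) 1)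
    {w : ℝ} (hw0 : 0 < w) (hw : w ≤ om L κ τ)
    (h1 : MemLp (δ τ) 2 (mu L)) (h2 : MemLp (fun x => b τ x / m τ x) 2 (mu L))
    (h : (wc L m δ b τ : WithLp 2 (HL L × HL L)) =
      WithLp.toLp 2 (toHL L (δ τ), toHL L (fun x => b τ x / m τ x))) :
    ENNReal.ofReal w * ENNReal.ofReal (‖wc L m δ b τ‖ ^ 2) ≤
      ENNReal.ofReal 1 * (∫⁻ x in Ioo 0 L, ENNReal.ofReal (Wt' κ τ x * x ^ 9 * (δ τ x) ^ 2)) +
      ENNReal.ofReal ((c0 ^ 2)⁻¹) *
        (∫⁻ x in Ioo 0 L, ENNReal.ofReal (Wt κ τ x * x ^ 9 * (b τ x) ^ 2)) := by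
  rw [norm_VL, JL_wc h, BL_wc h, ENNReal.ofReal_add (sq_nonneg _) (sq_nonneg _), mul_add,
    norm_toHL_sq h1, norm_toHL_sq h2]
  apply add_le_add
  · exact slice_le hw0.le (fun x hx => hw.trans (om_le_Wt' hτ (Ioo_subset_Icc_self hx)))
      (fun x _ => by rw [one_mul])
  · exact slice_le hw0.le (fun x hx => hw.trans (om_le_Wt hτ (Ioo_subset_Icc_self hx)))
      (fun x hx => sq_div_le hc0 (hB.lower τ hτ x (Ioo_subset_Icc_self hx)))

theorem wc_memLp (hB : Bg c0 C0 g L φ m) (hc0 : 0 < c0) (hW : WS L κ φ b δ) (p q : ℝ)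
    (hp : 0 < p) (hq : q < 1) :
    MemLp (wc L m δ b) 2 (volume.restrict (Icc p q)) := by
  have hsub : Icc p q ⊆ Ioo 0 1 := fun x hx => ⟨hp.trans_le hx.1, hx.2.trans_lt hq⟩
  obtain ⟨hmeas, hae⟩ := wc_ae hB hc0 hW
  have hmeas' : AEStronglyMeasurable (wc L m δ b) (volume.restrict (Icc p q)) :=
    hmeas.mono_measure (Measure.restrict_mono hsub le_rfl)
  refine ⟨hmeas', ?_⟩
  rcases lt_or_ge q p with hpq | hpq
  · rw [Icc_eq_empty (not_le.2 hpq), Measure.restrict_empty]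
    simp
  obtain ⟨c, hc, hcl⟩ := om_lower (L := L) (κ := κ) hp hpq
  rw [eLpNorm_lt_top_iff_lintegral_rpow_enorm_lt_top (by norm_num) (by norm_num)]
  have e : ∫⁻ τ in Icc p q, ‖wc L m δ b τ‖ₑ ^ (2 : ℝ≥0∞).toReal
      = ∫⁻ τ in Icc p q, ENNReal.ofReal (‖wc L m δ b τ‖ ^ 2) := by
    refine lintegral_congr fun τ => ?_
    simp only [ENNReal.toReal_ofNat, ENNReal.rpow_ofNat]
    rw [← ofReal_norm, ← ENNReal.ofReal_pow (norm_nonneg _)]
  rw [e]
  -- the weighted double integrals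
  have f1 : ∫⁻ τ in Ioo (0 : ℝ) 1, ∫⁻ x in Ioo 0 L,
      ENNReal.ofReal (Wt κ τ x * x ^ 9 * (b τ x) ^ 2) < ⊤ := by
    have := hW.bN
    unfold N2 at this
    rwa [lintegral_S (F := fun τ x => ENNReal.ofReal (Wt κ τ x * x ^ 9 * (b τ x) ^ 2))
      (aemeas_integrand (meas_Wt κ) hW.bm.aemeasurable)] at this
  have f2 : ∫⁻ τ in Ioo (0 : ℝ) 1, ∫⁻ x in Ioo 0 L,
      ENNReal.ofReal (Wt' κ τ x * x ^ 9 * (δ τ x) ^ 2) < ⊤ := by
    have := hW.dN
    unfold N2 at this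
    rwa [lintegral_S (F := fun τ x => ENNReal.ofReal (Wt' κ τ x * x ^ 9 * (δ τ x) ^ 2))
      (aemeas_integrand (meas_Wt' κ) hW.dm.aemeasurable)] at this
  have hm1 := aemeas_slice (L := L) (F := fun τ x => ENNReal.ofReal (Wt κ τ x * x ^ 9 * (b τ x) ^ 2))
    (aemeas_integrand (meas_Wt κ) hW.bm.aemeasurable)
  have hm2 := aemeas_slice (L := L) (F := fun τ x => ENNReal.ofReal (Wt' κ τ x * x ^ 9 * (δ τ x) ^ 2))
    (aemeas_integrand (meas_Wt' κ) hW.dm.aemeasurable)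
  have hbound : ENNReal.ofReal c * ∫⁻ τ in Icc p q, ENNReal.ofReal (‖wc L m δ b τ‖ ^ 2) < ⊤ := by
    rw [← lintegral_const_mul' _ _ ENNReal.ofReal_ne_top]
    calc ∫⁻ τ in Icc p q, ENNReal.ofReal c * ENNReal.ofReal (‖wc L m δ b τ‖ ^ 2)
        ≤ ∫⁻ τ in Icc p q, (ENNReal.ofReal 1 *
            (∫⁻ x in Ioo 0 L, ENNReal.ofReal (Wt' κ τ x * x ^ 9 * (δ τ x) ^ 2)) +
          ENNReal.ofReal ((c0 ^ 2)⁻¹) *
            (∫⁻ x in Ioo 0 L, ENNReal.ofReal (Wt κ τ x * x ^ 9 * (b τ x) ^ 2))) := by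
          refine lintegral_mono_ae ?_
          have hae' : ∀ᵐ τ ∂(volume.restrict (Icc p q)),
              MemLp (δ τ) 2 (mu L) ∧ MemLp (fun x => b τ x / m τ x) 2 (mu L) ∧
              (wc L m δ b τ : WithLp 2 (HL L × HL L)) =
                WithLp.toLp 2 (toHL L (δ τ), toHL L (fun x => b τ x / m τ x)) :=
            ae_mono (Measure.restrict_mono hsub le_rfl) hae
          filter_upwards [hae', ae_restrict_mem measurableSet_Icc] with τ h hτ
          exact wc_norm_le hB hc0 (hsub hτ) hc (hcl τ hτ) h.1 h.2.1 h.2.2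
      _ ≤ ∫⁻ τ in Ioo (0 : ℝ) 1, (ENNReal.ofReal 1 *
            (∫⁻ x in Ioo 0 L, ENNReal.ofReal (Wt' κ τ x * x ^ 9 * (δ τ x) ^ 2)) +
          ENNReal.ofReal ((c0 ^ 2)⁻¹) *
            (∫⁻ x in Ioo 0 L, ENNReal.ofReal (Wt κ τ x * x ^ 9 * (b τ x) ^ 2))) :=
          lintegral_mono_set hsub
      _ < ⊤ := by
          rw [lintegral_add_left' (hm2.const_mul _), lintegral_const_mul'' _ hm2,
            lintegral_const_mul'' _ hm1]
          exact ENNReal.add_lt_top.2 ⟨ENNReal.mul_lt_top ENNReal.ofReal_lt_top f2,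
            ENNReal.mul_lt_top ENNReal.ofReal_lt_top f1⟩
  by_contra h3
  rw [not_lt, top_le_iff] at h3
  rw [h3, ENNReal.mul_top (by simpa using hc)] at hbound
  exact lt_irrefl _ hbound

end Crest.Agent.R213.B
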