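import Crest.Agent.R213.B.Space

/-!
# Row 213, part B: elements of the graph space are limits of smooth functions (helper182)
-/

set_option autoImplicit false

open Set MeasureTheory Filter Topology
open scoped RealInnerProductSpace ENNReal

noncomputable section

namespace Crest.Agent.R213.B

theorem lintegral_sq_HL {L : ℝ} (f : HL L) :
    ∫⁻ x, ENNReal.ofReal ((f x) ^ 2) ∂(mu L) = ENNReal.ofReal (‖f‖ ^ 2) := by
  have h1 : MemLp (f : ℝ → ℝ) 2 (mu L) := Lp.memLp f
  have h2 : Integrable (fun x => (f x) ^ 2) (mu L) := h1.integrable_sq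
  rw [← ofReal_integral_eq_lintegral_ofReal h2 (Eventually.of_forall fun x => sq_nonneg _)]
  congr 1
  rw [← real_inner_self_eq_norm_sq, L2.inner_def]
  refine integral_congr_ae (Eventually.of_forall fun x => ?_)
  simp [sq]

theorem dd_add {L : ℝ} (hL : 0 < L) {p q : ℝ → ℝ} (hp : ContDiffOn ℝ (⊤ : ℕ∞) p (Icc 0 L))
    (hq : ContDiffOn ℝ (⊤ : ℕ∞) q (Icc 0 L)) {x : ℝ} (hx : x ∈ Icc 0 L) :
    dd L (fun x => p x + q x) x = dd L p x + dd L q x := by
  have hU := uniqueDiffOn_Icc hL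
  have hp1 : DifferentiableOn ℝ p (Icc 0 L) := hp.differentiableOn (by simp)
  have hq1 : DifferentiableOn ℝ q (Icc 0 L) := hq.differentiableOn (by simp)
  have hp2 : DifferentiableOn ℝ (fun y => derivWithin p (Icc 0 L) y) (Icc 0 L) :=
    (hp.derivWithin (m := (⊤ : ℕ∞)) hU (by simp)).differentiableOn (by simp)
  have hq2 : DifferentiableOn ℝ (fun y => derivWithin q (Icc 0 L) y) (Icc 0 L) :=
    (hq.derivWithin (m := (⊤ : ℕ∞)) hU (by simp)).differentiableOn (by simp)
  unfold dd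
  have e : ∀ y ∈ Icc 0 L, derivWithin (fun x => p x + q x) (Icc 0 L) y =
      derivWithin p (Icc 0 L) y + derivWithin q (Icc 0 L) y := by
    intro y hy
    exact ((hp1 y hy).hasDerivWithinAt.add (hq1 y hy).hasDerivWithinAt).derivWithin (hU y hy)
  rw [derivWithin_congr e (e x hx)]
  exact ((hp2 x hx).hasDerivWithinAt.add (hq2 x hx).hasDerivWithinAt).derivWithin (hU x hx)

theorem dd_smul {L : ℝ} (hL : 0 < L) (c : ℝ) {p : ℝ → ℝ}
    (hp : ContDiffOn ℝ (⊤ : ℕ∞) p (Icc 0 L)) {x : ℝ} (hx : x ∈ Icc 0 L) :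
    dd L (fun x => c * p x) x = c * dd L p x := by
  have hU := uniqueDiffOn_Icc hL
  have hp1 : DifferentiableOn ℝ p (Icc 0 L) := hp.differentiableOn (by simp)
  have hp2 : DifferentiableOn ℝ (fun y => derivWithin p (Icc 0 L) y) (Icc 0 L) :=
    (hp.derivWithin (m := (⊤ : ℕ∞)) hU (by simp)).differentiableOn (by simp)
  unfold dd
  have e : ∀ y ∈ Icc 0 L, derivWithin (fun x => c * p x) (Icc 0 L) y =
      c * derivWithin p (Icc 0 L) y := by
    intro y hy
    exact ((hp1 y hy).hasDerivWithinAt.const_mul c).derivWithin (hU y hy)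
  rw [derivWithin_congr e (e x hx)]
  exact ((hp2 x hx).hasDerivWithinAt.const_mul c).derivWithin (hU x hx)

theorem continuousOn_dd {L : ℝ} (hL : 0 < L) {p : ℝ → ℝ}
    (hp : ContDiffOn ℝ (⊤ : ℕ∞) p (Icc 0 L)) : ContinuousOn (dd L p) (Icc 0 L) := by
  have hU := uniqueDiffOn_Icc hL
  have h1 : ContDiffOn ℝ (⊤ : ℕ∞) (derivWithin p (Icc 0 L)) (Icc 0 L) :=
    hp.derivWithin (m := (⊤ : ℕ∞)) hU (by simp)
  have h2 : ContDiffOn ℝ (⊤ : ℕ∞) (derivWithin (derivWithin p (Icc 0 L)) (Icc 0 L)) (Icc 0 L) :=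
    h1.derivWithin (m := (⊤ : ℕ∞)) hU (by simp)
  exact h2.continuousOn

theorem continuousOn_phi0_dd {L : ℝ} (hL : 0 < L) {p : ℝ → ℝ}
    (hp : ContDiffOn ℝ (⊤ : ℕ∞) p (Icc 0 L)) :
    ContinuousOn (fun x => phi0 L x * dd L p x) (Icc 0 L) :=
  (continuous_phi0 L).continuousOn.mul (continuousOn_dd hL hp)

theorem toHL_add {L : ℝ} (hL : 0 < L) {f g : ℝ → ℝ} (hf : ContinuousOn f (Icc 0 L))
    (hg : ContinuousOn g (Icc 0 L)) : toHL L (fun x => f x + g x) = toHL L f + toHL L g := by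
  have h1 := memLp_of_continuousOn hL hf
  have h2 := memLp_of_continuousOn hL hg
  rw [toHL_eq h1, toHL_eq h2, toHL_eq (L := L) (f := fun x => f x + g x) (h1.add h2)]
  rfl

theorem toHL_smul {L : ℝ} (hL : 0 < L) (c : ℝ) {f : ℝ → ℝ} (hf : ContinuousOn f (Icc 0 L)) :
    toHL L (fun x => c * f x) = c • toHL L f := by
  have h1 := memLp_of_continuousOn hL hf
  rw [toHL_eq h1, toHL_eq (L := L) (f := fun x => c * f x) (h1.const_mul c)]
  rfl

theorem mem_G0_of_mem_span {L : ℝ} (hL : 0 < L) {z : WithLp 2 (HL L × HL L)}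
    (hz : z ∈ Submodule.span ℝ (G0 L)) : z ∈ G0 L := by
  induction hz using Submodule.span_induction with
  | mem z hz => exact hz
  | zero =>
    refine ⟨fun _ => 0, contDiffOn_const, ?_⟩
    have h0 : toHL L (fun _ => (0 : ℝ)) = 0 := by
      have h := toHL_smul hL 0 (f := fun _ => (0 : ℝ)) continuousOn_const
      simpa using h
    have h1 : toHL L (fun x => phi0 L x * dd L (fun _ => (0 : ℝ)) x) = 0 := by
      have e : (fun x => phi0 L x * dd L (fun _ => (0 : ℝ)) x) = fun _ => (0 : ℝ) := by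
        funext x
        have : (fun y : ℝ => derivWithin (fun _ : ℝ => (0 : ℝ)) (Icc 0 L) y) = fun _ => 0 := by
          funext y; simp
        simp [dd]
      rw [e, h0]
    rw [h0, h1]
    rfl
  | add a b ha hb iha ihb =>
    obtain ⟨p, hp, rfl⟩ := iha
    obtain ⟨q, hq, rfl⟩ := ihb
    refine ⟨fun x => p x + q x, hp.add hq, ?_⟩
    rw [toHL_add hL hp.continuousOn hq.continuousOn]
    have e : toHL L (fun x => phi0 L x * dd L (fun x => p x + q x) x) =
        toHL L (fun x => phi0 L x * dd L p x) + toHL L (fun x => phi0 L x * dd L q x) := by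
      rw [← toHL_add hL (continuousOn_phi0_dd hL hp) (continuousOn_phi0_dd hL hq)]
      have hc : ContinuousOn (fun x => phi0 L x * dd L (fun x => p x + q x) x) (Icc 0 L) :=
        continuousOn_phi0_dd hL (hp.add hq)
      have hc2 : ContinuousOn (fun x => phi0 L x * dd L p x + phi0 L x * dd L q x) (Icc 0 L) :=
        (continuousOn_phi0_dd hL hp).add (continuousOn_phi0_dd hL hq)
      apply Lp.ext
      refine (coe_toHL (memLp_of_continuousOn hL hc)).trans ?_
      refine EventuallyEq.trans ?_ (coe_toHL (memLp_of_continuousOn hL hc2)).symm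
      filter_upwards [ae_mu_mem L] with x hx
      rw [dd_add hL hp hq (Ioo_subset_Icc_self hx)]
      ring
    rw [e]
    rfl
  | smul c a ha iha =>
    obtain ⟨p, hp, rfl⟩ := iha
    refine ⟨fun x => c * p x, contDiffOn_const.mul hp, ?_⟩
    rw [toHL_smul hL c hp.continuousOn]
    have e : toHL L (fun x => phi0 L x * dd L (fun x => c * p x) x) =
        c • toHL L (fun x => phi0 L x * dd L p x) := by
      rw [← toHL_smul hL c (continuousOn_phi0_dd hL hp)]
      have hc : ContinuousOn (fun x => phi0 L x * dd L (fun x => c * p x) x) (Icc 0 L) :=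
        continuousOn_phi0_dd hL (contDiffOn_const.mul hp)
      have hc2 : ContinuousOn (fun x => c * (phi0 L x * dd L p x)) (Icc 0 L) :=
        (continuousOn_phi0_dd hL hp).const_mul c
      apply Lp.ext
      refine (coe_toHL (memLp_of_continuousOn hL hc)).trans ?_
      refine EventuallyEq.trans ?_ (coe_toHL (memLp_of_continuousOn hL hc2)).symm
      filter_upwards [ae_mu_mem L] with x hx
      rw [dd_smul hL c hp (Ioo_subset_Icc_self hx)]
      ring
    rw [e]
    rfl

theorem tendsto_lintegral_of_tendsto {L : ℝ} (hL : 0 < L) {f : ℕ → ℝ → ℝ}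
    (hf : ∀ k, ContinuousOn (f k) (Icc 0 L)) {U : HL L}
    (h : Tendsto (fun k => toHL L (f k)) atTop (𝓝 U)) :
    Tendsto (fun k => ∫⁻ x, ENNReal.ofReal ((f k x - U x) ^ 2) ∂(mu L)) atTop (𝓝 0) := by
  have h1 : ∀ k, ∫⁻ x, ENNReal.ofReal ((f k x - U x) ^ 2) ∂(mu L) =
      ENNReal.ofReal (‖toHL L (f k) - U‖ ^ 2) := by
    intro k
    rw [← lintegral_sq_HL]
    refine lintegral_congr_ae ?_
    filter_upwards [coe_toHL (memLp_of_continuousOn hL (hf k)), Lp.coeFn_sub (toHL L (f k)) U]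
      with x h2 h3
    rw [h3, Pi.sub_apply, h2]
  simp_rw [h1]
  have h2 : Tendsto (fun k => ‖toHL L (f k) - U‖ ^ 2) atTop (𝓝 0) := by
    have h3 := tendsto_iff_norm_sub_tendsto_zero.1 h
    have := h3.pow 2
    simpa using this
  have h4 := (ENNReal.continuous_ofReal.tendsto 0).comp h2
  rw [ENNReal.ofReal_zero] at h4
  exact h4

/-- every element of the graph space is a limit of smooth functions -/
theorem inV_of_VL {L : ℝ} (hL : 0 < L) (v : VL L) : InV L (JL L v) (BL L v) := by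
  have hv : (v : WithLp 2 (HL L × HL L)) ∈ closure
      (Submodule.span ℝ (G0 L) : Set (WithLp 2 (HL L × HL L))) := v.2
  obtain ⟨z, hz, hlim⟩ := mem_closure_iff_seq_limit.1 hv
  choose p hp hpz using fun k => mem_G0_of_mem_span hL (hz k)
  refine ⟨p, hp, ?_, ?_⟩
  · refine tendsto_lintegral_of_tendsto hL (fun k => (hp k).continuousOn) ?_
    have h1 : Tendsto (fun k => (WithLp.fstL 2 ℝ (HL L) (HL L)) (z k)) atTop
        (𝓝 ((WithLp.fstL 2 ℝ (HL L) (HL L)) (v : WithLp 2 (HL L × HL L)))) :=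
      ((WithLp.fstL 2 ℝ (HL L) (HL L)).continuous.tendsto _).comp hlim
    refine h1.congr fun k => ?_
    rw [hpz k]
    rfl
  · refine tendsto_lintegral_of_tendsto (f := fun k x => x * (1 - x / L) * dd L (p k) x) hL
      (fun k => continuousOn_phi0_dd hL (hp k)) ?_
    have h1 : Tendsto (fun k => (WithLp.sndL 2 ℝ (HL L) (HL L)) (z k)) atTop
        (𝓝 ((WithLp.sndL 2 ℝ (HL L) (HL L)) (v : WithLp 2 (HL L × HL L)))) :=
      ((WithLp.sndL 2 ℝ (HL L) (HL L)).continuous.tendsto _).comp hlim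
    refine h1.congr fun k => ?_
    rw [hpz k]
    rfl

end Crest.Agent.R213.B
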