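import Crest.Agent.R213.B.Conc4
import Crest.Agent.R213.B.VInV
import Mathlib

/-!
# Row 213, part B, B2: the weak equation for the curve
-/

set_option autoImplicit false

open Set MeasureTheory Filter Topology
open scoped BoundedContinuousFunction RealInnerProductSpace ENNReal ContDiff

noncomputable section

namespace Crest.Agent.R213.B

variable {L : ℝ} {u : ℝ → ℝ → ℝ}
variable {c0 C0 κ : ℝ} {g : ℝ → ℝ} {φ m b δ E ht : ℝ → ℝ → ℝ}

/-! ### cut-off functions -/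

theorem exists_Icc_of_tsupport {χ : ℝ → ℝ} (h : HasCompactSupport χ) (h2 : tsupport χ ⊆ Ioo 0 1) :
    ∃ p q : ℝ, 0 < p ∧ p < q ∧ q < 1 ∧ (∀ τ, τ ∉ Icc p q → χ τ = 0) ∧
      (∀ τ, τ ∉ Icc p q → deriv χ τ = 0) := by
  have key : ∃ p q : ℝ, 0 < p ∧ p < q ∧ q < 1 ∧ tsupport χ ⊆ Icc p q := by
    rcases (tsupport χ).eq_empty_or_nonempty with he | hne
    · exact ⟨1 / 4, 1 / 2, by norm_num, by norm_num, by norm_num, by rw [he]; exact empty_subset _⟩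
    · have hc : IsCompact (tsupport χ) := h
      obtain ⟨a, ha, ha2⟩ := hc.exists_isLeast hne
      obtain ⟨b, hb, hb2⟩ := hc.exists_isGreatest hne
      have h3 := h2 ha
      have h4 := h2 hb
      have h5 : a ≤ b := ha2 hb
      refine ⟨a / 2, (b + 1) / 2, by linarith [h3.1], by linarith [h3.1, h4.2],
        by linarith [h4.2], fun x hx => ⟨?_, ?_⟩⟩
      · linarith [ha2 hx, h3.1]
      · linarith [hb2 hx, h4.2]
  obtain ⟨p, q, hp, hpq, hq, hs⟩ := key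
  refine ⟨p, q, hp, hpq, hq, fun τ hτ => ?_, fun τ hτ => ?_⟩
  · by_contra h3
    exact hτ (hs (subset_tsupport _ h3))
  · by_contra h3
    exact hτ (hs (support_deriv_subset h3))

theorem integrable_smul_of_Icc {X : Type*} [NormedAddCommGroup X] [NormedSpace ℝ X] {θ : ℝ → ℝ}
    (hθ : Continuous θ) {p q : ℝ} (hs : ∀ τ, τ ∉ Icc p q → θ τ = 0) {F : ℝ → X}
    (hF : IntegrableOn F (Icc p q)) : Integrable (fun τ => θ τ • F τ) := by
  have h1 : IntegrableOn (fun τ => θ τ • F τ) (Icc p q) := by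
    obtain ⟨C, hC⟩ := isCompact_Icc.exists_bound_of_continuousOn (hθ.continuousOn (s := Icc p q))
    refine Integrable.bdd_smul hF C hθ.aestronglyMeasurable ?_
    filter_upwards [ae_restrict_mem measurableSet_Icc] with x hx
    exact hC x hx
  rw [← integrableOn_iff_integrable_of_support_subset (s := Icc p q)]
  · exact h1
  · intro τ hτ
    by_contra h3
    apply hτ
    simp only [hs τ h3, zero_smul]

/-! ### integrability on the strip -/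

theorem vol_S_lt_top : volume (Ioo (0 : ℝ) 1 ×ˢ Ioo (0 : ℝ) L) < ⊤ := by
  rw [Measure.volume_eq_prod, Measure.prod_prod]
  simp

theorem integrableOn_of_N2 {V y : ℝ → ℝ → ℝ} (hV : Measurable (fun p : ℝ × ℝ => V p.1 p.2))
    (hV0 : ∀ τ ∈ Ioo (0 : ℝ) 1, ∀ x ∈ Icc 0 L, 0 ≤ V τ x)
    (hy : Measurable (fun p : ℝ × ℝ => y p.1 p.2)) (h : N2 L V y < ⊤) :
    IntegrableOn (fun p : ℝ × ℝ => V p.1 p.2 * p.2 ^ 9 * (y p.1 p.2) ^ 2)
      (Ioo (0 : ℝ) 1 ×ˢ Ioo (0 : ℝ) L) := by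
  refine ⟨((hV.mul (measurable_snd.pow_const 9)).mul (hy.pow_const 2)).aestronglyMeasurable, ?_⟩
  rw [hasFiniteIntegral_iff_ofReal]
  · exact h
  · filter_upwards [ae_restrict_mem meas_S] with p hp
    have := hV0 p.1 hp.1 p.2 (Ioo_subset_Icc_self hp.2)
    have := hp.2.1.le
    positivity

theorem integrableOn_S_mul {V y A : ℝ → ℝ → ℝ} (hL : 0 < L)
    (hV : Measurable (fun p : ℝ × ℝ => V p.1 p.2))
    (hVo : ∀ τ ∈ Ioo (0 : ℝ) 1, ∀ x ∈ Icc 0 L, om L κ τ ≤ V τ x)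
    (hy : Measurable (fun p : ℝ × ℝ => y p.1 p.2)) (h : N2 L V y < ⊤)
    (hA : Sm (Ioo 0 1) L A) {p q : ℝ} (hp : 0 < p) (hpq : p < q) (hq : q < 1)
    (hA0 : ∀ τ, τ ∉ Icc p q → ∀ x ∈ Icc 0 L, A τ x = 0) :
    IntegrableOn (fun z : ℝ × ℝ => z.2 ^ 9 * (A z.1 z.2 * y z.1 z.2))
      (Ioo (0 : ℝ) 1 ×ˢ Ioo (0 : ℝ) L) := by
  have hsub : Icc p q ⊆ Ioo 0 1 := fun x hx => ⟨hp.trans_le hx.1, hx.2.trans_lt hq⟩
  obtain ⟨C, hC⟩ := (isCompact_Icc.prod isCompact_Icc).exists_bound_of_continuousOn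
    (hA.continuousOn.mono (prod_mono hsub (subset_refl (Icc 0 L))))
  have hC0 : 0 ≤ C := (norm_nonneg _).trans (hC (p, 0) ⟨⟨le_refl _, hpq.le⟩, ⟨le_refl _, hL.le⟩⟩)
  obtain ⟨c, hc, hcl⟩ := om_lower (L := L) (κ := κ) hp hpq.le
  have hV0 : ∀ τ ∈ Ioo (0 : ℝ) 1, ∀ x ∈ Icc 0 L, 0 ≤ V τ x := fun τ hτ x hx =>
    (om_pos hτ).le.trans (hVo τ hτ x hx)
  have h1 := integrableOn_of_N2 hV hV0 hy h
  have h2 : IntegrableOn (fun _ : ℝ × ℝ => C * L ^ 9) (Ioo (0 : ℝ) 1 ×ˢ Ioo (0 : ℝ) L) :=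
    integrableOn_const vol_S_lt_top.ne
  have h3 := h2.add (h1.const_mul (C / c))
  refine Integrable.mono' h3 ?_ ?_
  · apply AEStronglyMeasurable.mul
    · exact (measurable_snd.pow_const 9).aestronglyMeasurable
    · exact (Sm.aemeas hA).aestronglyMeasurable.mul hy.aestronglyMeasurable
  · filter_upwards [ae_restrict_mem meas_S] with z hz
    have hx := Ioo_subset_Icc_self hz.2
    have hx0 := hz.2.1.le
    have hx9 : 0 ≤ z.2 ^ 9 := pow_nonneg hx0 9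
    have hxL : z.2 ^ 9 ≤ L ^ 9 := pow_le_pow_left₀ hx0 hx.2 9
    simp only [Pi.add_apply]
    by_cases hτ : z.1 ∈ Icc p q
    · have e1 : |A z.1 z.2| ≤ C := hC z ⟨hτ, hx⟩
      have e2 : c ≤ V z.1 z.2 := (hcl _ hτ).trans (hVo _ (hsub hτ) _ hx)
      rw [Real.norm_eq_abs, abs_mul, abs_mul, abs_of_nonneg hx9]
      have e3 : |y z.1 z.2| ≤ 1 + (y z.1 z.2) ^ 2 := by
        nlinarith [sq_nonneg (|y z.1 z.2| - 1), abs_nonneg (y z.1 z.2), sq_abs (y z.1 z.2)]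
      calc z.2 ^ 9 * (|A z.1 z.2| * |y z.1 z.2|)
          ≤ z.2 ^ 9 * (C * (1 + (y z.1 z.2) ^ 2)) := by gcongr
        _ = C * z.2 ^ 9 + C / c * (c * z.2 ^ 9 * (y z.1 z.2) ^ 2) := by
            field_simp
        _ ≤ C * L ^ 9 + C / c * (V z.1 z.2 * z.2 ^ 9 * (y z.1 z.2) ^ 2) := by gcongr
    · rw [hA0 _ hτ _ hx, zero_mul, mul_zero, norm_zero]
      have := hV0 _ hz.1 _ hx
      positivity

theorem integrableOn_S_sm {A : ℝ → ℝ → ℝ} (hL : 0 < L)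
    (hA : Sm (Ioo 0 1) L A) {p q : ℝ} (hp : 0 < p) (hpq : p < q) (hq : q < 1)
    (hA0 : ∀ τ, τ ∉ Icc p q → ∀ x ∈ Icc 0 L, A τ x = 0) :
    IntegrableOn (fun z : ℝ × ℝ => z.2 ^ 9 * A z.1 z.2)
      (Ioo (0 : ℝ) 1 ×ˢ Ioo (0 : ℝ) L) := by
  have hsub : Icc p q ⊆ Ioo 0 1 := fun x hx => ⟨hp.trans_le hx.1, hx.2.trans_lt hq⟩
  obtain ⟨C, hC⟩ := (isCompact_Icc.prod isCompact_Icc).exists_bound_of_continuousOn
    (hA.continuousOn.mono (prod_mono hsub (subset_refl (Icc 0 L))))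
  have hC0 : 0 ≤ C := (norm_nonneg _).trans (hC (p, 0) ⟨⟨le_refl _, hpq.le⟩, ⟨le_refl _, hL.le⟩⟩)
  have h2 : IntegrableOn (fun _ : ℝ × ℝ => L ^ 9 * C) (Ioo (0 : ℝ) 1 ×ˢ Ioo (0 : ℝ) L) :=
    integrableOn_const vol_S_lt_top.ne
  refine Integrable.mono' h2 ?_ ?_
  · apply AEStronglyMeasurable.mul
    · exact (measurable_snd.pow_const 9).aestronglyMeasurable
    · exact (Sm.aemeas hA).aestronglyMeasurable
  · filter_upwards [ae_restrict_mem meas_S] with z hz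
    have hx := Ioo_subset_Icc_self hz.2
    have hx0 := hz.2.1.le
    have hx9 : 0 ≤ z.2 ^ 9 := pow_nonneg hx0 9
    have hxL : z.2 ^ 9 ≤ L ^ 9 := pow_le_pow_left₀ hx0 hx.2 9
    rw [Real.norm_eq_abs, abs_mul, abs_of_nonneg hx9]
    by_cases hτ : z.1 ∈ Icc p q
    · have e1 : |A z.1 z.2| ≤ C := hC z ⟨hτ, hx⟩
      gcongr
    · rw [hA0 _ hτ _ hx, abs_zero, mul_zero]
      positivity

theorem II_eq {F : ℝ → ℝ → ℝ}
    (hF : IntegrableOn (fun z : ℝ × ℝ => F z.1 z.2) (Ioo (0 : ℝ) 1 ×ˢ Ioo (0 : ℝ) L)) :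
    II L F = ∫ τ in Ioo (0 : ℝ) 1, ∫ x in Ioo 0 L, F τ x := by
  unfold II
  exact setIntegral_prod (fun z : ℝ × ℝ => F z.1 z.2) hF

/-! ### the test functions `χ(τ) p(x)` -/

variable {χ p : ℝ → ℝ}

theorem sm_chip (hχ : ContDiff ℝ ∞ χ) (hp : ContDiffOn ℝ ∞ p (Icc 0 L)) :
    Sm (Ioo 0 1) L (fun τ x => χ τ * p x) :=
  Sm.mul (Sm.of_left hχ.contDiffOn) (Sm.of_right hp)

theorem tst_chip (hχ : ContDiff ℝ ∞ χ) (hp : ContDiffOn ℝ ∞ p (Icc 0 L)) {a b : ℝ} (ha : 0 < a)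
    (hab : a < b) (hb : b < 1) (h0 : ∀ τ, τ ∉ Icc a b → χ τ = 0) :
    Tst L (fun τ x => χ τ * p x) :=
  ⟨sm_chip hχ hp, a, b, ha, hab, hb, fun τ x hτ => by simp only [h0 τ hτ, zero_mul]⟩

theorem dt_chip (hχ : ContDiff ℝ ∞ χ) (τ x : ℝ) :
    dt (fun τ x => χ τ * p x) τ x = deriv χ τ * p x := by
  unfold dt
  have : DifferentiableAt ℝ χ τ := (hχ.differentiable (by simp)) τ
  exact deriv_mul_const this _

theorem dxdx_chip (hL : 0 < L) (hp : ContDiffOn ℝ ∞ p (Icc 0 L)) (τ : ℝ) {x : ℝ}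
    (hx : x ∈ Icc 0 L) :
    dx L (dx L (fun τ x => χ τ * p x)) τ x = χ τ * dd L p x :=
  dd_smul hL (χ τ) hp hx

theorem slice_rhs (hB : Bg c0 C0 g L φ m) (hE : Sm (Ioo 0 1) L E) (hh : Sm (Ioo 0 1) L ht)
    (hp : ContDiffOn ℝ ∞ p (Icc 0 L)) {τ : ℝ} (hτ : τ ∈ Ioo (0 : ℝ) 1) (k : ℝ) :
    ∫ x in Ioo 0 L, x ^ 9 * (E τ x * (k * p x) + (φ τ x * ht τ x) * φ τ x * (k * dd L p x)) =
      k * (⟪toHL L (E τ), toHL L p⟫ + ⟪toHL L (fun x => phi0 L x * m τ x ^ 2 * ht τ x),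
        toHL L (fun x => phi0 L x * dd L p x)⟫) := by
  have hL := Bg.L_pos hB
  have h1 : MemLp (E τ) 2 (mu L) := memLp_of_continuousOn hL (hE.continuousOn_right hτ)
  have h2 : MemLp p 2 (mu L) := memLp_of_continuousOn hL hp.continuousOn
  have hφ0 : ContinuousOn (phi0 L) (Icc 0 L) := (continuous_phi0 L).continuousOn
  have h3 : MemLp (fun x => phi0 L x * m τ x ^ 2 * ht τ x) 2 (mu L) :=
    memLp_of_continuousOn hL ((hφ0.mul ((hB.sm.continuousOn_right hτ).pow 2)).mul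
      (hh.continuousOn_right hτ))
  have h4 : MemLp (fun x => phi0 L x * dd L p x) 2 (mu L) :=
    memLp_of_continuousOn hL (hφ0.mul (continuousOn_dd hL hp))
  rw [inner_toHL h1 h2, inner_toHL h3 h4, ← integral_add (integrable_w_mul h1 h2)
    (integrable_w_mul h3 h4), ← integral_const_mul]
  refine setIntegral_congr_fun measurableSet_Ioo fun x hx => ?_
  rw [hB.phi_eq τ hτ x (Ioo_subset_Icc_self hx)]
  unfold phi0
  ring

theorem slice_lhs (hB : Bg c0 C0 g L φ m) (hc0 : 0 < c0)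
    (hp : ContDiffOn ℝ ∞ p (Icc 0 L)) {τ : ℝ} (hτ : τ ∈ Ioo (0 : ℝ) 1) (k k' : ℝ)
    (hδ : MemLp (δ τ) 2 (mu L)) (hβ : MemLp (fun x => b τ x / m τ x) 2 (mu L)) :
    ∫ x in Ioo 0 L, x ^ 9 * (k' * p x * δ τ x + φ τ x * (k * dd L p x) * b τ x) =
      k' * ⟪toHL L p, toHL L (δ τ)⟫ + k * ⟪toHL L (fun x => phi0 L x * dd L p x),
        NL L m τ (toHL L (fun x => b τ x / m τ x))⟫ := by
  have hL := Bg.L_pos hB
  have h2 : MemLp p 2 (mu L) := memLp_of_continuousOn hL hp.continuousOn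
  have hφ0 : ContinuousOn (phi0 L) (Icc 0 L) := (continuous_phi0 L).continuousOn
  have h4 : MemLp (fun x => phi0 L x * dd L p x) 2 (mu L) :=
    memLp_of_continuousOn hL (hφ0.mul (continuousOn_dd hL hp))
  have hm2 : ContinuousOn (fun x => m τ x ^ 2) (Icc 0 L) := (hB.sm.continuousOn_right hτ).pow 2
  obtain ⟨h5, h6⟩ := mulL_toHL hL hm2 hβ
  unfold NL
  rw [h6, inner_toHL h2 hδ, inner_toHL h4 h5, ← integral_const_mul, ← integral_const_mul,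
    ← integral_add ((integrable_w_mul h2 hδ).const_mul k')
      ((integrable_w_mul h4 h5).const_mul k)]
  refine setIntegral_congr_fun measurableSet_Ioo fun x hx => ?_
  rw [hB.phi_eq τ hτ x (Ioo_subset_Icc_self hx)]
  have h7 : m τ x ≠ 0 := (hc0.trans_le (hB.lower τ hτ x (Ioo_subset_Icc_self hx))).ne'
  unfold phi0
  field_simp

/-- the weak equation tested with `χ(τ)p(x)`. -/
theorem weak_smooth (hB : Bg c0 C0 g L φ m) (hc0 : 0 < c0) (hW : WS L κ φ b δ)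
    (hE : Sm (Ioo 0 1) L E) (hh : Sm (Ioo 0 1) L ht)
    (h2 : ∀ ψ, Tst L ψ →
          II L (fun τ x => x ^ 9 * (dt ψ τ x * δ τ x + φ τ x * dx L (dx L ψ) τ x * b τ x)) =
            II L (fun τ x => x ^ 9 * (E τ x * ψ τ x +
              (φ τ x * ht τ x) * φ τ x * dx L (dx L ψ) τ x)))
    (hχ : ContDiff ℝ ∞ χ) (hχc : HasCompactSupport χ) (hχs : tsupport χ ⊆ Ioo 0 1)
    (hp : ContDiffOn ℝ ∞ p (Icc 0 L)) :
    ∫ τ, (deriv χ τ * ⟪JL L (smV L p hp), JL L (wc L m δ b τ)⟫ +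
        χ τ * ⟪BL L (smV L p hp), NL L m τ (BL L (wc L m δ b τ))⟫) =
      ∫ τ, χ τ * (⟪toHL L (E τ), JL L (smV L p hp)⟫ +
        ⟪toHL L (fun x => phi0 L x * m τ x ^ 2 * ht τ x), BL L (smV L p hp)⟫) := by
  have hL := Bg.L_pos hB
  obtain ⟨a, c, ha, hac, hc, hs1, hs2⟩ := exists_Icc_of_tsupport hχc hχs
  have hT := tst_chip (L := L) hχ hp ha hac hc hs1
  have h := h2 _ hT
  have hsub : Icc a c ⊆ Ioo 0 1 := fun x hx => ⟨ha.trans_le hx.1, hx.2.trans_lt hc⟩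
  have hχ' : ContDiff ℝ ∞ (deriv χ) := by
    exact (contDiff_infty_iff_deriv.1 hχ).2
  have hφ := hphi_sm hB
  have hdd : ContDiffOn ℝ ∞ (dd L p) (Icc 0 L) := by
    have h3 : Sm (Ioo 0 1) L (fun _ x => p x) := Sm.of_right hp
    have h4 := ((h3.dx isOpen_Ioo hL).dx isOpen_Ioo hL).contDiffOn_right
      (show (1 / 2 : ℝ) ∈ Ioo (0 : ℝ) 1 by constructor <;> norm_num)
    exact h4
  -- rewrite the integrands on the strip
  have eL : II L (fun τ x => x ^ 9 * (dt (fun τ x => χ τ * p x) τ x * δ τ x +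
      φ τ x * dx L (dx L (fun τ x => χ τ * p x)) τ x * b τ x)) =
      II L (fun τ x => x ^ 9 * (deriv χ τ * p x * δ τ x + φ τ x * (χ τ * dd L p x) * b τ x)) := by
    unfold II
    refine setIntegral_congr_fun meas_S fun z hz => ?_
    simp only
    rw [dt_chip hχ, dxdx_chip hL hp _ (Ioo_subset_Icc_self hz.2)]
  have eR : II L (fun τ x => x ^ 9 * (E τ x * (χ τ * p x) +
      (φ τ x * ht τ x) * φ τ x * dx L (dx L (fun τ x => χ τ * p x)) τ x)) =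
      II L (fun τ x => x ^ 9 * (E τ x * (χ τ * p x) +
        (φ τ x * ht τ x) * φ τ x * (χ τ * dd L p x))) := by
    unfold II
    refine setIntegral_congr_fun meas_S fun z hz => ?_
    simp only
    rw [dxdx_chip hL hp _ (Ioo_subset_Icc_self hz.2)]
  rw [eL, eR] at h
  -- integrability
  have hW' : ∀ τ ∈ Ioo (0 : ℝ) 1, ∀ x ∈ Icc 0 L, om L κ τ ≤ Wt' κ τ x := fun τ hτ x hx =>
    om_le_Wt' hτ hx
  have hWt : ∀ τ ∈ Ioo (0 : ℝ) 1, ∀ x ∈ Icc 0 L, om L κ τ ≤ Wt κ τ x := fun τ hτ x hx =>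
    om_le_Wt hτ hx
  have i1 := integrableOn_S_mul (κ := κ) (A := fun τ x => deriv χ τ * p x) hL (meas_Wt' κ) hW'
    hW.dm hW.dN (sm_chip hχ' hp) ha hac hc (fun τ hτ x _ => by rw [hs2 τ hτ, zero_mul])
  have i2 := integrableOn_S_mul (κ := κ) (A := fun τ x => φ τ x * (χ τ * dd L p x)) hL
    (meas_Wt κ) hWt hW.bm hW.bN (Sm.mul hφ (sm_chip hχ hdd)) ha hac hc
    (fun τ hτ x _ => by rw [hs1 τ hτ, zero_mul, mul_zero])
  have i3 := integrableOn_S_sm (A := fun τ x => E τ x * (χ τ * p x) +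
        (φ τ x * ht τ x) * φ τ x * (χ τ * dd L p x)) hL
    (Sm.add (Sm.mul hE (sm_chip hχ hp)) (Sm.mul (Sm.mul (Sm.mul hφ hh) hφ) (sm_chip hχ hdd)))
    ha hac hc (fun τ hτ x _ => by rw [hs1 τ hτ]; ring)
  have i12 : IntegrableOn (fun z : ℝ × ℝ => z.2 ^ 9 * (deriv χ z.1 * p z.2 * δ z.1 z.2 +
      φ z.1 z.2 * (χ z.1 * dd L p z.2) * b z.1 z.2)) (Ioo (0 : ℝ) 1 ×ˢ Ioo (0 : ℝ) L) := by
    refine (i1.add i2).congr (Eventually.of_forall fun z => ?_)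
    simp only [Pi.add_apply]
    ring
  rw [II_eq (F := fun τ x => x ^ 9 * (deriv χ τ * p x * δ τ x +
      φ τ x * (χ τ * dd L p x) * b τ x)) i12,
    II_eq (F := fun τ x => x ^ 9 * (E τ x * (χ τ * p x) +
        (φ τ x * ht τ x) * φ τ x * (χ τ * dd L p x))) i3] at h
  -- the abstract integrals live on `(0,1)`
  have f1 : ∫ τ, (deriv χ τ * ⟪JL L (smV L p hp), JL L (wc L m δ b τ)⟫ +
        χ τ * ⟪BL L (smV L p hp), NL L m τ (BL L (wc L m δ b τ))⟫) =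
      ∫ τ in Ioo (0 : ℝ) 1, (deriv χ τ * ⟪JL L (smV L p hp), JL L (wc L m δ b τ)⟫ +
        χ τ * ⟪BL L (smV L p hp), NL L m τ (BL L (wc L m δ b τ))⟫) := by
    symm
    apply setIntegral_eq_integral_of_forall_compl_eq_zero
    intro τ hτ
    rw [hs1 τ (fun h => hτ (hsub h)), hs2 τ (fun h => hτ (hsub h)), zero_mul, zero_mul, add_zero]
  have f2 : ∫ τ, χ τ * (⟪toHL L (E τ), JL L (smV L p hp)⟫ +
        ⟪toHL L (fun x => phi0 L x * m τ x ^ 2 * ht τ x), BL L (smV L p hp)⟫) =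
      ∫ τ in Ioo (0 : ℝ) 1, χ τ * (⟪toHL L (E τ), JL L (smV L p hp)⟫ +
        ⟪toHL L (fun x => phi0 L x * m τ x ^ 2 * ht τ x), BL L (smV L p hp)⟫) := by
    symm
    apply setIntegral_eq_integral_of_forall_compl_eq_zero
    intro τ hτ
    rw [hs1 τ (fun h => hτ (hsub h)), zero_mul]
  rw [f1, f2]
  have g1 : ∫ τ in Ioo (0 : ℝ) 1, (deriv χ τ * ⟪JL L (smV L p hp), JL L (wc L m δ b τ)⟫ +
        χ τ * ⟪BL L (smV L p hp), NL L m τ (BL L (wc L m δ b τ))⟫) =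
      ∫ τ in Ioo (0 : ℝ) 1, ∫ x in Ioo 0 L, x ^ 9 * (deriv χ τ * p x * δ τ x +
        φ τ x * (χ τ * dd L p x) * b τ x) := by
    refine integral_congr_ae ?_
    filter_upwards [(wc_ae hB hc0 hW).2, ae_restrict_mem measurableSet_Ioo] with τ h hτ
    rw [JL_wc h.2.2, BL_wc h.2.2, JL_smV, BL_smV, slice_lhs hB hc0 hp hτ _ _ h.1 h.2.1]
  have g2 : ∫ τ in Ioo (0 : ℝ) 1, χ τ * (⟪toHL L (E τ), JL L (smV L p hp)⟫ +
        ⟪toHL L (fun x => phi0 L x * m τ x ^ 2 * ht τ x), BL L (smV L p hp)⟫) =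
      ∫ τ in Ioo (0 : ℝ) 1, ∫ x in Ioo 0 L, x ^ 9 * (E τ x * (χ τ * p x) +
        (φ τ x * ht τ x) * φ τ x * (χ τ * dd L p x)) := by
    refine setIntegral_congr_fun measurableSet_Ioo fun τ hτ => ?_
    rw [JL_smV, BL_smV, slice_rhs hB hE hh hp hτ]
  rw [g1, g2, h]

end Crest.Agent.R213.B
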