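import Crest.Agent.R213.B.Conc5
import Mathlib

/-!
# Row 213, part B, B2: the weak equation for all `v ∈ V`, in the form of `TimeRegIface`
-/

set_option autoImplicit false

open Set MeasureTheory Filter Topology
open scoped BoundedContinuousFunction RealInnerProductSpace ENNReal ContDiff

noncomputable section

namespace Crest.Agent.R213.B

variable {L : ℝ} {c0 C0 κ : ℝ} {g : ℝ → ℝ} {φ m b δ E ht : ℝ → ℝ → ℝ}

theorem norm_JL_le (v : VL L) : ‖JL L v‖ ≤ ‖v‖ := by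
  have h := norm_VL v
  have h2 : ‖JL L v‖ ^ 2 ≤ ‖v‖ ^ 2 := by rw [h]; nlinarith [sq_nonneg ‖BL L v‖]
  exact le_of_sq_le_sq h2 (norm_nonneg _)
where
  le_of_sq_le_sq {a b : ℝ} (h : a ^ 2 ≤ b ^ 2) (hb : 0 ≤ b) : a ≤ b := abs_le_of_sq_le_sq' h hb |>.2

theorem integrableOn_wc (hB : Bg c0 C0 g L φ m) (hc0 : 0 < c0) (hW : WS L κ φ b δ) {p q : ℝ}
    (hp : 0 < p) (hq : q < 1) : IntegrableOn (wc L m δ b) (Icc p q) :=
  (wc_memLp hB hc0 hW p q hp hq).integrable (by norm_num)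

theorem integrableOn_NBwc (hB : Bg c0 C0 g L φ m) (hc0 : 0 < c0) (hW : WS L κ φ b δ) {p q : ℝ}
    (hp : 0 < p) (hq : q < 1) :
    IntegrableOn (fun τ => NL L m τ (BL L (wc L m δ b τ))) (Icc p q) := by
  have hL := Bg.L_pos hB
  have hsub : Icc p q ⊆ Ioo 0 1 := fun x hx => ⟨hp.trans_le hx.1, hx.2.trans_lt hq⟩
  have hN : ContinuousOn (NL L m) (Icc p q) :=
    ((NL_contDiffOn isOpen_Ioo hL hB.sm).continuousOn).mono hsub
  obtain ⟨C, hC⟩ := isCompact_Icc.exists_bound_of_continuousOn hN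
  have hw := (BL L).integrable_comp (integrableOn_wc hB hc0 hW hp hq)
  have hmeas : AEStronglyMeasurable (fun τ => NL L m τ (BL L (wc L m δ b τ)))
      (volume.restrict (Icc p q)) :=
    (ContinuousLinearMap.id ℝ (HL L →L[ℝ] HL L)).aestronglyMeasurable_comp₂
      (hN.aestronglyMeasurable measurableSet_Icc) hw.aestronglyMeasurable
  refine Integrable.mono' (hw.norm.const_mul C) hmeas ?_
  filter_upwards [ae_restrict_mem measurableSet_Icc] with τ hτ
  exact (ContinuousLinearMap.le_opNorm _ _).trans (by gcongr; exact hC τ hτ)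

/-- the weak equation in the form needed by `time_reg`. -/
theorem weak_all (hB : Bg c0 C0 g L φ m) (hc0 : 0 < c0) (hW : WS L κ φ b δ)
    (hE : Sm (Ioo 0 1) L E) (hh : Sm (Ioo 0 1) L ht)
    (h2 : ∀ ψ, Tst L ψ →
          II L (fun τ x => x ^ 9 * (dt ψ τ x * δ τ x + φ τ x * dx L (dx L ψ) τ x * b τ x)) =
            II L (fun τ x => x ^ 9 * (E τ x * ψ τ x +
              (φ τ x * ht τ x) * φ τ x * dx L (dx L ψ) τ x)))
    (χ : ℝ → ℝ) (hχ : ContDiff ℝ ∞ χ) (hχc : HasCompactSupport χ) (hχs : tsupport χ ⊆ Ioo 0 1)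
    (v : VL L) :
    ∫ τ, (deriv χ τ * ⟪JL L v, JL L (wc L m δ b τ)⟫ +
        χ τ * ⟪BL L v, NL L m τ (BL L (wc L m δ b τ))⟫) =
      ∫ τ, χ τ * (⟪toHL L (E τ), JL L v⟫ +
        ⟪toHL L (fun x => phi0 L x * m τ x ^ 2 * ht τ x), BL L v⟫) := by
  have hL := Bg.L_pos hB
  obtain ⟨p, q, hp, hpq, hq, hs1, hs2⟩ := exists_Icc_of_tsupport hχc hχs
  have hsub : Icc p q ⊆ Ioo 0 1 := fun x hx => ⟨hp.trans_le hx.1, hx.2.trans_lt hq⟩
  have hχ' : Continuous (deriv χ) := hχ.continuous_deriv (by simp)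
  have hR : Sm (Ioo 0 1) L (fun τ x => phi0 L x * m τ x ^ 2 * ht τ x) := by
    refine Sm.mul (Sm.mul (Sm.of_right ?_) (Sm.pow hB.sm 2)) hh
    unfold phi0; fun_prop
  -- four integrable curves
  have i1 : Integrable (fun τ => deriv χ τ • JL L (wc L m δ b τ)) :=
    integrable_smul_of_Icc hχ' hs2 ((JL L).integrable_comp (integrableOn_wc hB hc0 hW hp hq))
  have i2 : Integrable (fun τ => χ τ • NL L m τ (BL L (wc L m δ b τ))) :=
    integrable_smul_of_Icc hχ.continuous hs1 (integrableOn_NBwc hB hc0 hW hp hq)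
  have i3 : Integrable (fun τ => χ τ • toHL L (E τ)) :=
    integrable_smul_of_Icc hχ.continuous hs1
      (((Sm.contDiffOn_toHL isOpen_Ioo hL hE).continuousOn.mono hsub).integrableOn_Icc)
  have i4 : Integrable (fun τ => χ τ • toHL L (fun x => phi0 L x * m τ x ^ 2 * ht τ x)) :=
    integrable_smul_of_Icc hχ.continuous hs1
      (((Sm.contDiffOn_toHL isOpen_Ioo hL hR).continuousOn.mono hsub).integrableOn_Icc)
  let F : VL L →L[ℝ] ℝ := (innerSL ℝ (∫ τ, deriv χ τ • JL L (wc L m δ b τ))) ∘L (JL L) +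
    (innerSL ℝ (∫ τ, χ τ • NL L m τ (BL L (wc L m δ b τ)))) ∘L (BL L)
  let G : VL L →L[ℝ] ℝ := (innerSL ℝ (∫ τ, χ τ • toHL L (E τ))) ∘L (JL L) +
    (innerSL ℝ (∫ τ, χ τ • toHL L (fun x => phi0 L x * m τ x ^ 2 * ht τ x))) ∘L (BL L)
  have hF : ∀ v, F v = ∫ τ, (deriv χ τ * ⟪JL L v, JL L (wc L m δ b τ)⟫ +
        χ τ * ⟪BL L v, NL L m τ (BL L (wc L m δ b τ))⟫) := by
    intro v
    have e1 : F v = ⟪(∫ τ, deriv χ τ • JL L (wc L m δ b τ)), JL L v⟫ +
        ⟪(∫ τ, χ τ • NL L m τ (BL L (wc L m δ b τ))), BL L v⟫ := rfl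
    rw [e1, real_inner_comm, real_inner_comm (BL L v), ← integral_inner i1, ← integral_inner i2,
      ← integral_add (i1.const_inner _) (i2.const_inner _)]
    refine integral_congr_ae (Eventually.of_forall fun τ => ?_)
    simp only [real_inner_smul_right]
  have hG : ∀ v, G v = ∫ τ, χ τ * (⟪toHL L (E τ), JL L v⟫ +
        ⟪toHL L (fun x => phi0 L x * m τ x ^ 2 * ht τ x), BL L v⟫) := by
    intro v
    have e1 : G v = ⟪(∫ τ, χ τ • toHL L (E τ)), JL L v⟫ +
        ⟪(∫ τ, χ τ • toHL L (fun x => phi0 L x * m τ x ^ 2 * ht τ x)), BL L v⟫ := rfl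
    rw [e1, real_inner_comm, real_inner_comm (BL L v), ← integral_inner i3, ← integral_inner i4,
      ← integral_add (i3.const_inner _) (i4.const_inner _)]
    refine integral_congr_ae (Eventually.of_forall fun τ => ?_)
    simp only [real_inner_smul_right]
    rw [real_inner_comm, real_inner_comm (BL L v)]
    ring
  rw [← hF, ← hG]
  refine VL_ext F G (fun p hp => ?_) v
  rw [hF, hG]
  exact weak_smooth hB hc0 hW hE hh h2 hχ hχc hχs hp

end Crest.Agent.R213.B
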