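import Crest.Agent.R213.J0
import Mathlib

/-!
# Row 213, part B: a function in `Sm s L` as a `C^∞` curve of bounded continuous functions
-/

set_option autoImplicit false

open Set MeasureTheory Filter Topology
open scoped BoundedContinuousFunction

noncomputable section

namespace Crest.Agent.R213.B

/-- clamp to `[0,L]` -/
def clamp (L x : ℝ) : ℝ := max 0 (min x L)

theorem clamp_mem {L : ℝ} (hL : 0 ≤ L) (x : ℝ) : clamp L x ∈ Icc 0 L :=
  ⟨le_max_left _ _, max_le hL (min_le_right _ _)⟩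

theorem clamp_of_mem {L x : ℝ} (hx : x ∈ Icc 0 L) : clamp L x = x := by
  unfold clamp
  rw [min_eq_left hx.2, max_eq_right hx.1]

theorem continuous_clamp (L : ℝ) : Continuous (clamp L) :=
  continuous_const.max (continuous_id.min continuous_const)

theorem ex_cont {L : ℝ} {f : ℝ → ℝ} (h : 0 ≤ L ∧ ContinuousOn f (Icc 0 L)) :
    Continuous fun x => f (clamp L x) :=
  h.2.comp_continuous (continuous_clamp L) (fun x => clamp_mem h.1 x)

theorem ex_bdd {L : ℝ} {f : ℝ → ℝ} (h : 0 ≤ L ∧ ContinuousOn f (Icc 0 L)) :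
    ∃ C, ∀ x, ‖f (clamp L x)‖ ≤ C := by
  obtain ⟨C, hC⟩ := isCompact_Icc.exists_bound_of_continuousOn h.2
  exact ⟨C, fun x => hC _ (clamp_mem h.1 x)⟩

open Classical in
/-- extension of a function continuous on `[0,L]` to a bounded continuous function on `ℝ`. -/
def ex (L : ℝ) (f : ℝ → ℝ) : ℝ →ᵇ ℝ :=
  if h : 0 ≤ L ∧ ContinuousOn f (Icc 0 L) then
    BoundedContinuousFunction.ofNormedAddCommGroup (fun x => f (clamp L x)) (ex_cont h)
      (Classical.choose (ex_bdd h)) (Classical.choose_spec (ex_bdd h))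
  else 0

theorem ex_apply {L : ℝ} {f : ℝ → ℝ} (hL : 0 ≤ L) (h : ContinuousOn f (Icc 0 L)) (x : ℝ) :
    ex L f x = f (clamp L x) := by
  unfold ex
  rw [dif_pos ⟨hL, h⟩]
  rfl

theorem ex_apply_mem {L : ℝ} {f : ℝ → ℝ} (hL : 0 ≤ L) (h : ContinuousOn f (Icc 0 L)) {x : ℝ}
    (hx : x ∈ Icc 0 L) : ex L f x = f x := by
  rw [ex_apply hL h, clamp_of_mem hx]

theorem ex_congr {L : ℝ} {f g : ℝ → ℝ} (hL : 0 ≤ L) (hf : ContinuousOn f (Icc 0 L))
    (h : ∀ x ∈ Icc 0 L, g x = f x) : ex L g = ex L f := by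
  ext x
  rw [ex_apply hL hf, ex_apply hL (hf.congr h), h _ (clamp_mem hL x)]

theorem norm_ex_le {L C : ℝ} {f : ℝ → ℝ} (hL : 0 ≤ L) (h : ContinuousOn f (Icc 0 L)) (hC : 0 ≤ C)
    (hb : ∀ x ∈ Icc 0 L, |f x| ≤ C) : ‖ex L f‖ ≤ C := by
  refine (BoundedContinuousFunction.norm_le hC).2 fun x => ?_
  rw [ex_apply hL h]
  exact hb _ (clamp_mem hL x)

theorem ex_add {L : ℝ} {f g : ℝ → ℝ} (hL : 0 ≤ L) (hf : ContinuousOn f (Icc 0 L))
    (hg : ContinuousOn g (Icc 0 L)) : ex L (fun x => f x + g x) = ex L f + ex L g := by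
  have h : ContinuousOn (fun x => f x + g x) (Icc 0 L) := hf.add hg
  ext x
  rw [BoundedContinuousFunction.add_apply, ex_apply hL hf, ex_apply hL hg, ex_apply hL h]

theorem ex_smul {L : ℝ} {f : ℝ → ℝ} (c : ℝ) (hL : 0 ≤ L) (hf : ContinuousOn f (Icc 0 L)) :
    ex L (fun x => c * f x) = c • ex L f := by
  have h : ContinuousOn (fun x => c * f x) (Icc 0 L) := continuousOn_const.mul hf
  ext x
  rw [BoundedContinuousFunction.smul_apply, ex_apply hL hf, ex_apply hL h]
  rfl

theorem ex_mul {L : ℝ} {f g : ℝ → ℝ} (hL : 0 ≤ L) (hf : ContinuousOn f (Icc 0 L))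
    (hg : ContinuousOn g (Icc 0 L)) : ex L (fun x => f x * g x) = ex L f * ex L g := by
  have h : ContinuousOn (fun x => f x * g x) (Icc 0 L) := hf.mul hg
  ext x
  rw [BoundedContinuousFunction.mul_apply, ex_apply hL hf, ex_apply hL hg, ex_apply hL h]

variable {s : Set ℝ} {L : ℝ} {u : ℝ → ℝ → ℝ}

theorem Sm.hasDerivAt_ex (hs : IsOpen s) (hL : 0 < L) (hu : Sm s L u) {t : ℝ} (ht : t ∈ s) :
    HasDerivAt (fun τ => ex L (u τ)) (ex L (dt u t)) t := by
  obtain ⟨r, hr, hrs⟩ := Metric.isOpen_iff.1 hs t ht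
  have hsub : Icc (t - r / 2) (t + r / 2) ⊆ s := by
    intro y hy
    apply hrs
    rw [Metric.mem_ball, Real.dist_eq, abs_lt]
    constructor <;> linarith [hy.1, hy.2]
  have hutt := (hu.dt hs hL).dt hs hL
  obtain ⟨M, hM⟩ := (isCompact_Icc.prod isCompact_Icc).exists_bound_of_continuousOn
    (hutt.continuousOn.mono (prod_mono hsub (subset_refl (Icc 0 L))))
  have hM0 : 0 ≤ M := (norm_nonneg _).trans (hM (t, 0) ⟨⟨by linarith, by linarith⟩, ⟨le_refl _, hL.le⟩⟩)
  -- first order estimate for `dt u`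
  have h1 : ∀ y ∈ Icc (t - r / 2) (t + r / 2), ∀ x ∈ Icc 0 L,
      |dt u y x - dt u t x| ≤ M * |y - t| := by
    intro y hy x hx
    have := Convex.norm_image_sub_le_of_norm_hasDerivWithin_le (f := fun z => dt u z x)
      (f' := fun z => dt (dt u) z x) (s := Icc (t - r / 2) (t + r / 2)) (C := M) (x := t) (y := y)
      (fun z hz => ((hu.dt hs hL).hasDt hs (hsub hz) hx).hasDerivWithinAt)
      (fun z hz => hM (z, x) ⟨hz, hx⟩) (convex_Icc _ _) ⟨by linarith, by linarith⟩ hy
    simpa [Real.norm_eq_abs] using this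
  have h2 : ∀ y ∈ Icc (t - r / 2) (t + r / 2), ∀ x ∈ Icc 0 L,
      |u y x - u t x - (y - t) * dt u t x| ≤ M * |y - t| * |y - t| := by
    intro y hy x hx
    have hseg : ∀ z ∈ uIcc t y, z ∈ Icc (t - r / 2) (t + r / 2) ∧ |z - t| ≤ |y - t| := by
      intro z hz
      have hh := uIcc_subset_Icc (a₂ := t - r / 2) (b₂ := t + r / 2)
        ⟨by linarith, by linarith⟩ hy hz
      refine ⟨hh, ?_⟩
      exact abs_sub_left_of_mem_uIcc hz
    have := Convex.norm_image_sub_le_of_norm_hasDerivWithin_le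
      (f := fun z => u z x - (z - t) * dt u t x)
      (f' := fun z => dt u z x - dt u t x) (s := uIcc t y) (C := M * |y - t|) (x := t) (y := y)
      (fun z hz => by
        have e1 := (hu.hasDt hs (hsub (hseg z hz).1) hx).hasDerivWithinAt (s := uIcc t y)
        have e2 : HasDerivWithinAt (fun z => (z - t) * dt u t x) (1 * dt u t x) (uIcc t y) z :=
          ((hasDerivWithinAt_id z _).sub_const t).mul_const _
        have := e1.sub e2
        rw [one_mul] at this
        exact this)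
      (fun z hz => by
        rw [Real.norm_eq_abs]
        refine (h1 z (hseg z hz).1 x hx).trans ?_
        exact mul_le_mul_of_nonneg_left (hseg z hz).2 hM0)
      (convex_uIcc _ _) left_mem_uIcc right_mem_uIcc
    have e : u y x - u t x - (y - t) * dt u t x
        = u y x - (y - t) * dt u t x - (u t x - (t - t) * dt u t x) := by ring
    rw [e]
    simpa [Real.norm_eq_abs] using this
  rw [hasDerivAt_iff_isLittleO]
  rw [Asymptotics.isLittleO_iff]
  intro c hc
  have hev : ∀ᶠ y in 𝓝 t, y ∈ Icc (t - r / 2) (t + r / 2) ∧ M * |y - t| ≤ c := by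
    have e1 : ∀ᶠ y in 𝓝 t, y ∈ Icc (t - r / 2) (t + r / 2) :=
      Icc_mem_nhds (by linarith) (by linarith)
    have e2 : Tendsto (fun y => M * |y - t|) (𝓝 t) (𝓝 (M * |t - t|)) := by
      apply Continuous.tendsto
      fun_prop
    rw [sub_self, abs_zero, mul_zero] at e2
    have e3 : ∀ᶠ y in 𝓝 t, M * |y - t| < c := e2.eventually (gt_mem_nhds hc)
    filter_upwards [e1, e3] with y h1 h2
    exact ⟨h1, h2.le⟩
  filter_upwards [hev] with y hy
  have hys : y ∈ s := hsub hy.1
  have e : ex L (u y) - ex L (u t) - (y - t) • ex L (dt u t)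
      = ex L (fun x => u y x - u t x - (y - t) * dt u t x) := by
    ext x
    have c1 := hu.continuousOn_right hys
    have c2 := hu.continuousOn_right ht
    have c3 := (hu.dt hs hL).continuousOn_right ht
    have c4 : ContinuousOn (fun x => u y x - u t x - (y - t) * dt u t x) (Icc 0 L) :=
      (c1.sub c2).sub (continuousOn_const.mul c3)
    rw [BoundedContinuousFunction.sub_apply, BoundedContinuousFunction.sub_apply,
      BoundedContinuousFunction.smul_apply, ex_apply hL.le c1, ex_apply hL.le c2,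
      ex_apply hL.le c3, ex_apply hL.le c4, smul_eq_mul]
  rw [e, Real.norm_eq_abs]
  refine (norm_ex_le hL.le ?_ (by positivity) (h2 y hy.1)).trans ?_
  · exact ((hu.continuousOn_right hys).sub (hu.continuousOn_right ht)).sub
      (continuousOn_const.mul ((hu.dt hs hL).continuousOn_right ht))
  · exact mul_le_mul_of_nonneg_right hy.2 (abs_nonneg _)

theorem Sm.contDiffOn_ex_nat (hs : IsOpen s) (hL : 0 < L) (n : ℕ) :
    ∀ {u : ℝ → ℝ → ℝ}, Sm s L u → ContDiffOn ℝ n (fun τ => ex L (u τ)) s := by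
  induction n with
  | zero =>
    intro u hu
    rw [Nat.cast_zero, contDiffOn_zero]
    exact fun t ht => (Sm.hasDerivAt_ex hs hL hu ht).continuousAt.continuousWithinAt
  | succ n ih =>
    intro u hu
    rw [Nat.cast_succ, contDiffOn_succ_iff_deriv_of_isOpen hs]
    refine ⟨fun t ht => (Sm.hasDerivAt_ex hs hL hu ht).differentiableAt.differentiableWithinAt,
      fun h => ?_, ?_⟩
    · exact absurd h (by exact_mod_cast (by simp))
    · exact (ih (hu.dt hs hL)).congr fun t ht => (Sm.hasDerivAt_ex hs hL hu ht).deriv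

theorem Sm.contDiffOn_ex (hs : IsOpen s) (hL : 0 < L) (hu : Sm s L u) :
    ContDiffOn ℝ (⊤ : ℕ∞) (fun τ => ex L (u τ)) s :=
  contDiffOn_infty.2 fun n => Sm.contDiffOn_ex_nat hs hL n hu

end Crest.Agent.R213.B
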