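import Crest.Agent.R213.B.XDefs
import Crest.Agent.R213.J1

/-!
# Row 213, part B3: closure properties of the classes `Co`, `Cv`, `CvK`
-/

set_option autoImplicit false

open Set MeasureTheory Filter Topology

noncomputable section

namespace Crest.Agent.R213.B

variable {L : ℝ} {u v : ℝ → ℝ → ℝ}

theorem Cv.co (h : Cv L u) : Co L u := by
  obtain ⟨U, hU, e⟩ := h
  exact ⟨U, hU, fun τ hτ x _ => e τ hτ x⟩

theorem Co.congr (h : Co L u) (e : ∀ τ ∈ Ioo (0 : ℝ) 1, ∀ x ∈ Ioo 0 L, v τ x = u τ x) :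
    Co L v := by
  obtain ⟨U, hU, e'⟩ := h
  exact ⟨U, hU, fun τ hτ x hx => by rw [e τ hτ x hx]; exact e' τ hτ x hx⟩

theorem Cv.congr (h : Cv L u) (e : ∀ τ ∈ Ioo (0 : ℝ) 1, ∀ x ∈ Icc 0 L, v τ x = u τ x) :
    Cv L v := by
  obtain ⟨U, hU, e'⟩ := h
  exact ⟨U, hU, fun τ hτ x => by rw [e τ hτ x x.2]; exact e' τ hτ x⟩

theorem Co.add (h : Co L u) (h' : Co L v) : Co L (fun τ x => u τ x + v τ x) := by
  obtain ⟨U, hU, e⟩ := h
  obtain ⟨V, hV, e'⟩ := h'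
  refine ⟨fun τ => U τ + V τ, hU.add hV, fun τ hτ x hx => ?_⟩
  simp only [ContinuousMap.add_apply]
  rw [e τ hτ x hx, e' τ hτ x hx]

theorem Cv.add (h : Cv L u) (h' : Cv L v) : Cv L (fun τ x => u τ x + v τ x) := by
  obtain ⟨U, hU, e⟩ := h
  obtain ⟨V, hV, e'⟩ := h'
  refine ⟨fun τ => U τ + V τ, hU.add hV, fun τ hτ x => ?_⟩
  simp only [ContinuousMap.add_apply]
  rw [e τ hτ x, e' τ hτ x]

theorem Co.sub (h : Co L u) (h' : Co L v) : Co L (fun τ x => u τ x - v τ x) := by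
  obtain ⟨U, hU, e⟩ := h
  obtain ⟨V, hV, e'⟩ := h'
  refine ⟨fun τ => U τ - V τ, hU.sub hV, fun τ hτ x hx => ?_⟩
  simp only [ContinuousMap.sub_apply]
  rw [e τ hτ x hx, e' τ hτ x hx]

theorem Cv.sub (h : Cv L u) (h' : Cv L v) : Cv L (fun τ x => u τ x - v τ x) := by
  obtain ⟨U, hU, e⟩ := h
  obtain ⟨V, hV, e'⟩ := h'
  refine ⟨fun τ => U τ - V τ, hU.sub hV, fun τ hτ x => ?_⟩
  simp only [ContinuousMap.sub_apply]
  rw [e τ hτ x, e' τ hτ x]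

theorem Co.mul (h : Co L u) (h' : Co L v) : Co L (fun τ x => u τ x * v τ x) := by
  obtain ⟨U, hU, e⟩ := h
  obtain ⟨V, hV, e'⟩ := h'
  refine ⟨fun τ => U τ * V τ, hU.mul hV, fun τ hτ x hx => ?_⟩
  simp only [ContinuousMap.mul_apply]
  rw [e τ hτ x hx, e' τ hτ x hx]

theorem Cv.mul (h : Cv L u) (h' : Cv L v) : Cv L (fun τ x => u τ x * v τ x) := by
  obtain ⟨U, hU, e⟩ := h
  obtain ⟨V, hV, e'⟩ := h'
  refine ⟨fun τ => U τ * V τ, hU.mul hV, fun τ hτ x => ?_⟩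
  simp only [ContinuousMap.mul_apply]
  rw [e τ hτ x, e' τ hτ x]

/-- composition of the curve with a bounded linear operator of `C([0,L])` -/
theorem Cv.clm (h : Cv L u) (T : C(Icc (0 : ℝ) L, ℝ) →L[ℝ] C(Icc (0 : ℝ) L, ℝ))
    (e : ∀ τ ∈ Ioo (0 : ℝ) 1, ∀ w : C(Icc (0 : ℝ) L, ℝ), (∀ x : Icc (0 : ℝ) L, w x = u τ x) →
      ∀ x : Icc (0 : ℝ) L, T w x = v τ x) : Cv L v := by
  obtain ⟨U, hU, eU⟩ := h
  exact ⟨fun τ => T (U τ), T.contDiff.comp_contDiffOn hU, fun τ hτ x => e τ hτ (U τ) (eU τ hτ) x⟩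

theorem Co.clm (h : Co L u) (T : C(Icc (0 : ℝ) L, ℝ) →L[ℝ] C(Icc (0 : ℝ) L, ℝ))
    (e : ∀ τ ∈ Ioo (0 : ℝ) 1, ∀ w : C(Icc (0 : ℝ) L, ℝ),
      (∀ x : Icc (0 : ℝ) L, (x : ℝ) ∈ Ioo 0 L → w x = u τ x) →
      ∀ x : Icc (0 : ℝ) L, (x : ℝ) ∈ Ioo 0 L → T w x = v τ x) : Co L v := by
  obtain ⟨U, hU, eU⟩ := h
  exact ⟨fun τ => T (U τ), T.contDiff.comp_contDiffOn hU, fun τ hτ x => e τ hτ (U τ) (eU τ hτ) x⟩

/-- evaluation -/
def ev (L : ℝ) (x : Icc (0 : ℝ) L) : C(Icc (0 : ℝ) L, ℝ) →L[ℝ] ℝ :=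
  ContinuousMap.evalCLM ℝ x

@[simp] theorem ev_apply (x : Icc (0 : ℝ) L) (w : C(Icc (0 : ℝ) L, ℝ)) : ev L x w = w x := rfl

theorem hasDerivAt_curve {U : ℝ → C(Icc (0 : ℝ) L, ℝ)}
    (hU : ContDiffOn ℝ (⊤ : ℕ∞) U (Ioo 0 1)) {τ : ℝ} (hτ : τ ∈ Ioo (0 : ℝ) 1) :
    HasDerivAt U (deriv U τ) τ :=
  ((hU.differentiableOn (by simp)).differentiableAt (isOpen_Ioo.mem_nhds hτ)).hasDerivAt

theorem hasDerivAt_curve_apply {U : ℝ → C(Icc (0 : ℝ) L, ℝ)}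
    (hU : ContDiffOn ℝ (⊤ : ℕ∞) U (Ioo 0 1)) {τ : ℝ} (hτ : τ ∈ Ioo (0 : ℝ) 1)
    (x : Icc (0 : ℝ) L) : HasDerivAt (fun r => U r x) (deriv U τ x) τ := by
  exact (ev L x).hasFDerivAt.comp_hasDerivAt τ (hasDerivAt_curve hU hτ)

theorem contDiffOn_deriv_curve {X : Type*} [NormedAddCommGroup X] [NormedSpace ℝ X] {U : ℝ → X}
    (hU : ContDiffOn ℝ (⊤ : ℕ∞) U (Ioo 0 1)) :
    ContDiffOn ℝ (⊤ : ℕ∞) (deriv U) (Ioo 0 1) :=
  hU.deriv_of_isOpen isOpen_Ioo (by simp)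

theorem Co.dt (h : Co L u) : Co L (R213.dt u) := by
  obtain ⟨U, hU, e⟩ := h
  refine ⟨deriv U, contDiffOn_deriv_curve hU, fun τ hτ x hx => ?_⟩
  have h1 := hasDerivAt_curve_apply hU hτ x
  have h2 : (fun r => u r x) =ᶠ[𝓝 τ] (fun r => U r x) := by
    filter_upwards [isOpen_Ioo.mem_nhds hτ] with r hr
    exact (e r hr x hx).symm
  exact ((h1.congr_of_eventuallyEq h2).deriv).symm

theorem Cv.dt (h : Cv L u) : Cv L (R213.dt u) := by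
  obtain ⟨U, hU, e⟩ := h
  refine ⟨deriv U, contDiffOn_deriv_curve hU, fun τ hτ x => ?_⟩
  have h1 := hasDerivAt_curve_apply hU hτ x
  have h2 : (fun r => u r x) =ᶠ[𝓝 τ] (fun r => U r x) := by
    filter_upwards [isOpen_Ioo.mem_nhds hτ] with r hr
    exact (e r hr x).symm
  exact ((h1.congr_of_eventuallyEq h2).deriv).symm

theorem Co.hasDerivAt (h : Co L u) {τ x : ℝ} (hτ : τ ∈ Ioo (0 : ℝ) 1) (hx : x ∈ Ioo 0 L) :
    HasDerivAt (fun r => u r x) (R213.dt u τ x) τ := by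
  obtain ⟨U, hU, e⟩ := h
  have h1 := hasDerivAt_curve_apply hU hτ ⟨x, Ioo_subset_Icc_self hx⟩
  have h2 : (fun r => u r x) =ᶠ[𝓝 τ] (fun r => U r ⟨x, Ioo_subset_Icc_self hx⟩) := by
    filter_upwards [isOpen_Ioo.mem_nhds hτ] with r hr
    exact (e r hr ⟨x, Ioo_subset_Icc_self hx⟩ hx).symm
  exact (h1.congr_of_eventuallyEq h2).differentiableAt.hasDerivAt

theorem Cv.hasDerivAt (h : Cv L u) {τ x : ℝ} (hτ : τ ∈ Ioo (0 : ℝ) 1) (hx : x ∈ Icc 0 L) :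
    HasDerivAt (fun r => u r x) (R213.dt u τ x) τ := by
  obtain ⟨U, hU, e⟩ := h
  have h1 := hasDerivAt_curve_apply hU hτ ⟨x, hx⟩
  have h2 : (fun r => u r x) =ᶠ[𝓝 τ] (fun r => U r ⟨x, hx⟩) := by
    filter_upwards [isOpen_Ioo.mem_nhds hτ] with r hr
    exact (e r hr ⟨x, hx⟩).symm
  exact (h1.congr_of_eventuallyEq h2).differentiableAt.hasDerivAt

/-- joint continuity -/
theorem Cv.continuousOn (h : Cv L u) :
    ContinuousOn (fun p : ℝ × ℝ => u p.1 p.2) (Ioo (0 : ℝ) 1 ×ˢ Icc 0 L) := by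
  obtain ⟨U, hU, e⟩ := h
  rw [continuousOn_iff_continuous_domRestrict]
  have h1 : Continuous (fun p : (Ioo (0 : ℝ) 1 ×ˢ Icc (0 : ℝ) L : Set (ℝ × ℝ)) =>
      U p.1.1) := by
    have := (continuousOn_iff_continuous_domRestrict.1 hU.continuousOn)
    exact this.comp (f := fun p : (Ioo (0 : ℝ) 1 ×ˢ Icc (0 : ℝ) L : Set (ℝ × ℝ)) =>
      (⟨p.1.1, p.2.1⟩ : Ioo (0 : ℝ) 1)) (by fun_prop)
  have h2 : Continuous (fun p : (Ioo (0 : ℝ) 1 ×ˢ Icc (0 : ℝ) L : Set (ℝ × ℝ)) =>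
      (⟨p.1.2, p.2.2⟩ : Icc (0 : ℝ) L)) := by fun_prop
  have h3 := h1.eval h2
  refine h3.congr fun p => ?_
  exact e p.1.1 p.2.1 ⟨p.1.2, p.2.2⟩

theorem Cv.continuousOn_x (h : Cv L u) {τ : ℝ} (hτ : τ ∈ Ioo (0 : ℝ) 1) :
    ContinuousOn (u τ) (Icc 0 L) := by
  have := h.continuousOn
  exact this.comp (f := fun x => (τ, x)) (by fun_prop) (fun x hx => ⟨hτ, hx⟩)

/-! ### smooth functions give curves -/

/-- the curve of a function -/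
def cu (L : ℝ) (u : ℝ → ℝ → ℝ) (τ : ℝ) : C(Icc (0 : ℝ) L, ℝ) :=
  open Classical in
  if h : ContinuousOn (u τ) (Icc 0 L) then
    ⟨(Icc (0 : ℝ) L).domRestrict (u τ), continuousOn_iff_continuous_domRestrict.1 h⟩ else 0

theorem cu_apply (h : ContinuousOn (fun p : ℝ × ℝ => u p.1 p.2) (Ioo (0 : ℝ) 1 ×ˢ Icc 0 L))
    {τ : ℝ} (hτ : τ ∈ Ioo (0 : ℝ) 1) (x : Icc (0 : ℝ) L) : cu L u τ x = u τ x := by
  have h1 : ContinuousOn (u τ) (Icc 0 L) :=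
    h.comp (f := fun x => (τ, x)) (by fun_prop) (fun x hx => ⟨hτ, hx⟩)
  simp [cu, h1, Set.domRestrict]

theorem continuousOn_cu (h : ContinuousOn (fun p : ℝ × ℝ => u p.1 p.2) (Ioo (0 : ℝ) 1 ×ˢ Icc 0 L)) :
    ContinuousOn (cu L u) (Ioo (0 : ℝ) 1) := by
  rw [continuousOn_iff_continuous_domRestrict]
  have h1 : Continuous (fun p : Ioo (0 : ℝ) 1 × Icc (0 : ℝ) L => u p.1 p.2) := by
    have := continuousOn_iff_continuous_domRestrict.1 h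
    exact this.comp (f := fun p : Ioo (0 : ℝ) 1 × Icc (0 : ℝ) L =>
      (⟨(p.1.1, p.2.1), p.1.2, p.2.2⟩ : (Ioo (0 : ℝ) 1 ×ˢ Icc (0 : ℝ) L : Set (ℝ × ℝ))))
      (by fun_prop)
  have h2 := (ContinuousMap.curry ⟨_, h1⟩).continuous
  refine h2.congr fun τ => ?_
  ext x
  simp only [ContinuousMap.curry_apply, ContinuousMap.coe_mk, Set.domRestrict_apply]
  exact (cu_apply h τ.2 x).symm

theorem hasDerivAt_cu (hL : 0 < L) (h : Sm (Ioo 0 1) L u) {τ : ℝ} (hτ : τ ∈ Ioo (0 : ℝ) 1) :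
    HasDerivAt (cu L u) (cu L (dt u) τ) τ := by
  have hd := Sm.dt isOpen_Ioo hL h
  have hc : ContinuousOn (fun p : ℝ × ℝ => u p.1 p.2) (Ioo (0 : ℝ) 1 ×ˢ Icc 0 L) :=
    ContDiffOn.continuousOn h
  have hdc : ContinuousOn (fun p : ℝ × ℝ => R213.dt u p.1 p.2) (Ioo (0 : ℝ) 1 ×ˢ Icc 0 L) :=
    ContDiffOn.continuousOn hd
  have hcd := continuousOn_cu hdc
  have hII : ∀ r ∈ Ioo (0 : ℝ) 1, uIcc τ r ⊆ Ioo 0 1 := fun r hr =>
    (ordConnected_Ioo.uIcc_subset hτ hr)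
  have key : ∀ r ∈ Ioo (0 : ℝ) 1, cu L u r = cu L u τ + ∫ s in τ..r, cu L (R213.dt u) s := by
    intro r hr
    have hint : IntervalIntegrable (cu L (R213.dt u)) volume τ r :=
      (hcd.mono (hII r hr)).intervalIntegrable
    ext x
    rw [ContinuousMap.add_apply, cu_apply hc hr, cu_apply hc hτ]
    have e1 : (∫ s in τ..r, cu L (R213.dt u) s) x = ∫ s in τ..r, cu L (R213.dt u) s x := by
      have := (ev L x).intervalIntegral_comp_comm hint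
      simpa using this.symm
    rw [e1]
    have e2 : ∫ s in τ..r, cu L (R213.dt u) s x = ∫ s in τ..r, R213.dt u s x :=
      intervalIntegral.integral_congr fun s hs => cu_apply hdc (hII r hr hs) x
    rw [e2]
    have e3 : ∫ s in τ..r, R213.dt u s x = u r x - u τ x := by
      refine intervalIntegral.integral_eq_sub_of_hasDerivAt (f := fun s => u s x) (fun s hs => ?_) ?_
      · exact Sm.hasDt h isOpen_Ioo (hII r hr hs) x.2
      · refine ContinuousOn.intervalIntegrable ?_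
        exact hdc.comp (f := fun s => (s, (x : ℝ))) (by fun_prop)
          (fun s hs => ⟨hII r hr hs, x.2⟩)
    rw [e3]; ring
  have h1 : HasDerivAt (fun r => cu L u τ + ∫ s in τ..r, cu L (R213.dt u) s)
      (cu L (R213.dt u) τ) τ := by
    refine HasDerivAt.const_add _ ?_
    refine intervalIntegral.integral_hasDerivAt_right ?_ ?_ ?_
    · simp
    · exact hcd.stronglyMeasurableAtFilter isOpen_Ioo _ hτ
    · exact hcd.continuousAt (isOpen_Ioo.mem_nhds hτ)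
  refine h1.congr_of_eventuallyEq ?_
  filter_upwards [isOpen_Ioo.mem_nhds hτ] with r hr
  exact key r hr

theorem contDiffOn_cu (hL : 0 < L) (n : ℕ) : ∀ {u : ℝ → ℝ → ℝ}, Sm (Ioo 0 1) L u →
    ContDiffOn ℝ n (cu L u) (Ioo 0 1) := by
  induction n with
  | zero =>
    intro u h
    rw [Nat.cast_zero, contDiffOn_zero]
    exact continuousOn_cu (ContDiffOn.continuousOn h)
  | succ n ih =>
    intro u h
    rw [Nat.cast_add, Nat.cast_one, contDiffOn_succ_iff_deriv_of_isOpen isOpen_Ioo]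
    refine ⟨fun τ hτ => (hasDerivAt_cu hL h hτ).differentiableAt.differentiableWithinAt,
      by simp, ?_⟩
    exact (ih (Sm.dt isOpen_Ioo hL h)).congr fun τ hτ => (hasDerivAt_cu hL h hτ).deriv

theorem Sm.cv (hL : 0 < L) (h : Sm (Ioo 0 1) L u) : Cv L u :=
  ⟨cu L u, contDiffOn_infty.2 fun n => contDiffOn_cu hL n h,
    fun _ hτ x => cu_apply (ContDiffOn.continuousOn h) hτ x⟩

end Crest.Agent.R213.B
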