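import Crest.Agent.R213.B.RepData
import Crest.Agent.R213.J310

/-!
# Row 213, part B (helper80): from curves in `HL L` to curves in `C([0,L])`

`opOf κ : HL L →L C([0,L])`, `f ↦ (x ↦ ⟪κ x, f⟫)`.  `T0 f x = x⁻⁵ Kint f x`,
`T1 f x = (L-x)⁻¹ ∫_x^L (ξ-x) ξ⁹ f ξ`, `inc : C([0,L]) →L HL L`.
-/

set_option autoImplicit false

open Set MeasureTheory Filter Topology
open scoped RealInnerProductSpace ENNReal BoundedContinuousFunction

noncomputable section

namespace Crest.Agent.R213.B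

variable {L : ℝ}

/-- operator given by a continuous family of vectors -/
def opOf (κ : C(Icc (0 : ℝ) L, HL L)) : HL L →L[ℝ] C(Icc (0 : ℝ) L, ℝ) :=
  LinearMap.mkContinuous
    { toFun := fun f => ⟨fun x => ⟪κ x, f⟫, by fun_prop⟩
      map_add' := fun f g => by ext x; simp [inner_add_right]
      map_smul' := fun c f => by ext x; simp [inner_smul_right] } ‖κ‖ (by
    intro f
    rw [ContinuousMap.norm_le _ (by positivity)]
    intro x
    refine (norm_inner_le_norm (𝕜 := ℝ) (κ x) f).trans ?_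
    exact mul_le_mul_of_nonneg_right (κ.norm_coe_le_norm x) (norm_nonneg f))

theorem opOf_apply (κ : C(Icc (0 : ℝ) L, HL L)) (f : HL L) (x : Icc (0 : ℝ) L) :
    opOf κ f x = ⟪κ x, f⟫ := rfl

/-- the kernel vector `(x-·)⁺` -/
def K0 (L x : ℝ) : HL L := toHL L (fun ξ => pk x ξ)

/-- the kernel vector `(·-x)⁺` -/
def K1 (L x : ℝ) : HL L := toHL L (fun ξ => pk ξ x)

theorem cont_pk_left (x : ℝ) : Continuous (fun ξ => pk x ξ) := by unfold pk; fun_prop

theorem cont_pk_right (x : ℝ) : Continuous (fun ξ => pk ξ x) := by unfold pk; fun_prop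

theorem memLp_pk_left (hL : 0 < L) (x : ℝ) : MemLp (fun ξ => pk x ξ) 2 (mu L) :=
  memLp_of_continuousOn hL (cont_pk_left x).continuousOn

theorem memLp_pk_right (hL : 0 < L) (x : ℝ) : MemLp (fun ξ => pk ξ x) 2 (mu L) :=
  memLp_of_continuousOn hL (cont_pk_right x).continuousOn

/-- norm of `toHL f` from a pointwise bound -/
theorem norm_toHL_sq80 (hL : 0 < L) {f : ℝ → ℝ} (hf : ContinuousOn f (Icc 0 L)) :
    ‖toHL L f‖ ^ 2 = ∫ x in Ioo 0 L, x ^ 9 * (f x) ^ 2 := by
  have hm := memLp_of_continuousOn hL hf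
  rw [← real_inner_self_eq_norm_sq, inner_toHL hm hm]
  refine setIntegral_congr_fun measurableSet_Ioo fun x _ => ?_
  show x ^ 9 * (f x * f x) = x ^ 9 * (f x) ^ 2
  ring

theorem toHL_sub80 (hL : 0 < L) {f g : ℝ → ℝ} (hf : ContinuousOn f (Icc 0 L))
    (hg : ContinuousOn g (Icc 0 L)) : toHL L f - toHL L g = toHL L (fun x => f x - g x) := by
  have h1 := coe_toHL (memLp_of_continuousOn hL hf)
  have h2 := coe_toHL (memLp_of_continuousOn hL hg)
  have h3 := coe_toHL (memLp_of_continuousOn hL (hf.sub hg))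
  apply Lp.ext
  filter_upwards [h1, h2, h3, Lp.coeFn_sub (toHL L f) (toHL L g)] with x e1 e2 e3 e4
  rw [e4, Pi.sub_apply, e1, e2]
  exact e3.symm

/-- `‖toHL f‖ ≤ sup |f| * (L^10)^{1/2}`-type bound -/
theorem norm_toHL_le80 (hL : 0 < L) {f : ℝ → ℝ} (hf : ContinuousOn f (Icc 0 L)) {C : ℝ} (hC : 0 ≤ C)
    (h : ∀ x ∈ Ioo 0 L, |f x| ≤ C) : ‖toHL L f‖ ≤ L ^ 5 * C := by
  refine le_of_sq_le_sq ?_ (by positivity)
  rw [norm_toHL_sq80 hL hf]
  have h1 : ∫ x in Ioo 0 L, x ^ 9 * (f x) ^ 2 ≤ ∫ _x in Ioo 0 L, L ^ 9 * C ^ 2 := by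
    refine setIntegral_mono_on ?_ ?_ measurableSet_Ioo fun x hx => ?_
    · refine (ContinuousOn.integrableOn_Icc ?_).mono_set Ioo_subset_Icc_self
      exact (ContinuousOn.mul (by fun_prop) (hf.pow 2))
    · exact integrable_const _
    · refine mul_le_mul (pow_le_pow_left₀ hx.1.le hx.2.le 9) ?_ (sq_nonneg _) (by positivity)
      rw [← sq_abs]
      exact pow_le_pow_left₀ (abs_nonneg _) (h x hx) 2
  refine h1.trans ?_
  rw [setIntegral_const]
  simp only [measureReal_def, Real.volume_Ioo, sub_zero, smul_eq_mul]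
  rw [ENNReal.toReal_ofReal hL.le]
  apply le_of_eq
  ring

theorem continuous_K0 (hL : 0 < L) : Continuous (K0 L) := by
  have hlip : LipschitzWith ⟨L ^ 5, by positivity⟩ (K0 L) := by
    refine LipschitzWith.of_dist_le_mul fun x y => ?_
    rw [dist_eq_norm, dist_eq_norm]
    unfold K0
    rw [toHL_sub80 hL (cont_pk_left x).continuousOn (cont_pk_left y).continuousOn]
    refine norm_toHL_le80 hL ((cont_pk_left x).sub (cont_pk_left y)).continuousOn (norm_nonneg _)
      fun ξ _ => ?_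
    unfold pk
    refine (abs_max_sub_max_le_abs _ _ _).trans (le_of_eq ?_)
    rw [Real.norm_eq_abs]
    congr 1; ring
  exact hlip.continuous

theorem continuous_K1 (hL : 0 < L) : Continuous (K1 L) := by
  have hlip : LipschitzWith ⟨L ^ 5, by positivity⟩ (K1 L) := by
    refine LipschitzWith.of_dist_le_mul fun x y => ?_
    rw [dist_eq_norm, dist_eq_norm]
    unfold K1
    rw [toHL_sub80 hL (cont_pk_right x).continuousOn (cont_pk_right y).continuousOn]
    refine norm_toHL_le80 hL ((cont_pk_right x).sub (cont_pk_right y)).continuousOn (norm_nonneg _)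
      fun ξ _ => ?_
    unfold pk
    refine (abs_max_sub_max_le_abs _ _ _).trans (le_of_eq ?_)
    rw [Real.norm_eq_abs, ← abs_neg]
    congr 1; ring
  exact hlip.continuous

theorem norm_K0_le (hL : 0 < L) {x : ℝ} (hx : x ∈ Icc 0 L) : ‖K0 L x‖ ≤ x ^ 6 := by
  refine le_of_sq_le_sq ?_ (by have := hx.1; positivity)
  unfold K0
  rw [norm_toHL_sq80 hL (cont_pk_left x).continuousOn]
  have h1 : ∫ ξ in Ioo 0 L, ξ ^ 9 * (pk x ξ) ^ 2 ≤ ∫ ξ in Ioo 0 L,
      (Ioo 0 x).indicator (fun _ => x ^ 9 * x ^ 2) ξ := by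
    refine setIntegral_mono_on ?_ ?_ measurableSet_Ioo fun ξ hξ => ?_
    · refine (Continuous.integrableOn_Icc ?_).mono_set Ioo_subset_Icc_self
      have := cont_pk_left x
      fun_prop
    · exact (integrable_const _).indicator measurableSet_Ioo
    · by_cases h : ξ ∈ Ioo 0 x
      · rw [indicator_of_mem h]
        have h2 : pk x ξ = x - ξ := max_eq_left (by linarith [h.2])
        rw [h2]
        have hx0 := hx.1
        refine mul_le_mul (pow_le_pow_left₀ h.1.le h.2.le 9)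
          (pow_le_pow_left₀ (by linarith [h.2]) (by linarith [h.1]) 2) (sq_nonneg _) (by positivity)
      · rw [indicator_of_notMem h]
        have h3 : x ≤ ξ := by
          by_contra h4
          push Not at h4
          exact h ⟨hξ.1, h4⟩
        have h2 : pk x ξ = 0 := max_eq_right (by linarith)
        rw [h2]; simp
  refine h1.trans ?_
  rw [setIntegral_indicator measurableSet_Ioo]
  have h5 : Ioo 0 L ∩ Ioo 0 x = Ioo 0 x := by
    ext ξ; constructor
    · rintro ⟨_, h⟩; exact h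
    · intro h; exact ⟨⟨h.1, h.2.trans_le hx.2⟩, h⟩
  rw [h5, setIntegral_const]
  simp only [measureReal_def, Real.volume_Ioo, sub_zero, smul_eq_mul]
  rw [ENNReal.toReal_ofReal hx.1]
  apply le_of_eq; ring

theorem norm_K1_le (hL : 0 < L) {x : ℝ} (hx : x ∈ Icc 0 L) :
    ‖K1 L x‖ ^ 2 ≤ L ^ 9 * (L - x) ^ 3 := by
  unfold K1
  rw [norm_toHL_sq80 hL (cont_pk_right x).continuousOn]
  have h1 : ∫ ξ in Ioo 0 L, ξ ^ 9 * (pk ξ x) ^ 2 ≤ ∫ ξ in Ioo 0 L,
      (Ioo x L).indicator (fun _ => L ^ 9 * (L - x) ^ 2) ξ := by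
    refine setIntegral_mono_on ?_ ?_ measurableSet_Ioo fun ξ hξ => ?_
    · refine (Continuous.integrableOn_Icc ?_).mono_set Ioo_subset_Icc_self
      have := cont_pk_right x
      fun_prop
    · exact (integrable_const _).indicator measurableSet_Ioo
    · by_cases h : ξ ∈ Ioo x L
      · rw [indicator_of_mem h]
        have h2 : pk ξ x = ξ - x := max_eq_left (by linarith [h.1])
        rw [h2]
        refine mul_le_mul (pow_le_pow_left₀ hξ.1.le hξ.2.le 9)
          (pow_le_pow_left₀ (by linarith [h.1]) (by linarith [h.2]) 2) (sq_nonneg _) (by positivity)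
      · rw [indicator_of_notMem h]
        have h3 : ξ ≤ x := by
          by_contra h4
          push Not at h4
          exact h ⟨h4, hξ.2⟩
        have h2 : pk ξ x = 0 := max_eq_right (by linarith)
        rw [h2]; simp
  refine h1.trans ?_
  rw [setIntegral_indicator measurableSet_Ioo]
  have h5 : Ioo 0 L ∩ Ioo x L = Ioo x L := by
    ext ξ; constructor
    · rintro ⟨_, h⟩; exact h
    · intro h; exact ⟨⟨hx.1.trans_lt h.1, h.2⟩, h⟩
  rw [h5, setIntegral_const]
  simp only [measureReal_def, Real.volume_Ioo, smul_eq_mul]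
  rw [ENNReal.toReal_ofReal (by linarith [hx.2])]
  apply le_of_eq; ring

theorem inner_K0 (hL : 0 < L) {x : ℝ} (hx : x ∈ Ioo 0 L) (f : HL L) :
    ⟪K0 L x, f⟫ = Kint (fun ξ => f ξ) x := by
  rw [inner_HL]
  have e : ∫ ξ in Ioo 0 L, ξ ^ 9 * ((K0 L x : HL L) ξ * f ξ) =
      ∫ ξ in Ioo 0 L, pk x ξ * (ξ ^ 9 * f ξ) := by
    refine integral_congr_ae ?_
    filter_upwards [ae_mu_iff.1 (coe_toHL (memLp_pk_left hL x))] with ξ hξ
    unfold K0
    rw [hξ]; ring
  rw [e, integral_pk hx]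
  unfold Kint
  refine intervalIntegral.integral_congr fun ξ _ => ?_
  show (x - ξ) * (ξ ^ 9 * f ξ) = (x - ξ) * ξ ^ 9 * f ξ
  ring

/-- reflected version of `integral_pk` -/
theorem integral_pk' {w : ℝ → ℝ} {s : ℝ} (hs : s ∈ Ioo 0 L) :
    ∫ x in Ioo 0 L, pk x s * w x = ∫ x in s..L, (x - s) * w x := by
  rw [intervalIntegral.integral_of_le hs.2.le, integral_Ioc_eq_integral_Ioo]
  have e1 : ∫ x in Ioo 0 L, pk x s * w x = ∫ x in Ioo 0 L, (Ioo s L).indicator
      (fun x => (x - s) * w x) x := by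
    refine setIntegral_congr_fun measurableSet_Ioo fun x hx => ?_
    by_cases h : x ∈ Ioo s L
    · rw [indicator_of_mem h]
      simp only [pk]
      rw [max_eq_left (by linarith [h.1])]
    · rw [indicator_of_notMem h]
      have h2 : x ≤ s := by
        by_contra h3
        push Not at h3
        exact h ⟨h3, hx.2⟩
      simp only [pk]
      rw [max_eq_right (by linarith)]
      ring
  rw [e1, setIntegral_indicator measurableSet_Ioo]
  congr 2
  ext x
  constructor
  · rintro ⟨_, h⟩; exact h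
  · intro h
    exact ⟨⟨hs.1.trans h.1, h.2⟩, h⟩

theorem inner_K1 (hL : 0 < L) {x : ℝ} (hx : x ∈ Ioo 0 L) (f : HL L) :
    ⟪K1 L x, f⟫ = ∫ ξ in x..L, (ξ - x) * (ξ ^ 9 * f ξ) := by
  rw [inner_HL]
  have e : ∫ ξ in Ioo 0 L, ξ ^ 9 * ((K1 L x : HL L) ξ * f ξ) =
      ∫ ξ in Ioo 0 L, pk ξ x * (ξ ^ 9 * f ξ) := by
    refine integral_congr_ae ?_
    filter_upwards [ae_mu_iff.1 (coe_toHL (memLp_pk_right hL x))] with ξ hξ
    unfold K1
    rw [hξ]; ring
  rw [e, integral_pk' hx]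

/-- `x⁻⁵ (x-·)⁺` as a continuous family -/
def kap5 (hL : 0 < L) : C(Icc (0 : ℝ) L, HL L) where
  toFun x := ((x : ℝ) ^ 5)⁻¹ • K0 L x
  continuous_toFun := by
    rw [continuous_iff_continuousAt]
    rintro ⟨x, hx⟩
    rcases eq_or_lt_of_le hx.1 with h0 | h0
    · subst h0
      have hz : K0 L 0 = 0 := by
        have := norm_K0_le hL hx
        simpa using this
      rw [ContinuousAt]
      simp only [hz, smul_zero]
      rw [tendsto_zero_iff_norm_tendsto_zero]
      have hle : ∀ y : Icc (0 : ℝ) L, ‖((y : ℝ) ^ 5)⁻¹ • K0 L y‖ ≤ y := by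
        intro y
        rw [norm_smul, norm_inv, norm_pow, Real.norm_of_nonneg y.2.1]
        rcases eq_or_lt_of_le y.2.1 with h1 | h1
        · rw [← h1]; simp
        · refine (mul_le_mul_of_nonneg_left (norm_K0_le hL y.2) (by positivity)).trans ?_
          apply le_of_eq
          field_simp
      refine squeeze_zero (fun y => norm_nonneg _) hle ?_
      have : Continuous (fun y : Icc (0 : ℝ) L => (y : ℝ)) := continuous_subtype_val
      exact this.tendsto (⟨0, hx⟩ : Icc (0 : ℝ) L)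
    · have a1 : ContinuousAt (fun y : Icc (0 : ℝ) L => ((y : ℝ) ^ 5)⁻¹) ⟨x, hx⟩ :=
        ContinuousAt.inv₀ (by fun_prop) (pow_ne_zero _ h0.ne')
      have a2 : ContinuousAt (fun y : Icc (0 : ℝ) L => K0 L y) ⟨x, hx⟩ :=
        ((continuous_K0 hL).comp continuous_subtype_val).continuousAt
      exact a1.smul a2

/-- `(L-x)⁻¹ (·-x)⁺` as a continuous family -/
def kapL (hL : 0 < L) : C(Icc (0 : ℝ) L, HL L) where
  toFun x := (L - (x : ℝ))⁻¹ • K1 L x
  continuous_toFun := by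
    rw [continuous_iff_continuousAt]
    rintro ⟨x, hx⟩
    rcases eq_or_lt_of_le hx.2 with h0 | h0
    · subst h0
      have hz : K1 x x = 0 := by
        have h := norm_K1_le hL hx
        rw [sub_self] at h
        have h2 : ‖K1 x x‖ ^ 2 = 0 := le_antisymm (by simpa using h) (sq_nonneg _)
        simpa using h2
      rw [ContinuousAt]
      simp only [hz, smul_zero]
      rw [tendsto_zero_iff_norm_tendsto_zero]
      have hle : ∀ y : Icc (0 : ℝ) x, ‖(x - (y : ℝ))⁻¹ • K1 x y‖ ≤ √(x ^ 9 * (x - y)) := by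
        intro y
        have hy : 0 ≤ x - (y : ℝ) := by linarith [y.2.2]
        rw [norm_smul, norm_inv, Real.norm_of_nonneg hy]
        rcases eq_or_lt_of_le hy with h1 | h1
        · rw [← h1]; simp
        · apply Real.le_sqrt_of_sq_le
          rw [mul_pow]
          refine (mul_le_mul_of_nonneg_left (norm_K1_le hL y.2) (by positivity)).trans ?_
          apply le_of_eq
          field_simp
      refine squeeze_zero (fun y => norm_nonneg _) hle ?_
      have : Continuous (fun y : Icc (0 : ℝ) x => √(x ^ 9 * (x - y))) := by fun_prop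
      have h3 := this.tendsto (⟨x, hx⟩ : Icc (0 : ℝ) x)
      simpa using h3
    · have a1 : ContinuousAt (fun y : Icc (0 : ℝ) L => (L - (y : ℝ))⁻¹) ⟨x, hx⟩ := by
        refine ContinuousAt.inv₀ (by fun_prop) ?_
        show L - x ≠ 0
        linarith
      have a2 : ContinuousAt (fun y : Icc (0 : ℝ) L => K1 L y) ⟨x, hx⟩ :=
        ((continuous_K1 hL).comp continuous_subtype_val).continuousAt
      exact a1.smul a2

/-- `f ↦ x⁻⁵ Kint f x` -/
def T0 (hL : 0 < L) : HL L →L[ℝ] C(Icc (0 : ℝ) L, ℝ) := opOf (kap5 hL)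

/-- `f ↦ (L-x)⁻¹ ∫_x^L (ξ-x) ξ⁹ f ξ` -/
def T1 (hL : 0 < L) : HL L →L[ℝ] C(Icc (0 : ℝ) L, ℝ) := opOf (kapL hL)

theorem T0_apply (hL : 0 < L) (f : HL L) (x : Icc (0 : ℝ) L) (hx : (x : ℝ) ∈ Ioo 0 L) :
    T0 hL f x = ((x : ℝ) ^ 5)⁻¹ * Kint (fun ξ => f ξ) x := by
  unfold T0
  rw [opOf_apply]
  show ⟪((x : ℝ) ^ 5)⁻¹ • K0 L x, f⟫ = _
  rw [real_inner_smul_left, inner_K0 hL hx]

theorem T1_apply (hL : 0 < L) (f : HL L) (x : Icc (0 : ℝ) L) (hx : (x : ℝ) ∈ Ioo 0 L) :
    T1 hL f x = (L - (x : ℝ))⁻¹ * ∫ ξ in (x : ℝ)..L, (ξ - x) * (ξ ^ 9 * f ξ) := by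
  unfold T1
  rw [opOf_apply]
  show ⟪(L - (x : ℝ))⁻¹ • K1 L x, f⟫ = _
  rw [real_inner_smul_left, inner_K1 hL hx]

/-- extension by clamping as a linear map into bounded continuous functions -/
def extB (hL : 0 ≤ L) (w : C(Icc (0 : ℝ) L, ℝ)) : ℝ →ᵇ ℝ :=
  (BoundedContinuousFunction.mkOfCompact w).compContinuous ⟨projIcc 0 L hL, continuous_projIcc⟩

theorem extB_apply (hL : 0 ≤ L) (w : C(Icc (0 : ℝ) L, ℝ)) {x : ℝ} (hx : x ∈ Icc 0 L) :
    extB hL w x = w ⟨x, hx⟩ := by
  simp [extB, projIcc_of_mem hL hx]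

/-- inclusion of `C([0,L])` in `HL L` -/
def inc (hL : 0 < L) : C(Icc (0 : ℝ) L, ℝ) →L[ℝ] HL L :=
  (BoundedContinuousFunction.toLp 2 (mu L) ℝ) ∘L
    LinearMap.mkContinuous
      { toFun := fun w => extB hL.le w
        map_add' := fun f g => by ext x; simp [extB]
        map_smul' := fun c f => by ext x; simp [extB] } 1 (by
      intro f
      rw [one_mul]
      refine (BoundedContinuousFunction.norm_le (norm_nonneg f)).2 fun x => ?_
      exact f.norm_coe_le_norm _)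

theorem inc_apply (hL : 0 < L) (w : C(Icc (0 : ℝ) L, ℝ)) :
    ∀ᵐ x ∂(volume.restrict (Ioo 0 L)), ∀ hx : x ∈ Icc 0 L, (inc hL w : HL L) x = w ⟨x, hx⟩ := by
  have h := BoundedContinuousFunction.coeFn_toLp (p := 2) (mu L) ℝ (extB hL.le w)
  filter_upwards [ae_mu_iff.1 h] with x hx hx2
  rw [← extB_apply hL.le w hx2, ← hx]
  rfl

/-- if a smooth curve in `HL L` is a.e. equal to a smooth curve in `C([0,L])` (possibly after
multiplication by a fixed bounded function `p`), so are the derivatives. -/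
theorem deriv_identify (hL : 0 < L) {D : ℝ → HL L} {V : ℝ → C(Icc (0 : ℝ) L, ℝ)} {s : Set ℝ}
    (hs : IsOpen s) (hD : ContDiffOn ℝ (⊤ : ℕ∞) D s) (hV : ContDiffOn ℝ (⊤ : ℕ∞) V s)
    {p : ℝ → ℝ} (hp : ContinuousOn p (Icc 0 L))
    (e : ∀ τ ∈ s, ∀ᵐ x ∂(volume.restrict (Ioo 0 L)), ∀ hx : x ∈ Icc 0 L,
      p x * (D τ) x = V τ ⟨x, hx⟩) :
    ∀ τ ∈ s, ∀ᵐ x ∂(volume.restrict (Ioo 0 L)), ∀ hx : x ∈ Icc 0 L,
      p x * (deriv D τ : HL L) x = deriv V τ ⟨x, hx⟩ := by
  intro τ hτ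
  have hd1 : HasDerivAt D (deriv D τ) τ :=
    ((hD.differentiableOn (by simp)).differentiableAt (hs.mem_nhds hτ)).hasDerivAt
  have hd2 : HasDerivAt V (deriv V τ) τ :=
    ((hV.differentiableOn (by simp)).differentiableAt (hs.mem_nhds hτ)).hasDerivAt
  have k1 : HasDerivAt (fun r => mulL L (ex L p) (D r)) (mulL L (ex L p) (deriv D τ)) τ :=
    (mulL L (ex L p)).hasFDerivAt.comp_hasDerivAt τ hd1
  have k2 : HasDerivAt (fun r => inc hL (V r)) (inc hL (deriv V τ)) τ :=
    (inc hL).hasFDerivAt.comp_hasDerivAt τ hd2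
  have k3 : (fun r => mulL L (ex L p) (D r)) =ᶠ[𝓝 τ] (fun r => inc hL (V r)) := by
    filter_upwards [hs.mem_nhds hτ] with r hr
    apply Lp.ext
    rw [Filter.EventuallyEq, ae_mu_iff]
    filter_upwards [ae_mu_iff.1 (coe_mulL (ex L p) (D r)), inc_apply hL (V r), e r hr,
      ae_restrict_mem measurableSet_Ioo] with x h1 h2 h3 h4
    have h5 := Ioo_subset_Icc_self h4
    rw [h1, h2 h5, ← h3 h5, ex_apply_mem hL.le hp h5]
  have k4 : mulL L (ex L p) (deriv D τ) = inc hL (deriv V τ) :=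
    (k1.congr_of_eventuallyEq k3.symm).unique k2
  filter_upwards [ae_mu_iff.1 (coe_mulL (ex L p) (deriv D τ)), inc_apply hL (deriv V τ)]
    with x h1 h2 hx
  rw [← h2 hx, ← k4, h1, ex_apply_mem hL.le hp hx]

end Crest.Agent.R213.B
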