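import Crest.Agent.R213.B.SpaceBootOf
import Crest.Agent.R213.B.Boot

/-!
# Row 213, part B: `space_boot` (helper80, from `rep_data` and helper962's `boot`)
-/

set_option autoImplicit false

open Set MeasureTheory Filter Topology
open scoped RealInnerProductSpace ContDiff

noncomputable section

namespace Crest.Agent.R213.B

theorem bootStmt : BootStmt := by
  intro c0 C0 g L φ m hB hc0 E ht hE hh D hD a b ha hb hrep hm0 hm1
  obtain ⟨d, h1, h2⟩ := boot hB hc0 hE hh hD ha hb hrep hm0 hm1
  exact ⟨d, h1, fun τ hτ => ⟨(h2 τ hτ).1, (h2 τ hτ).2.2.2⟩⟩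

theorem spaceBootStmt : SpaceBootStmt := space_boot_of bootStmt

end Crest.Agent.R213.B
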