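import Crest.Agent.R213.B.RegOfBoot
import Crest.Agent.R213.B.SpaceBoot

/-!
# Row 213, part B complete: `reg` (statement of `Iface.reg` with the additional hypothesis `0 < c0`)
-/

set_option autoImplicit false

open Set MeasureTheory Filter Topology
open scoped RealInnerProductSpace ContDiff

noncomputable section

namespace Crest.Agent.R213

theorem reg {c0 C0 : ℝ} {g : ℝ → ℝ} {L : ℝ} {φ m : ℝ → ℝ → ℝ} (hc0 : 0 < c0)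
    (hB : Bg c0 C0 g L φ m)
    {κ : ℝ} {E ht b δ : ℝ → ℝ → ℝ} (hE : Sm (Ioo 0 1) L E) (hh : Sm (Ioo 0 1) L ht)
    (hbm : Measurable (fun p : ℝ × ℝ => b p.1 p.2))
    (hdm : Measurable (fun p : ℝ × ℝ => δ p.1 p.2))
    (hb : N2 L (Wt κ) b < ⊤) (hd : N2 L (Wt' κ) δ < ⊤)
    (h1 : ∃ u : ℕ → ℝ → ℝ → ℝ, (∀ k, Tst L (u k)) ∧
          Tendsto (fun k => N2 L (Wt κ) (fun τ x => φ τ x * dx L (dx L (u k)) τ x - b τ x))
            atTop (𝓝 0) ∧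
          Tendsto (fun k => N2 L (Wt' κ) (fun τ x => u k τ x - δ τ x)) atTop (𝓝 0))
    (h2 : ∀ ψ, Tst L ψ →
          II L (fun τ x => x ^ 9 * (dt ψ τ x * δ τ x + φ τ x * dx L (dx L ψ) τ x * b τ x)) =
            II L (fun τ x => x ^ 9 * (E τ x * ψ τ x +
              (φ τ x * ht τ x) * φ τ x * dx L (dx L ψ) τ x))) :
    ∃ δ' : ℝ → ℝ → ℝ, Sm (Ioo 0 1) L δ' ∧
      (∀ᵐ p : ℝ × ℝ, p ∈ (Ioo (0 : ℝ) 1 ×ˢ Ioo (0 : ℝ) L) →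
        δ' p.1 p.2 = δ p.1 p.2 ∧ φ p.1 p.2 * dx L (dx L δ') p.1 p.2 = b p.1 p.2) ∧
      ∀ τ ∈ Ioo (0 : ℝ) 1, ∀ x ∈ Icc 0 L,
        x ^ 9 * (φ τ x ^ 2 * dx L (dx L δ') τ x - φ τ x ^ 2 * ht τ x) =
          Kint (fun ξ => E τ ξ + dt δ' τ ξ) x :=
  reg_of_boot B.bootStmt hc0 hB hE hh hbm hdm hb hd h1 h2

end Crest.Agent.R213
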