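import Crest.Agent.R213.B.Conc6
import Mathlib

/-!
# Row 213, part B: `time_reg_conc` from the abstract time regularity theorem
-/

set_option autoImplicit false

open Set MeasureTheory Filter Topology
open scoped BoundedContinuousFunction RealInnerProductSpace ENNReal ContDiff

noncomputable section

namespace Crest.Agent.R213.B

/-- the statement of the abstract theorem `time_reg` (see `TimeRegIface.lean`) -/
def TimeRegStmt : Prop :=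
  ∀ {V H K : Type} [NormedAddCommGroup V] [InnerProductSpace ℝ V] [CompleteSpace V]
    [NormedAddCommGroup H] [InnerProductSpace ℝ H] [CompleteSpace H]
    [NormedAddCommGroup K] [InnerProductSpace ℝ K] [CompleteSpace K]
    (J : V →L[ℝ] H) (B : V →L[ℝ] K) {C : ℝ} (_ : ∀ v, ‖v‖ ^ 2 ≤ C * (‖J v‖ ^ 2 + ‖B v‖ ^ 2))
    {N : ℝ → K →L[ℝ] K} (_ : ContDiffOn ℝ ∞ N (Ioo 0 1))
    (_ : ∀ τ ∈ Ioo (0 : ℝ) 1, ∀ x y, ⟪N τ x, y⟫ = ⟪x, N τ y⟫)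
    {c : ℝ} (_ : 0 < c) (_ : ∀ τ ∈ Ioo (0 : ℝ) 1, ∀ x, c * ‖x‖ ^ 2 ≤ ⟪N τ x, x⟫)
    {E : ℝ → H} (_ : ContDiffOn ℝ ∞ E (Ioo 0 1)) {R : ℝ → K} (_ : ContDiffOn ℝ ∞ R (Ioo 0 1))
    {w : ℝ → V} (_ : ∀ a b : ℝ, 0 < a → b < 1 → MemLp w 2 (volume.restrict (Icc a b)))
    (_ : ∀ χ : ℝ → ℝ, ContDiff ℝ ∞ χ → HasCompactSupport χ → tsupport χ ⊆ Ioo 0 1 → ∀ v : V,
      ∫ τ, (deriv χ τ * ⟪J v, J (w τ)⟫ + χ τ * ⟪B v, N τ (B (w τ))⟫) =
        ∫ τ, χ τ * (⟪E τ, J v⟫ + ⟪R τ, B v⟫)),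
    ∃ w' : ℝ → V, ContDiffOn ℝ ∞ w' (Ioo 0 1) ∧ (∀ᵐ τ, τ ∈ Ioo (0 : ℝ) 1 → w' τ = w τ) ∧
      ∀ τ ∈ Ioo (0 : ℝ) 1, ∀ v : V,
        -⟪J v, J (deriv w' τ)⟫ + ⟪B v, N τ (B (w' τ))⟫ = ⟪E τ, J v⟫ + ⟪R τ, B v⟫

variable {L : ℝ}

theorem inner_eq_integral (f g : HL L) : ⟪f, g⟫ = ∫ x, f x * g x ∂(mu L) := by
  rw [L2.inner_def]
  refine integral_congr_ae (Eventually.of_forall fun x => ?_)
  simp [mul_comm]

theorem time_reg_conc_of (htr : TimeRegStmt)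
    {c0 C0 : ℝ} {g : ℝ → ℝ} {φ m : ℝ → ℝ → ℝ} (hB : Bg c0 C0 g L φ m)
    (hc0 : 0 < c0)
    {κ : ℝ} {E ht b δ : ℝ → ℝ → ℝ} (hE : Sm (Ioo 0 1) L E) (hh : Sm (Ioo 0 1) L ht)
    (hbm : Measurable (fun p : ℝ × ℝ => b p.1 p.2))
    (hdm : Measurable (fun p : ℝ × ℝ => δ p.1 p.2))
    (hb : N2 L (Wt κ) b < ⊤) (hd : N2 L (Wt' κ) δ < ⊤)
    (h1 : ∃ u : ℕ → ℝ → ℝ → ℝ, (∀ k, Tst L (u k)) ∧
          Tendsto (fun k => N2 L (Wt κ) (fun τ x => φ τ x * dx L (dx L (u k)) τ x - b τ x))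
            atTop (𝓝 0) ∧
          Tendsto (fun k => N2 L (Wt' κ) (fun τ x => u k τ x - δ τ x)) atTop (𝓝 0))
    (h2 : ∀ ψ, Tst L ψ →
          II L (fun τ x => x ^ 9 * (dt ψ τ x * δ τ x + φ τ x * dx L (dx L ψ) τ x * b τ x)) =
            II L (fun τ x => x ^ 9 * (E τ x * ψ τ x +
              (φ τ x * ht τ x) * φ τ x * dx L (dx L ψ) τ x))) :
    ∃ U Z : ℝ → HL L, ContDiffOn ℝ (⊤ : ℕ∞) U (Ioo 0 1) ∧ ContDiffOn ℝ (⊤ : ℕ∞) Z (Ioo 0 1) ∧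
      (∀ᵐ τ ∂(volume.restrict (Ioo (0 : ℝ) 1)),
        (∀ᵐ x ∂(mu L), (U τ) x = δ τ x) ∧ (∀ᵐ x ∂(mu L), m τ x * (Z τ) x = b τ x)) ∧
      (∀ τ ∈ Ioo (0 : ℝ) 1, InV L (U τ) (Z τ)) ∧
      (∀ τ ∈ Ioo (0 : ℝ) 1, ∀ ζ : ℝ → ℝ, ContDiffOn ℝ (⊤ : ℕ∞) ζ (Icc 0 L) →
        ∫ x, ζ x * (E τ x + (deriv U τ : HL L) x) ∂(mu L) =
          ∫ x, (x * (1 - x / L) * dd L ζ x) *
            (m τ x ^ 2 * ((Z τ) x - x * (1 - x / L) * ht τ x)) ∂(mu L)) := by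
  have hL := Bg.L_pos hB
  have hW : WS L κ φ b δ := ⟨hbm, hdm, hb, hd, h1⟩
  have hR : Sm (Ioo 0 1) L (fun τ x => phi0 L x * m τ x ^ 2 * ht τ x) := by
    refine Sm.mul (Sm.mul (Sm.of_right ?_) (Sm.pow hB.sm 2)) hh
    unfold phi0; fun_prop
  obtain ⟨w', hw', hae, heq⟩ := htr (JL L) (BL L) (C := 1)
    (fun v => by rw [one_mul]; exact (norm_VL v).le)
    (N := NL L m) (NL_contDiffOn isOpen_Ioo hL hB.sm) (fun τ _ x y => NL_symm τ x y)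
    (c := c0 ^ 2) (by positivity)
    (fun τ hτ x => NL_coer hL hB.sm hc0 hτ (hB.lower τ hτ) x)
    (E := fun τ => toHL L (E τ)) (Sm.contDiffOn_toHL isOpen_Ioo hL hE)
    (R := fun τ => toHL L (fun x => phi0 L x * m τ x ^ 2 * ht τ x))
    (Sm.contDiffOn_toHL isOpen_Ioo hL hR)
    (w := wc L m δ b) (wc_memLp hB hc0 hW) (weak_all hB hc0 hW hE hh h2)
  refine ⟨fun τ => JL L (w' τ), fun τ => BL L (w' τ), (JL L).contDiff.comp_contDiffOn hw',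
    (BL L).contDiff.comp_contDiffOn hw', ?_, fun τ _ => inV_of_VL hL _, ?_⟩
  · have hae' : ∀ᵐ τ ∂(volume.restrict (Ioo (0 : ℝ) 1)), w' τ = wc L m δ b τ :=
      (ae_restrict_iff' measurableSet_Ioo).2 hae
    filter_upwards [hae', (wc_ae hB hc0 hW).2, ae_restrict_mem measurableSet_Ioo] with τ h1 h2 hτ
    rw [h1, JL_wc h2.2.2, BL_wc h2.2.2]
    refine ⟨coe_toHL h2.1, ?_⟩
    filter_upwards [coe_toHL h2.2.1, ae_mu_mem L] with x hx hx2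
    rw [hx]
    have h7 : m τ x ≠ 0 := (hc0.trans_le (hB.lower τ hτ x (Ioo_subset_Icc_self hx2))).ne'
    field_simp
  · intro τ hτ ζ hζ
    have h := heq τ hτ (smV L ζ hζ)
    rw [JL_smV, BL_smV] at h
    have hdU : deriv (fun τ => JL L (w' τ)) τ = JL L (deriv w' τ) := by
      have hd : DifferentiableAt ℝ w' τ :=
        (hw'.differentiableOn (by simp)).differentiableAt (isOpen_Ioo.mem_nhds hτ)
      exact ((JL L).hasFDerivAt.comp_hasDerivAt τ hd.hasDerivAt).deriv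
    rw [hdU]
    have hζm : MemLp ζ 2 (mu L) := memLp_of_continuousOn hL hζ.continuousOn
    have hφ0 : ContinuousOn (phi0 L) (Icc 0 L) := (continuous_phi0 L).continuousOn
    have hζd : MemLp (fun x => phi0 L x * dd L ζ x) 2 (mu L) :=
      memLp_of_continuousOn hL (hφ0.mul (continuousOn_dd hL hζ))
    have hEm : MemLp (E τ) 2 (mu L) := memLp_of_continuousOn hL (hE.continuousOn_right hτ)
    have hRm : MemLp (fun x => phi0 L x * m τ x ^ 2 * ht τ x) 2 (mu L) :=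
      memLp_of_continuousOn hL (hR.continuousOn_right hτ)
    have e1 : ∫ x, ζ x * (E τ x + (JL L (deriv w' τ) : HL L) x) ∂(mu L) =
        ⟪toHL L ζ, toHL L (E τ) + JL L (deriv w' τ)⟫ := by
      rw [inner_eq_integral]
      refine integral_congr_ae ?_
      filter_upwards [coe_toHL hζm, coe_toHL hEm,
        Lp.coeFn_add (toHL L (E τ)) (JL L (deriv w' τ))] with x h1 h2 h3
      rw [h3, h1, Pi.add_apply, h2]
    have e2 : ∫ x, (x * (1 - x / L) * dd L ζ x) *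
            (m τ x ^ 2 * ((BL L (w' τ) : HL L) x - x * (1 - x / L) * ht τ x)) ∂(mu L) =
        ⟪toHL L (fun x => phi0 L x * dd L ζ x), NL L m τ (BL L (w' τ)) -
          toHL L (fun x => phi0 L x * m τ x ^ 2 * ht τ x)⟫ := by
      rw [inner_eq_integral]
      refine integral_congr_ae ?_
      have h5 := coe_mulL (ex L (fun x => m τ x ^ 2)) (BL L (w' τ))
      filter_upwards [coe_toHL hζd, coe_toHL hRm,
        Lp.coeFn_sub (NL L m τ (BL L (w' τ))) (toHL L (fun x => phi0 L x * m τ x ^ 2 * ht τ x)),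
        h5, ae_mu_mem L] with x h1 h2 h3 h4 h6
      rw [h3, h1, Pi.sub_apply, h2]
      unfold NL
      have h8 : ContinuousOn (fun x => m τ x ^ 2) (Icc 0 L) := (hB.sm.continuousOn_right hτ).pow 2
      rw [h4, ex_apply_mem hL.le h8 (Ioo_subset_Icc_self h6)]
      unfold phi0
      ring
    rw [e1, e2, inner_add_right, inner_sub_right]
    rw [real_inner_comm (toHL L ζ) (toHL L (E τ)),
      real_inner_comm (toHL L (fun x => phi0 L x * dd L ζ x))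
        (toHL L (fun x => phi0 L x * m τ x ^ 2 * ht τ x))] at h
    linarith

end Crest.Agent.R213.B
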