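import Crest.Agent.R213.B.Asm
import Crest.Agent.R213.B.TimeConc

/-!
# Row 213, part B: `reg` from the abstract time regularity theorem and the spatial bootstrap
-/

set_option autoImplicit false

open Set MeasureTheory Filter Topology
open scoped RealInnerProductSpace ContDiff

noncomputable section

namespace Crest.Agent.R213.B

/-- the statement of `space_boot` (see `BIface.lean`) -/
def SpaceBootStmt : Prop :=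
  ∀ {c0 C0 : ℝ} {g : ℝ → ℝ} {L : ℝ} {φ m : ℝ → ℝ → ℝ} (_ : Bg c0 C0 g L φ m)
    (_ : 0 < c0) {E ht : ℝ → ℝ → ℝ} (_ : Sm (Ioo 0 1) L E) (_ : Sm (Ioo 0 1) L ht)
    {U Z : ℝ → HL L} (_ : ContDiffOn ℝ (⊤ : ℕ∞) U (Ioo 0 1))
    (_ : ContDiffOn ℝ (⊤ : ℕ∞) Z (Ioo 0 1))
    (_ : ∀ τ ∈ Ioo (0 : ℝ) 1, InV L (U τ) (Z τ))
    (_ : ∀ τ ∈ Ioo (0 : ℝ) 1, ∀ ζ : ℝ → ℝ, ContDiffOn ℝ (⊤ : ℕ∞) ζ (Icc 0 L) →
        ∫ x, ζ x * (E τ x + (deriv U τ : HL L) x) ∂(mu L) =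
          ∫ x, (x * (1 - x / L) * dd L ζ x) *
            (m τ x ^ 2 * ((Z τ) x - x * (1 - x / L) * ht τ x)) ∂(mu L)),
    ∃ δ' : ℝ → ℝ → ℝ, Sm (Ioo 0 1) L δ' ∧
      (∀ τ ∈ Ioo (0 : ℝ) 1, ∀ᵐ x ∂(volume.restrict (Ioo 0 L)),
        δ' τ x = (U τ) x ∧ x * (1 - x / L) * dx L (dx L δ') τ x = (Z τ) x) ∧
      ∀ τ ∈ Ioo (0 : ℝ) 1, ∀ x ∈ Icc 0 L,
        x ^ 9 * (φ τ x ^ 2 * dx L (dx L δ') τ x - φ τ x ^ 2 * ht τ x) =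
          Kint (fun ξ => E τ ξ + dt δ' τ ξ) x

theorem reg_of (htr : TimeRegStmt) (hsb : SpaceBootStmt)
    {c0 C0 : ℝ} {g : ℝ → ℝ} {L : ℝ} {φ m : ℝ → ℝ → ℝ} (hc0 : 0 < c0) (hB : Bg c0 C0 g L φ m)
    {κ : ℝ} {E ht b δ : ℝ → ℝ → ℝ} (hE : Sm (Ioo 0 1) L E) (hh : Sm (Ioo 0 1) L ht)
    (hbm : Measurable (fun p : ℝ × ℝ => b p.1 p.2))
    (hdm : Measurable (fun p : ℝ × ℝ => δ p.1 p.2))
    (hb : N2 L (Wt κ) b < ⊤) (hd : N2 L (Wt' κ) δ < ⊤)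
    (h1 : ∃ u : ℕ → ℝ → ℝ → ℝ, (∀ k, Tst L (u k)) ∧
          Tendsto (fun k => N2 L (Wt κ) (fun τ x => φ τ x * dx L (dx L (u k)) τ x - b τ x))
            atTop (𝓝 0) ∧
          Tendsto (fun k => N2 L (Wt' κ) (fun τ x => u k τ x - δ τ x)) atTop (𝓝 0))
    (h2 : ∀ ψ, Tst L ψ →
          II L (fun τ x => x ^ 9 * (dt ψ τ x * δ τ x + φ τ x * dx L (dx L ψ) τ x * b τ x)) =
            II L (fun τ x => x ^ 9 * (E τ x * ψ τ x +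
              (φ τ x * ht τ x) * φ τ x * dx L (dx L ψ) τ x))) :
    ∃ δ' : ℝ → ℝ → ℝ, Sm (Ioo 0 1) L δ' ∧
      (∀ᵐ p : ℝ × ℝ, p ∈ (Ioo (0 : ℝ) 1 ×ˢ Ioo (0 : ℝ) L) →
        δ' p.1 p.2 = δ p.1 p.2 ∧ φ p.1 p.2 * dx L (dx L δ') p.1 p.2 = b p.1 p.2) ∧
      ∀ τ ∈ Ioo (0 : ℝ) 1, ∀ x ∈ Icc 0 L,
        x ^ 9 * (φ τ x ^ 2 * dx L (dx L δ') τ x - φ τ x ^ 2 * ht τ x) =
          Kint (fun ξ => E τ ξ + dt δ' τ ξ) x := by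
  obtain ⟨U, Z, hU, hZ, hae, hV, heq⟩ := time_reg_conc_of htr hB hc0 hE hh hbm hdm hb hd h1 h2
  obtain ⟨δ', hδ, h3, h4⟩ := hsb hB hc0 hE hh hU hZ hV heq
  exact ⟨δ', hδ, reg_core hB hbm hdm hae hδ h3, h4⟩

end Crest.Agent.R213.B
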