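import Crest.Agent.R213.B.RegOf
import Crest.Agent.R213.B.Init
import Crest.Agent.R213.B.CvBasic

/-!
# Row 213, part B (helper80): `space_boot` from the bootstrap theorem of helper962
-/

set_option autoImplicit false

open Set MeasureTheory Filter Topology
open scoped RealInnerProductSpace ContDiff

noncomputable section

namespace Crest.Agent.R213.B

/-- the statement of helper962's `boot` -/
def BootStmt : Prop :=
  ∀ {c0 C0 : ℝ} {g : ℝ → ℝ} {L : ℝ} {φ m : ℝ → ℝ → ℝ} (_ : Bg c0 C0 g L φ m) (_ : 0 < c0)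
    {E ht : ℝ → ℝ → ℝ} (_ : Sm (Ioo 0 1) L E) (_ : Sm (Ioo 0 1) L ht)
    {D : ℝ → HL L} (_ : ContDiffOn ℝ (⊤ : ℕ∞) D (Ioo 0 1))
    {a b : ℝ → ℝ} (_ : ContDiffOn ℝ (⊤ : ℕ∞) a (Ioo 0 1)) (_ : ContDiffOn ℝ (⊤ : ℕ∞) b (Ioo 0 1))
    (_ : ∀ τ ∈ Ioo (0 : ℝ) 1, ∀ᵐ x ∂(volume.restrict (Ioo 0 L)),
        (D τ) x = a τ + b τ * (x - L / 2) + ∫ ξ in (L / 2)..x, (x - ξ) *
          (ht τ ξ + Kint (fun z => E τ z + (deriv D τ : HL L) z) ξ / (ξ ^ 9 * φ τ ξ ^ 2)))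
    (_ : ∀ τ ∈ Ioo (0 : ℝ) 1, ∫ x in (0 : ℝ)..L, x ^ 9 * (E τ x + (deriv D τ : HL L) x) = 0)
    (_ : ∀ τ ∈ Ioo (0 : ℝ) 1, ∫ x in (0 : ℝ)..L, x ^ 10 * (E τ x + (deriv D τ : HL L) x) = 0),
    ∃ d' : ℝ → ℝ → ℝ, Sm (Ioo 0 1) L d' ∧ ∀ τ ∈ Ioo (0 : ℝ) 1,
      (∀ᵐ x ∂(volume.restrict (Ioo 0 L)), (D τ) x = d' τ x) ∧
      ∀ x ∈ Icc 0 L, x ^ 9 * (φ τ x ^ 2 * dx L (dx L d') τ x - φ τ x ^ 2 * ht τ x) =
          Kint (fun ξ => E τ ξ + dt d' τ ξ) x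

/-- time derivatives of a smooth function and of the corresponding curve in `HL L` -/
theorem dt_ae_eq {L : ℝ} (hL : 0 < L) {D : ℝ → HL L} (hD : ContDiffOn ℝ (⊤ : ℕ∞) D (Ioo 0 1))
    {d : ℝ → ℝ → ℝ} (hd : Sm (Ioo 0 1) L d)
    (h : ∀ τ ∈ Ioo (0 : ℝ) 1, ∀ᵐ x ∂(volume.restrict (Ioo 0 L)), (D τ) x = d τ x) :
    ∀ τ ∈ Ioo (0 : ℝ) 1, ∀ᵐ x ∂(volume.restrict (Ioo 0 L)), (deriv D τ : HL L) x = dt d τ x := by
  have hV : ContDiffOn ℝ (⊤ : ℕ∞) (cu L d) (Ioo 0 1) :=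
    contDiffOn_infty.2 fun n => contDiffOn_cu hL n hd
  have hc : ContinuousOn (fun p : ℝ × ℝ => d p.1 p.2) (Ioo (0 : ℝ) 1 ×ˢ Icc 0 L) :=
    ContDiffOn.continuousOn hd
  have hdc : ContinuousOn (fun p : ℝ × ℝ => R213.dt d p.1 p.2) (Ioo (0 : ℝ) 1 ×ˢ Icc 0 L) :=
    ContDiffOn.continuousOn (Sm.dt isOpen_Ioo hL hd)
  intro τ hτ
  have h1 := deriv_identify hL isOpen_Ioo hD hV (p := fun _ => 1) continuousOn_const
    (fun r hr => by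
      filter_upwards [h r hr] with x hx hx2
      rw [hx, cu_apply hc hr ⟨x, hx2⟩, one_mul]) τ hτ
  filter_upwards [h1, ae_restrict_mem measurableSet_Ioo] with x hx hx2
  have h2 := hx (Ioo_subset_Icc_self hx2)
  rw [one_mul, (hasDerivAt_cu hL hd hτ).deriv, cu_apply hdc hτ ⟨x, _⟩] at h2
  exact h2

theorem space_boot_of (hbt : BootStmt) : SpaceBootStmt := by
  intro c0 C0 g L φ m hB hc0 E ht hE hh U Z hU hZ hV heq
  have hL : 0 < L := bg_L_pos hB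
  obtain ⟨a, b, ha, hb, hrep, hm0, hm1, hZae⟩ := rep_data hB hc0 hE hh hU hZ hV heq
  obtain ⟨d', hd', hfin⟩ := hbt hB hc0 hE hh hU ha hb hrep hm0 hm1
  refine ⟨d', hd', fun τ hτ => ?_, fun τ hτ => (hfin τ hτ).2⟩
  have hdt := dt_ae_eq hL hU hd' (fun τ hτ => (hfin τ hτ).1) τ hτ
  have hK : ∀ x ∈ Icc 0 L, Kint (fun z => E τ z + (deriv U τ : HL L) z) x =
      Kint (fun ξ => E τ ξ + dt d' τ ξ) x := by
    intro x hx
    unfold Kint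
    refine intervalIntegral.integral_congr_ae ?_
    have h1 := (ae_restrict_iff' measurableSet_Ioo).1 hdt
    have h2 : ∀ᵐ z : ℝ, z ≠ L := by
      have : volume ({L} : Set ℝ) = 0 := by simp
      exact compl_mem_ae_iff.2 this
    filter_upwards [h1, h2] with z hz hz2 hz3
    rw [uIoc_of_le hx.1] at hz3
    rw [hz ⟨hz3.1, lt_of_le_of_ne (hz3.2.trans hx.2) hz2⟩]
  filter_upwards [(hfin τ hτ).1, hZae τ hτ, ae_restrict_mem measurableSet_Ioo] with x h1 h2 h3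
  have h3' := Ioo_subset_Icc_self h3
  refine ⟨h1.symm, ?_⟩
  rw [h2, hK x h3', ← (hfin τ hτ).2 x h3', hB.phi_eq τ hτ x h3']
  have hp := (phi0_pos h3).ne'
  unfold phi0 at hp
  have hm : m τ x ≠ 0 := (lt_of_lt_of_le hc0 (hB.lower τ hτ x h3')).ne'
  have hx0 : x ≠ 0 := h3.1.ne'
  have h4 : (1 - x / L) ≠ 0 := fun h => hp (by rw [h, mul_zero])
  generalize (1 - x / L) = t at h4
  field_simp
  ring

end Crest.Agent.R213.B
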