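import Mathlib

/-!
# Row 213, part B1: representatives (helper182)

`smooth_rep`: a chain of weak derivatives gives a smooth representative; `glue`: localisation;
`strong_of_weak`: the pointwise equation.
-/

set_option autoImplicit false

open Set MeasureTheory Filter Topology
open scoped RealInnerProductSpace ContDiff

noncomputable section

namespace Crest.Agent.R213.B

section rep

variable {X : Type*} [NormedAddCommGroup X] [NormedSpace ℝ X] [CompleteSpace X]

/-- the integral of the derivative of a test function vanishes -/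
theorem integral_deriv_test {θ : ℝ → ℝ} (hθ : ContDiff ℝ ∞ θ) (hc : HasCompactSupport θ) :
    ∫ τ, deriv θ τ = 0 := by
  have h1 : ∀ x, HasDerivAt θ (deriv θ x) x := fun x =>
    (hθ.differentiable (by simp) x).hasDerivAt
  refine integral_eq_zero_of_hasDerivAt_of_integrable h1 ?_ ?_
  · exact (hθ.continuous_deriv (by simp)).integrable_of_hasCompactSupport hc.deriv
  · exact hθ.continuous.integrable_of_hasCompactSupport hc

/-- existence of a bounded interval containing the support and `0` -/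
theorem exists_Ioo_of_hasCompactSupport {θ : ℝ → ℝ} (hc : HasCompactSupport θ) :
    ∃ R : ℝ, 0 < R ∧ ∀ τ, τ ∉ Ioo (-R) R → θ τ = 0 := by
  obtain ⟨R, hR⟩ := hc.isCompact.isBounded.subset_ball 0
  refine ⟨max R 1, lt_of_lt_of_le one_pos (le_max_right _ _), fun τ hτ => ?_⟩
  by_contra hne
  have h1 : τ ∈ tsupport θ := subset_tsupport θ hne
  have h2 := hR h1
  rw [Metric.mem_ball, dist_zero_right, Real.norm_eq_abs] at h2
  have h3 := abs_lt.1 (lt_of_lt_of_le h2 (le_max_left R 1))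
  exact hτ ⟨h3.1, h3.2⟩

/-- antiderivative of a test function of integral zero -/
theorem exists_primitive_test {k : ℝ → ℝ} (hk : ContDiff ℝ ∞ k) (hc : HasCompactSupport k)
    (h0 : ∫ τ, k τ = 0) :
    ∃ η : ℝ → ℝ, ContDiff ℝ ∞ η ∧ HasCompactSupport η ∧ deriv η = k := by
  obtain ⟨R, hR, hk0⟩ := exists_Ioo_of_hasCompactSupport hc
  have hkc : Continuous k := hk.continuous
  have hd : ∀ x, HasDerivAt (fun τ => ∫ s in (-R)..τ, k s) (k x) x := fun x =>
    intervalIntegral.integral_hasDerivAt_right (hkc.intervalIntegrable _ _)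
      (hkc.stronglyMeasurableAtFilter _ _) hkc.continuousAt
  have hder : deriv (fun τ => ∫ s in (-R)..τ, k s) = k := funext fun x => (hd x).deriv
  refine ⟨fun τ => ∫ s in (-R)..τ, k s, ?_, ?_, hder⟩
  · rw [contDiff_infty_iff_deriv]
    refine ⟨fun x => (hd x).differentiableAt, ?_⟩
    rw [hder]
    exact hk
  · refine HasCompactSupport.intro (isCompact_Icc (a := -R) (b := R)) ?_
    intro τ hτ
    by_cases h1 : τ < -R
    · have : ∀ s ∈ uIcc (-R) τ, k s = 0 := by
        intro s hs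
        rw [uIcc_of_ge h1.le] at hs
        exact hk0 s (fun h => absurd h.1 (not_lt.2 hs.2))
      rw [intervalIntegral.integral_congr this]
      simp
    · have h2 : R < τ := by
        by_contra h3
        exact hτ ⟨not_lt.1 h1, not_lt.1 h3⟩
      have h3 : ∫ s in (-R)..τ, k s = ∫ s, k s := by
        refine intervalIntegral.integral_eq_integral_of_support_subset ?_
        intro s hs
        by_contra hs'
        refine hs (hk0 s fun h => hs' ⟨h.1, ?_⟩)
        exact (h.2.trans h2).le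
      rw [h3, h0]

/-- du Bois-Reymond: zero weak derivative implies constant. -/
theorem const_of_weak_deriv_zero {f : ℝ → X} (hf : LocallyIntegrable f volume)
    (h : ∀ θ : ℝ → ℝ, ContDiff ℝ ∞ θ → HasCompactSupport θ → ∫ τ, deriv θ τ • f τ = 0) :
    ∃ c : X, ∀ᵐ τ, f τ = c := by
  let b : ContDiffBump (0 : ℝ) := ⟨1, 2, one_pos, one_lt_two⟩
  let θ0 : ℝ → ℝ := b.normed volume
  have h0 : ContDiff ℝ ∞ θ0 := b.contDiff_normed
  have h0c : HasCompactSupport θ0 := b.hasCompactSupport_normed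
  have h0i : ∫ τ, θ0 τ = 1 := b.integral_normed
  refine ⟨∫ τ, θ0 τ • f τ, ?_⟩
  have hconst : LocallyIntegrable (fun _ : ℝ => ∫ τ, θ0 τ • f τ) volume :=
    locallyIntegrable_const _
  refine ae_eq_of_integral_contDiff_smul_eq hf hconst ?_
  intro g hg hgc
  -- the primitive
  set I := ∫ τ, g τ with hI
  have hk : ContDiff ℝ ∞ (fun τ => g τ - I * θ0 τ) := hg.sub (contDiff_const.mul h0)
  have hkc : HasCompactSupport (fun τ => g τ - I * θ0 τ) := by
    refine HasCompactSupport.sub hgc ?_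
    exact h0c.mul_left
  have hgi : Integrable g := hg.continuous.integrable_of_hasCompactSupport hgc
  have h0i' : Integrable θ0 := h0.continuous.integrable_of_hasCompactSupport h0c
  have hkint : ∫ τ, (g τ - I * θ0 τ) = 0 := by
    rw [integral_sub hgi (h0i'.const_mul I), integral_const_mul, h0i, mul_one, sub_self]
  obtain ⟨η, hη, hηc, hηd⟩ := exists_primitive_test hk hkc hkint
  have h1 := h η hη hηc
  rw [hηd] at h1
  have hi1 : Integrable (fun τ => g τ • f τ) :=
    hf.integrable_smul_left_of_hasCompactSupport hg.continuous hgc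
  have hi2 : Integrable (fun τ => θ0 τ • f τ) :=
    hf.integrable_smul_left_of_hasCompactSupport h0.continuous h0c
  have hi3 : Integrable (fun τ => I • θ0 τ • f τ) := hi2.smul I
  have h2 : ∫ τ, (g τ - I * θ0 τ) • f τ = (∫ τ, g τ • f τ) - I • ∫ τ, θ0 τ • f τ := by
    rw [← integral_smul, ← integral_sub hi1 hi3]
    refine integral_congr_ae (Eventually.of_forall fun τ => ?_)
    simp only [sub_smul, mul_smul]
  rw [h2, sub_eq_zero] at h1
  rw [h1, integral_smul_const]

/-- the primitive of a locally integrable function has it as weak derivative -/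
theorem weak_deriv_primitive {x : ℝ → X} (hx : LocallyIntegrable x volume) {θ : ℝ → ℝ}
    (hθ : ContDiff ℝ ∞ θ) (hc : HasCompactSupport θ) :
    ∫ τ, deriv θ τ • (∫ s in (0 : ℝ)..τ, x s) = - ∫ τ, θ τ • x τ := by
  obtain ⟨R, hR, hts⟩ : ∃ R : ℝ, 0 < R ∧ tsupport θ ⊆ Ioo (-R) R := by
    obtain ⟨R, hR⟩ := hc.isCompact.isBounded.subset_ball 0
    refine ⟨max R 1, lt_of_lt_of_le one_pos (le_max_right _ _), fun τ hτ => ?_⟩
    have h2 := hR hτ
    rw [Metric.mem_ball, dist_zero_right, Real.norm_eq_abs] at h2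
    have h3 := abs_lt.1 (lt_of_lt_of_le h2 (le_max_left R 1))
    exact ⟨h3.1, h3.2⟩
  have hθ0 : ∀ τ, τ ∉ Ioo (-R) R → θ τ = 0 := fun τ hτ =>
    image_eq_zero_of_notMem_tsupport fun h => hτ (hts h)
  have hθ'0 : ∀ τ, τ ∉ Ioo (-R) R → deriv θ τ = 0 := by
    intro τ hτ
    by_contra hne
    exact hτ (hts (support_deriv_subset hne))
  have hd : ∀ τ, HasDerivAt θ (deriv θ τ) τ := fun τ =>
    (hθ.differentiable (by simp) τ).hasDerivAt
  have hdc : Continuous (deriv θ) := hθ.continuous_deriv (by simp)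
  have hii : ∀ a b : ℝ, IntervalIntegrable x volume a b := fun a b =>
    (hx.integrableOn_isCompact isCompact_uIcc).intervalIntegrable
  set S : Set ℝ := Ioc (-R) R with hS
  have hSm : MeasurableSet S := measurableSet_Ioc
  -- step 1: shift the base point
  have hF : ∀ τ, (∫ s in (0 : ℝ)..τ, x s) = (∫ s in (-R)..τ, x s) - ∫ s in (-R)..0, x s := by
    intro τ
    rw [← intervalIntegral.integral_add_adjacent_intervals (hii (-R) 0) (hii 0 τ)]
    abel
  have hcontF : Continuous (fun τ => ∫ s in (-R)..τ, x s) :=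
    intervalIntegral.continuous_primitive hii (-R)
  have hcd : HasCompactSupport (deriv θ) := hc.deriv
  have hI1 : Integrable (fun τ => deriv θ τ • ∫ s in (-R)..τ, x s) :=
    (hdc.smul hcontF).integrable_of_hasCompactSupport hcd.smul_right
  have hI2 : Integrable (fun τ => deriv θ τ • ∫ s in (-R)..0, x s) :=
    (hdc.smul continuous_const).integrable_of_hasCompactSupport hcd.smul_right
  have e1 : ∫ τ, deriv θ τ • (∫ s in (0 : ℝ)..τ, x s) =
      ∫ τ, deriv θ τ • ∫ s in (-R)..τ, x s := by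
    have : ∀ τ, deriv θ τ • (∫ s in (0 : ℝ)..τ, x s) =
        deriv θ τ • (∫ s in (-R)..τ, x s) - deriv θ τ • ∫ s in (-R)..0, x s := by
      intro τ
      rw [hF τ, smul_sub]
    simp_rw [this]
    rw [integral_sub hI1 hI2, integral_smul_const, integral_deriv_test hθ hc, zero_smul, sub_zero]
  -- step 2: restrict to `S`
  have e2 : ∫ τ, deriv θ τ • (∫ s in (-R)..τ, x s) =
      ∫ τ in S, deriv θ τ • ∫ s in (-R)..τ, x s := by
    refine (setIntegral_eq_integral_of_forall_compl_eq_zero fun τ hτ => ?_).symm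
    rw [hθ'0 τ (fun h => hτ ⟨h.1, h.2.le⟩), zero_smul]
  have e3 : ∫ τ, θ τ • x τ = ∫ τ in S, θ τ • x τ := by
    refine (setIntegral_eq_integral_of_forall_compl_eq_zero fun τ hτ => ?_).symm
    rw [hθ0 τ (fun h => hτ ⟨h.1, h.2.le⟩), zero_smul]
  -- step 3: the double integral
  have e4 : ∫ τ in S, deriv θ τ • (∫ s in (-R)..τ, x s) =
      ∫ τ in S, ∫ s in S, ({z : ℝ × ℝ | z.2 ≤ z.1}.indicator
        (fun z : ℝ × ℝ => deriv θ z.1 • x z.2) (τ, s)) := by
    refine setIntegral_congr_fun hSm fun τ hτ => ?_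
    have h1 : (∫ s in (-R)..τ, x s) = ∫ s in S, (Iic τ).indicator x s := by
      rw [intervalIntegral.integral_of_le hτ.1.le, integral_indicator measurableSet_Iic,
        Measure.restrict_restrict measurableSet_Iic]
      congr 2
      ext s
      simp only [hS, mem_Ioc, mem_inter_iff, mem_Iic]
      constructor
      · rintro ⟨h1, h2⟩; exact ⟨h2, h1, h2.trans hτ.2⟩
      · rintro ⟨h1, h2, _⟩; exact ⟨h2, h1⟩
    rw [h1, ← integral_smul]
    refine integral_congr_ae (Eventually.of_forall fun s => ?_)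
    by_cases hs : s ≤ τ
    · simp [indicator, hs]
    · simp [indicator, hs]
  have hprod : Integrable (fun z : ℝ × ℝ => {z : ℝ × ℝ | z.2 ≤ z.1}.indicator
      (fun z : ℝ × ℝ => deriv θ z.1 • x z.2) z) ((volume.restrict S).prod (volume.restrict S)) := by
    have hm : MeasurableSet {z : ℝ × ℝ | z.2 ≤ z.1} := measurableSet_le measurable_snd measurable_fst
    have hi1 : Integrable (deriv θ) (volume.restrict S) :=
      (hdc.integrable_of_hasCompactSupport hcd).integrableOn
    have hi2 : Integrable x (volume.restrict S) := by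
      have := (hii (-R) R)
      rwa [intervalIntegrable_iff_integrableOn_Ioc_of_le (by linarith)] at this
    exact (hi1.smul_prod hi2).indicator hm
  have e5 : ∫ τ in S, ∫ s in S, ({z : ℝ × ℝ | z.2 ≤ z.1}.indicator
        (fun z : ℝ × ℝ => deriv θ z.1 • x z.2) (τ, s)) =
      ∫ s in S, ∫ τ in S, ({z : ℝ × ℝ | z.2 ≤ z.1}.indicator
        (fun z : ℝ × ℝ => deriv θ z.1 • x z.2) (τ, s)) :=
    integral_integral_swap hprod
  have e6 : ∫ s in S, ∫ τ in S, ({z : ℝ × ℝ | z.2 ≤ z.1}.indicator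
        (fun z : ℝ × ℝ => deriv θ z.1 • x z.2) (τ, s)) = ∫ s in S, - (θ s • x s) := by
    refine setIntegral_congr_fun hSm fun s hs => ?_
    have h1 : ∀ τ, ({z : ℝ × ℝ | z.2 ≤ z.1}.indicator
        (fun z : ℝ × ℝ => deriv θ z.1 • x z.2) (τ, s)) = ((Ici s).indicator (deriv θ) τ) • x s := by
      intro τ
      by_cases h : s ≤ τ
      · simp [indicator, h]
      · simp [indicator, h]
    simp_rw [h1]
    rw [integral_smul_const]
    have h2 : ∫ τ in S, (Ici s).indicator (deriv θ) τ = θ R - θ s := by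
      rw [integral_indicator measurableSet_Ici, Measure.restrict_restrict measurableSet_Ici]
      have h3 : Ici s ∩ S = Icc s R := by
        ext τ
        simp only [hS, mem_Ioc, mem_inter_iff, mem_Ici, mem_Icc]
        constructor
        · rintro ⟨h1, _, h3⟩; exact ⟨h1, h3⟩
        · rintro ⟨h1, h2⟩; exact ⟨h1, lt_of_lt_of_le hs.1 h1, h2⟩
      rw [h3, integral_Icc_eq_integral_Ioc, ← intervalIntegral.integral_of_le hs.2]
      exact intervalIntegral.integral_eq_sub_of_hasDerivAt (fun τ _ => hd τ)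
        (hdc.intervalIntegrable _ _)
    rw [h2, hθ0 R (fun h => lt_irrefl _ h.2), zero_sub, neg_smul]
  rw [e1, e2, e4, e5, e6, integral_neg, e3]

/-- a chain of weak derivatives gives a smooth representative -/
theorem smooth_rep (x : ℕ → ℝ → X) (hx : ∀ n, LocallyIntegrable (x n) volume)
    (hd : ∀ n (θ : ℝ → ℝ), ContDiff ℝ ∞ θ → HasCompactSupport θ →
      ∫ τ, deriv θ τ • x n τ = - ∫ τ, θ τ • x (n + 1) τ) :
    ∃ x' : ℝ → X, ContDiff ℝ ∞ x' ∧ x' =ᵐ[volume] x 0 := by
  have hii : ∀ n (a b : ℝ), IntervalIntegrable (x n) volume a b := fun n a b =>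
    ((hx n).integrableOn_isCompact isCompact_uIcc).intervalIntegrable
  have hcont : ∀ n, Continuous (fun τ => ∫ s in (0 : ℝ)..τ, x (n + 1) s) := fun n =>
    intervalIntegral.continuous_primitive (hii (n + 1)) 0
  have key : ∀ n, ∃ c : X, ∀ᵐ τ, x n τ - (∫ s in (0 : ℝ)..τ, x (n + 1) s) = c := by
    intro n
    refine const_of_weak_deriv_zero ((hx n).sub (hcont n).locallyIntegrable) ?_
    intro θ hθ hc
    have hdc : Continuous (deriv θ) := hθ.continuous_deriv (by simp)
    have hi1 : Integrable (fun τ => deriv θ τ • x n τ) :=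
      (hx n).integrable_smul_left_of_hasCompactSupport hdc hc.deriv
    have hi2 : Integrable (fun τ => deriv θ τ • ∫ s in (0 : ℝ)..τ, x (n + 1) s) :=
      (hdc.smul (hcont n)).integrable_of_hasCompactSupport hc.deriv.smul_right
    show ∫ τ, deriv θ τ • (x n τ - ∫ s in (0 : ℝ)..τ, x (n + 1) s) = 0
    simp_rw [smul_sub]
    rw [integral_sub hi1 hi2, hd n θ hθ hc, weak_deriv_primitive (hx (n + 1)) hθ hc, sub_self]
  choose c hc using key
  set w : ℕ → ℝ → X := fun n τ => c n + ∫ s in (0 : ℝ)..τ, x (n + 1) s with hw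
  have hwc : ∀ n, Continuous (w n) := fun n => continuous_const.add (hcont n)
  have hwae : ∀ n, w n =ᵐ[volume] x n := by
    intro n
    filter_upwards [hc n] with τ hτ
    simp only [hw]
    rw [← hτ]
    abel
  have hwd : ∀ n τ, HasDerivAt (w n) (w (n + 1) τ) τ := by
    intro n τ
    have e : w n = fun τ => c n + ∫ s in (0 : ℝ)..τ, w (n + 1) s := by
      funext r
      simp only [hw]
      congr 1
      refine intervalIntegral.integral_congr_ae ?_
      filter_upwards [hwae (n + 1)] with s hs _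
      exact hs.symm
    rw [e]
    exact (intervalIntegral.integral_hasDerivAt_right ((hwc (n + 1)).intervalIntegrable _ _)
      ((hwc (n + 1)).stronglyMeasurableAtFilter _ _) (hwc (n + 1)).continuousAt).const_add (c n)
  have hsm : ∀ (k : ℕ) n, ContDiff ℝ k (w n) := by
    intro k
    induction k with
    | zero => intro n; exact contDiff_zero.2 (hwc n)
    | succ k ih =>
      intro n
      have : ContDiff ℝ ((k : WithTop ℕ∞) + 1) (w n) := by
        rw [contDiff_succ_iff_deriv]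
        refine ⟨fun τ => (hwd n τ).differentiableAt, fun h => absurd h (by simp), ?_⟩
        have : deriv (w n) = w (n + 1) := funext fun τ => (hwd n τ).deriv
        rw [this]
        exact ih (n + 1)
      exact_mod_cast this
  exact ⟨w 0, contDiff_infty.2 fun k => hsm k 0, hwae 0⟩

end rep

/-- localisation: smooth representatives of all `χ • w` glue to a smooth representative of `w` on
`(0,1)`. -/
theorem glue {V : Type*} [NormedAddCommGroup V] [NormedSpace ℝ V] {w : ℝ → V}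
    (h : ∀ χ : ℝ → ℝ, ContDiff ℝ ∞ χ → HasCompactSupport χ → tsupport χ ⊆ Ioo 0 1 →
      ∃ x : ℝ → V, ContDiff ℝ ∞ x ∧ x =ᵐ[volume] fun τ => χ τ • w τ) :
    ∃ w' : ℝ → V, ContDiffOn ℝ ∞ w' (Ioo 0 1) ∧ ∀ᵐ τ, τ ∈ Ioo (0 : ℝ) 1 → w' τ = w τ := by
  classical
  -- the intervals
  set r : ℕ → ℝ := fun n => 1 / 2 - 1 / ((n : ℝ) + 3) with hr
  have hr0 : ∀ n, 0 < r n := by
    intro n
    have h1 : (0 : ℝ) ≤ n := Nat.cast_nonneg n
    have h2 : 1 / ((n : ℝ) + 3) < 1 / 2 := by
      apply one_div_lt_one_div_of_lt <;> linarith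
    simp only [hr]
    linarith
  have hr1 : ∀ n, r n < 1 / 2 := by
    intro n
    have h1 : (0 : ℝ) ≤ n := Nat.cast_nonneg n
    have h2 : 0 < 1 / ((n : ℝ) + 3) := by positivity
    simp only [hr]
    linarith
  have hrm : ∀ {n m : ℕ}, n < m → r n < r m := by
    intro n m hnm
    have h1 : (0 : ℝ) ≤ n := Nat.cast_nonneg n
    have h2 : (n : ℝ) < m := by exact_mod_cast hnm
    have h3 : 1 / ((m : ℝ) + 3) < 1 / ((n : ℝ) + 3) := by
      apply one_div_lt_one_div_of_lt <;> linarith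
    simp only [hr]
    linarith
  have hrm' : ∀ {n m : ℕ}, n ≤ m → r n ≤ r m := by
    intro n m hnm
    rcases hnm.lt_or_eq with h1 | h1
    · exact (hrm h1).le
    · rw [h1]
  set I : ℕ → Set ℝ := fun n => Metric.ball (1 / 2 : ℝ) (r n) with hI
  have hIopen : ∀ n, IsOpen (I n) := fun n => Metric.isOpen_ball
  have hImono : ∀ {n m : ℕ}, n ≤ m → I n ⊆ I m := fun hnm => Metric.ball_subset_ball (hrm' hnm)
  have hcover : ∀ τ ∈ Ioo (0 : ℝ) 1, ∃ n, τ ∈ I n := by
    intro τ hτ
    have h1 : dist τ (1 / 2 : ℝ) < 1 / 2 := by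
      rw [Real.dist_eq, abs_lt]
      constructor <;> linarith [hτ.1, hτ.2]
    have h2 : 0 < 1 / 2 - dist τ (1 / 2 : ℝ) := by linarith
    obtain ⟨n, hn⟩ := exists_nat_one_div_lt h2
    refine ⟨n, ?_⟩
    rw [hI, Metric.mem_ball]
    have h3 : 1 / ((n : ℝ) + 3) < 1 / ((n : ℝ) + 1) := by
      have h1 : (0 : ℝ) ≤ n := Nat.cast_nonneg n
      apply one_div_lt_one_div_of_lt <;> linarith
    simp only [hr]
    linarith
  -- cut-offs
  have hχ : ∀ n, ∃ x : ℝ → V, ContDiff ℝ ∞ x ∧ ∀ᵐ τ, τ ∈ I n → x τ = w τ := by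
    intro n
    let b : ContDiffBump (1 / 2 : ℝ) := ⟨r n, r (n + 1), hr0 n, hrm (Nat.lt_succ_self n)⟩
    have hb1 : ContDiff ℝ ∞ (b : ℝ → ℝ) := b.contDiff
    have hb2 : HasCompactSupport (b : ℝ → ℝ) := b.hasCompactSupport
    have hb3 : tsupport (b : ℝ → ℝ) ⊆ Ioo 0 1 := by
      rw [b.tsupport_eq]
      intro τ hτ
      rw [Metric.mem_closedBall, Real.dist_eq, abs_le] at hτ
      have h1 : b.rOut < 1 / 2 := hr1 (n + 1)
      constructor <;> linarith [hτ.1, hτ.2]
    obtain ⟨x, hx, hxe⟩ := h b hb1 hb2 hb3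
    refine ⟨x, hx, ?_⟩
    filter_upwards [hxe] with τ hτ hmem
    have h1 : b τ = 1 := b.one_of_mem_closedBall (Metric.ball_subset_closedBall hmem)
    rw [hτ, h1, one_smul]
  choose x hx hxe using hχ
  have hagree : ∀ {n m : ℕ}, n ≤ m → ∀ τ ∈ I n, x n τ = x m τ := by
    intro n m hnm
    have h1 : ∀ᵐ τ ∂(volume.restrict (I n)), x n τ = x m τ := by
      rw [ae_restrict_iff' (hIopen n).measurableSet]
      filter_upwards [hxe n, hxe m] with τ h1 h2 h3
      rw [h1 h3, h2 (hImono hnm h3)]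
    exact Measure.eqOn_open_of_ae_eq h1 (hIopen n) (hx n).continuous.continuousOn
      (hx m).continuous.continuousOn
  set w' : ℝ → V := fun τ => if hτ : ∃ n, τ ∈ I n then x (Nat.find hτ) τ else 0 with hw'
  have hw'eq : ∀ n, ∀ τ ∈ I n, w' τ = x n τ := by
    intro n τ hτ
    have hex : ∃ n, τ ∈ I n := ⟨n, hτ⟩
    simp only [hw', dif_pos hex]
    exact hagree (Nat.find_min' hex hτ) τ (Nat.find_spec hex)
  refine ⟨w', ?_, ?_⟩
  · intro τ hτ
    obtain ⟨n, hn⟩ := hcover τ hτ
    have h1 : w' =ᶠ[𝓝 τ] x n := by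
      filter_upwards [(hIopen n).mem_nhds hn] with σ hσ using hw'eq n σ hσ
    exact ((hx n).contDiffAt.congr_of_eventuallyEq h1).contDiffWithinAt
  · have h1 : ∀ᵐ τ, ∀ n, τ ∈ I n → x n τ = w τ := ae_all_iff.2 hxe
    filter_upwards [h1] with τ hτ hmem
    obtain ⟨n, hn⟩ := hcover τ hmem
    rw [hw'eq n τ hn, hτ n hn]

/-- integration by parts against a smooth curve on `(0,1)` -/
theorem ibp_local {a a' : ℝ → ℝ} (ha : ∀ τ ∈ Ioo (0 : ℝ) 1, HasDerivAt a (a' τ) τ)
    (ha' : ContinuousOn a' (Ioo 0 1)) {χ : ℝ → ℝ} (hχ : ContDiff ℝ ∞ χ)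
    (hc : HasCompactSupport χ) (hs : tsupport χ ⊆ Ioo 0 1) :
    ∫ τ, deriv χ τ * a τ = - ∫ τ, χ τ * a' τ := by
  have hac : ContinuousOn a (Ioo 0 1) := fun τ hτ => (ha τ hτ).continuousAt.continuousWithinAt
  have hχd : ∀ τ, HasDerivAt χ (deriv χ τ) τ := fun τ =>
    (hχ.differentiable (by simp) τ).hasDerivAt
  have hz : ∀ τ, τ ∉ tsupport χ → χ =ᶠ[𝓝 τ] 0 := fun τ hτ =>
    notMem_tsupport_iff_eventuallyEq.1 hτ
  have hdz : ∀ τ, τ ∉ tsupport χ → deriv χ τ = 0 := by
    intro τ hτ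
    rw [(hz τ hτ).deriv_eq]
    simp
  -- continuity of the products on all of `ℝ`
  have hcont : ∀ (f g : ℝ → ℝ), Continuous f → (∀ τ, τ ∉ tsupport χ → f =ᶠ[𝓝 τ] 0) →
      ContinuousOn g (Ioo 0 1) → Continuous (fun τ => f τ * g τ) := by
    intro f g hf hf0 hg
    rw [continuous_iff_continuousAt]
    intro τ
    by_cases hτ : τ ∈ tsupport χ
    · exact hf.continuousAt.mul (hg.continuousAt (isOpen_Ioo.mem_nhds (hs hτ)))
    · have : (fun τ => f τ * g τ) =ᶠ[𝓝 τ] fun _ => 0 := by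
        filter_upwards [hf0 τ hτ] with σ hσ
        rw [hσ]; simp
      exact this.continuousAt
  have hdc : Continuous (deriv χ) := hχ.continuous_deriv (by simp)
  have hdz' : ∀ τ, τ ∉ tsupport χ → deriv χ =ᶠ[𝓝 τ] 0 := by
    intro τ hτ
    filter_upwards [(isClosed_tsupport χ).isOpen_compl.mem_nhds hτ] with σ hσ
    exact hdz σ hσ
  have hc1 : Continuous (fun τ => deriv χ τ * a τ) := hcont _ _ hdc hdz' hac
  have hc2 : Continuous (fun τ => χ τ * a' τ) := hcont _ _ hχ.continuous hz ha'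
  have hc3 : Continuous (fun τ => χ τ * a τ) := hcont _ _ hχ.continuous hz hac
  have hs1 : HasCompactSupport (fun τ => deriv χ τ * a τ) := hc.deriv.mul_right
  have hs2 : HasCompactSupport (fun τ => χ τ * a' τ) := hc.mul_right
  have hs3 : HasCompactSupport (fun τ => χ τ * a τ) := hc.mul_right
  have hder : ∀ τ, HasDerivAt (fun τ => χ τ * a τ) (deriv χ τ * a τ + χ τ * a' τ) τ := by
    intro τ
    by_cases hτ : τ ∈ tsupport χ
    · exact (hχd τ).mul (ha τ (hs hτ))
    · have e : (fun τ => χ τ * a τ) =ᶠ[𝓝 τ] fun _ => 0 := by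
        filter_upwards [hz τ hτ] with σ hσ
        rw [hσ]; simp
      have h0 : χ τ = 0 := (hz τ hτ).self_of_nhds
      rw [hdz τ hτ, h0]
      simp only [zero_mul, add_zero]
      exact (hasDerivAt_const τ (0 : ℝ)).congr_of_eventuallyEq e
  have hi1 := hc1.integrable_of_hasCompactSupport (μ := volume) hs1
  have hi2 := hc2.integrable_of_hasCompactSupport (μ := volume) hs2
  have h0 := integral_eq_zero_of_hasDerivAt_of_integrable hder (hi1.add hi2)
    (hc3.integrable_of_hasCompactSupport hs3)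
  rw [integral_add hi1 hi2] at h0
  linarith

/-- the pointwise equation from the weak equation for a smooth curve -/
theorem strong_of_weak {V H K : Type*} [NormedAddCommGroup V] [InnerProductSpace ℝ V]
    [NormedAddCommGroup H] [InnerProductSpace ℝ H] [NormedAddCommGroup K] [InnerProductSpace ℝ K]
    (J : V →L[ℝ] H) (B : V →L[ℝ] K) {N : ℝ → K →L[ℝ] K} (hN : ContDiffOn ℝ ∞ N (Ioo 0 1))
    {E : ℝ → H} (hE : ContDiffOn ℝ ∞ E (Ioo 0 1)) {R : ℝ → K} (hR : ContDiffOn ℝ ∞ R (Ioo 0 1))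
    {w' : ℝ → V} (hw' : ContDiffOn ℝ ∞ w' (Ioo 0 1))
    (hweak : ∀ χ : ℝ → ℝ, ContDiff ℝ ∞ χ → HasCompactSupport χ → tsupport χ ⊆ Ioo 0 1 → ∀ v : V,
      ∫ τ, (deriv χ τ * ⟪J v, J (w' τ)⟫ + χ τ * ⟪B v, N τ (B (w' τ))⟫) =
        ∫ τ, χ τ * (⟪E τ, J v⟫ + ⟪R τ, B v⟫)) :
    ∀ τ ∈ Ioo (0 : ℝ) 1, ∀ v : V,
      -⟪J v, J (deriv w' τ)⟫ + ⟪B v, N τ (B (w' τ))⟫ = ⟪E τ, J v⟫ + ⟪R τ, B v⟫ := by
  intro τ hτ v
  have hwc : ContinuousOn w' (Ioo 0 1) := hw'.continuousOn
  have hwd : ∀ τ ∈ Ioo (0 : ℝ) 1, HasDerivAt w' (deriv w' τ) τ := fun τ hτ =>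
    ((hw'.differentiableOn (by simp) τ hτ).differentiableAt (isOpen_Ioo.mem_nhds hτ)).hasDerivAt
  have hwdc : ContinuousOn (deriv w') (Ioo 0 1) :=
    hw'.continuousOn_deriv_of_isOpen isOpen_Ioo (by simp)
  set a : ℝ → ℝ := fun τ => ⟪J v, J (w' τ)⟫ with ha
  set a' : ℝ → ℝ := fun τ => ⟪J v, J (deriv w' τ)⟫ with ha'
  set p : ℝ → ℝ := fun τ => ⟪B v, N τ (B (w' τ))⟫ with hp
  set q : ℝ → ℝ := fun τ => ⟪E τ, J v⟫ + ⟪R τ, B v⟫ with hq
  have had : ∀ τ ∈ Ioo (0 : ℝ) 1, HasDerivAt a (a' τ) τ := by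
    intro τ hτ
    have h1 : HasDerivAt (fun τ => J (w' τ)) (J (deriv w' τ)) τ :=
      J.hasFDerivAt.comp_hasDerivAt τ (hwd τ hτ)
    have h2 := (innerSL ℝ (J v)).hasFDerivAt.comp_hasDerivAt τ h1
    exact h2
  have hac : ContinuousOn a (Ioo 0 1) := fun τ hτ => (had τ hτ).continuousAt.continuousWithinAt
  have ha'c : ContinuousOn a' (Ioo 0 1) :=
    continuousOn_const.inner (J.continuous.comp_continuousOn hwdc)
  have hpc : ContinuousOn p (Ioo 0 1) :=
    continuousOn_const.inner (hN.continuousOn.clm_apply (B.continuous.comp_continuousOn hwc))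
  have hqc : ContinuousOn q (Ioo 0 1) :=
    (hE.continuousOn.inner continuousOn_const).add (hR.continuousOn.inner continuousOn_const)
  have hfc : ContinuousOn (fun τ => -a' τ + p τ - q τ) (Ioo 0 1) := (ha'c.neg.add hpc).sub hqc
  have hint : ∀ (χ f : ℝ → ℝ), ContDiff ℝ ∞ χ → HasCompactSupport χ → tsupport χ ⊆ Ioo 0 1 →
      ContinuousOn f (Ioo 0 1) → Integrable (fun τ => χ τ * f τ) := by
    intro χ f hχ hc hs hf
    refine Continuous.integrable_of_hasCompactSupport ?_ hc.mul_right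
    rw [continuous_iff_continuousAt]
    intro τ
    by_cases hτ : τ ∈ tsupport χ
    · exact hχ.continuous.continuousAt.mul (hf.continuousAt (isOpen_Ioo.mem_nhds (hs hτ)))
    · have : (fun τ => χ τ * f τ) =ᶠ[𝓝 τ] fun _ => 0 := by
        filter_upwards [notMem_tsupport_iff_eventuallyEq.1 hτ] with σ hσ
        rw [hσ]; simp
      exact this.continuousAt
  have hz : ∀ᵐ τ, τ ∈ Ioo (0 : ℝ) 1 → -a' τ + p τ - q τ = 0 := by
    refine isOpen_Ioo.ae_eq_zero_of_integral_contDiff_smul_eq_zero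
      (hfc.locallyIntegrableOn measurableSet_Ioo) ?_
    intro χ hχ hc hs
    have h1 := hweak χ hχ hc hs v
    have h2 := ibp_local had ha'c hχ hc hs
    have hdχ : ContDiff ℝ ∞ (deriv χ) := (contDiff_infty_iff_deriv.1 hχ).2
    have hdc : HasCompactSupport (deriv χ) := hc.deriv
    have hds : tsupport (deriv χ) ⊆ Ioo 0 1 :=
      (closure_minimal support_deriv_subset (isClosed_tsupport χ)).trans hs
    have i1 : Integrable (fun τ => deriv χ τ * a τ) := hint _ _ hdχ hdc hds hac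
    have i2 : Integrable (fun τ => χ τ * p τ) := hint _ _ hχ hc hs hpc
    have i3 : Integrable (fun τ => χ τ * a' τ) := hint _ _ hχ hc hs ha'c
    have i4 : Integrable (fun τ => χ τ * q τ) := hint _ _ hχ hc hs hqc
    have h3 : ∫ τ, (deriv χ τ * a τ + χ τ * p τ) = ∫ τ, χ τ * q τ := h1
    rw [integral_add i1 i2, h2] at h3
    have h4 : ∫ τ, χ τ • (-a' τ + p τ - q τ) =
        -(∫ τ, χ τ * a' τ) + (∫ τ, χ τ * p τ) - ∫ τ, χ τ * q τ := by
      have i3' : Integrable (fun τ => -(χ τ * a' τ)) := i3.neg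
      have i5 : Integrable (fun τ => -(χ τ * a' τ) + χ τ * p τ) := i3'.add i2
      rw [← integral_neg, ← integral_add i3' i2, ← integral_sub i5 i4]
      refine integral_congr_ae (Eventually.of_forall fun τ => ?_)
      simp only [smul_eq_mul]
      ring
    rw [h4]
    linarith
  have hz' : ∀ᵐ τ ∂(volume.restrict (Ioo (0 : ℝ) 1)), (fun τ => -a' τ + p τ - q τ) τ =
      (fun _ => (0 : ℝ)) τ := (ae_restrict_iff' measurableSet_Ioo).2 hz
  have hfin := Measure.eqOn_open_of_ae_eq hz' isOpen_Ioo hfc continuousOn_const hτ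
  have : -a' τ + p τ - q τ = 0 := hfin
  show -a' τ + p τ = q τ
  linarith

end Crest.Agent.R213.B
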