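import Crest.Agent.R213.B.TFam
import Crest.Agent.R213.B.TRep

/-!
Row 213, part B1: the abstract time regularity theorem (helper418; TRep by helper182).
-/

set_option autoImplicit false

open Set MeasureTheory Filter Topology
open scoped RealInnerProductSpace ContDiff

noncomputable section

namespace Crest.Agent.R213.B

theorem time_reg {V H K : Type} [NormedAddCommGroup V] [InnerProductSpace ℝ V] [CompleteSpace V]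
    [NormedAddCommGroup H] [InnerProductSpace ℝ H] [CompleteSpace H]
    [NormedAddCommGroup K] [InnerProductSpace ℝ K] [CompleteSpace K]
    (J : V →L[ℝ] H) (B : V →L[ℝ] K) {C : ℝ} (hJB : ∀ v, ‖v‖ ^ 2 ≤ C * (‖J v‖ ^ 2 + ‖B v‖ ^ 2))
    {N : ℝ → K →L[ℝ] K} (hN : ContDiffOn ℝ ∞ N (Ioo 0 1))
    (hNs : ∀ τ ∈ Ioo (0 : ℝ) 1, ∀ x y, ⟪N τ x, y⟫ = ⟪x, N τ y⟫)
    {c : ℝ} (hc : 0 < c) (hNc : ∀ τ ∈ Ioo (0 : ℝ) 1, ∀ x, c * ‖x‖ ^ 2 ≤ ⟪N τ x, x⟫)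
    {E : ℝ → H} (hE : ContDiffOn ℝ ∞ E (Ioo 0 1)) {R : ℝ → K} (hR : ContDiffOn ℝ ∞ R (Ioo 0 1))
    {w : ℝ → V} (hw : ∀ a b : ℝ, 0 < a → b < 1 → MemLp w 2 (volume.restrict (Icc a b)))
    (hweak : ∀ χ : ℝ → ℝ, ContDiff ℝ ∞ χ → HasCompactSupport χ → tsupport χ ⊆ Ioo 0 1 → ∀ v : V,
      ∫ τ, (deriv χ τ * ⟪J v, J (w τ)⟫ + χ τ * ⟪B v, N τ (B (w τ))⟫) =
        ∫ τ, χ τ * (⟪E τ, J v⟫ + ⟪R τ, B v⟫)) :
    ∃ w' : ℝ → V, ContDiffOn ℝ ∞ w' (Ioo 0 1) ∧ (∀ᵐ τ, τ ∈ Ioo (0 : ℝ) 1 → w' τ = w τ) ∧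
      ∀ τ ∈ Ioo (0 : ℝ) 1, ∀ v : V,
        -⟪J v, J (deriv w' τ)⟫ + ⟪B v, N τ (B (w' τ))⟫ = ⟪E τ, J v⟫ + ⟪R τ, B v⟫ := by
  have hrep : ∀ χ : ℝ → ℝ, ContDiff ℝ ∞ χ → HasCompactSupport χ → tsupport χ ⊆ Ioo 0 1 →
      ∃ x : ℝ → V, ContDiff ℝ ∞ x ∧ x =ᵐ[volume] fun τ => χ τ • w τ := by
    intro χ hχ hχc hχs
    obtain ⟨s, hs0, hs⟩ := chain_of_weak J B hJB hN hNs hc hNc hE hR hw hweak hχ hχc hχs
    obtain ⟨x', hx', hx''⟩ := smooth_rep (fun n => (s n : ℝ → V)) (fun n => locInt (s n))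
      (fun n θ hθ hθc => weak_of_gen (hs n) hθ hθc)
    exact ⟨x', hx', hx''.trans hs0⟩
  obtain ⟨w', hw', hww'⟩ := glue hrep
  refine ⟨w', hw', hww', ?_⟩
  apply strong_of_weak J B hN hE hR hw'
  intro χ hχ hχc hχs v
  rw [← hweak χ hχ hχc hχs v]
  apply integral_congr_ae
  filter_upwards [hww'] with τ h
  by_cases hτ : τ ∈ Ioo (0 : ℝ) 1
  · rw [h hτ]
  · have h1 : τ ∉ tsupport χ := fun h' => hτ (hχs h')
    have h2 : χ τ = 0 := image_eq_zero_of_notMem_tsupport h1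
    have h3 : deriv χ τ = 0 :=
      image_eq_zero_of_notMem_tsupport fun h' => h1 (tsupport_deriv_subset (𝕜 := ℝ) h')
    rw [h2, h3]
    simp

end Crest.Agent.R213.B
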