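import Crest.Agent.R213.B.TCore

/-!
Row 213, part B1 (helper418).  Smoothness of all orders along the group for localized families.
-/

set_option autoImplicit false

open Set MeasureTheory Filter Topology
open scoped RealInnerProductSpace

noncomputable section

namespace Crest.Agent.R213.B

variable {V H K : Type*} [NormedAddCommGroup V] [InnerProductSpace ℝ V]
    [NormedAddCommGroup H] [InnerProductSpace ℝ H]
    [NormedAddCommGroup K] [InnerProductSpace ℝ K]

/-- A localized family of solutions: index `i` (cutoff), `d i` (derivative of the cutoff). -/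
def Fam {ι : Type*} (d : ι → ι) (GH : OneGrp H) (GK : OneGrp K) (J : V →L[ℝ] H) (B : V →L[ℝ] K)
    (N : K →L[ℝ] K) (v : ι → V) (E : ι → H) (R : ι → K) : Prop :=
  ∀ i, WEq GH GK J B (v i) (N (B (v i)) - R i) (E i - J (v (d i)))

/-- A sequence of multipliers, each being the "derivative" of the previous one. -/
def MulSeq (GK : OneGrp K) (N : ℕ → K →L[ℝ] K) : Prop :=
  ∀ j z z', GK.Gen z z' → GK.Gen (N j z) (N (j + 1) z + N j z')

theorem MulSeq.sm {GK : OneGrp K} {N : ℕ → K →L[ℝ] K} (hN : MulSeq GK N) {k : ℕ} :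
    ∀ {j : ℕ} {z : K}, GK.Sm k z → GK.Sm k (N j z) := by
  induction k with
  | zero => intros; trivial
  | succ k ih =>
    rintro j z ⟨z', h, hz'⟩
    refine ⟨N (j + 1) z + N j z', hN j z z' h, ?_⟩
    exact (ih (OneGrp.Sm.of_succ ⟨z', h, hz'⟩)).add (ih hz')

variable {GV : OneGrp V} {GH : OneGrp H} {GK : OneGrp K} {J : V →L[ℝ] H} {B : V →L[ℝ] K}

/-- The derived equation. -/
theorem WEq.derived (hJ : ∀ r v, J (GV.T r v) = GH.T r (J v)) {v v1 : V} {P P1 : K} {F F1 : H}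
    (h : WEq GH GK J B v P F) (hv : GV.Gen v v1) (hP : GK.Gen P P1) (hF : GH.Gen F F1) :
    WEq GH GK J B v1 P1 F1 := by
  intro y r
  have hJv : GH.Gen (J v) (J v1) := hv.map hJ
  have e : (fun r => ⟪J y, GH.T r (J v1)⟫) = fun r => ⟪B y, GK.T r P⟫ - ⟪J y, GH.T r F⟫ := by
    funext s
    have h1 : HasDerivAt (fun r => ⟪J y, GH.T r (J v)⟫) ⟪J y, GH.T s (J v1)⟫ s := by
      have := (hasDerivAt_const s (J y)).inner ℝ (hJv s)
      simpa using this
    exact h1.unique (h y s)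
  rw [e]
  have h2 : HasDerivAt (fun r => ⟪B y, GK.T r P⟫) ⟪B y, GK.T r P1⟫ r := by
    have := (hasDerivAt_const r (B y)).inner ℝ (hP r)
    simpa using this
  have h3 : HasDerivAt (fun r => ⟪J y, GH.T r F⟫) ⟪J y, GH.T r F1⟫ r := by
    have := (hasDerivAt_const r (J y)).inner ℝ (hF r)
    simpa using this
  exact h2.sub h3

/-- **Abstract smoothness.** -/
theorem fam_smooth [CompleteSpace V] {ι : Type*} {d : ι → ι}
    (hJ : ∀ r v, J (GV.T r v) = GH.T r (J v)) (hB : ∀ r v, B (GV.T r v) = GK.T r (B v))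
    {CJB : ℝ} (hJB : ∀ v, ‖v‖ ^ 2 ≤ CJB * (‖J v‖ ^ 2 + ‖B v‖ ^ 2))
    {N : ℕ → K →L[ℝ] K} (hN : MulSeq GK N)
    (hNs : ∀ x y, ⟪N 0 x, y⟫ = ⟪x, N 0 y⟫) {c : ℝ} (hc : 0 < c)
    (hNc : ∀ x, c * ‖x‖ ^ 2 ≤ ⟪N 0 x, x⟫) {L : ℝ}
    (hNL : ∀ r z, ‖N 0 (GK.T r z) - GK.T r (N 0 z)‖ ≤ L * |r| * ‖z‖) (k : ℕ) :
    ∀ (v : ι → V) (E : ι → H) (R : ι → K), Fam d GH GK J B (N 0) v E R →
      (∀ i, GH.Sm k (E i)) → (∀ i, GK.Sm k (R i)) → ∀ i, GV.Sm k (v i) := by
  induction k with
  | zero => intros; trivial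
  | succ k ih =>
    intro v E R hF hE hR
    -- first derivatives
    choose E1 hE1 hE1k using hE
    choose R1 hR1 hR1k using hR
    have hgen : ∀ i, ∃ w, GV.Gen (v i) w := by
      intro i
      -- Lipschitz bound for `J (v (d i))`
      obtain ⟨C1, hC1⟩ := core1 (GV := GV) hJ hB hNs hNL (hF (d i))
        (CR := ‖R1 (d i)‖) (fun r => (hR1 (d i)).lip r)
      refine core2 hJ hB hJB hNs hc hNc hNL (hF i) (CR := ‖R1 i‖) (fun r => (hR1 i).lip r)
        (CF := ‖E1 i‖ + C1) ?_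
      intro t ht
      have h1 := (hE1 i).lip t
      have h2 := hC1 t ht
      rw [abs_of_pos ht] at h1
      calc ‖GH.T t (E i - J (v (d i))) - (E i - J (v (d i)))‖
          = ‖(GH.T t (E i) - E i) - (GH.T t (J (v (d i))) - J (v (d i)))‖ := by
            rw [(GH.T t).map_sub]
            congr 1
            abel
        _ ≤ ‖GH.T t (E i) - E i‖ + ‖GH.T t (J (v (d i))) - J (v (d i))‖ := norm_sub_le _ _
        _ ≤ ‖E1 i‖ * t + C1 * t := add_le_add h1 h2
        _ = (‖E1 i‖ + C1) * t := by ring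
    choose A hA using hgen
    -- smoothness of order `k` of `v`
    have hvk : ∀ i, GV.Sm k (v i) := ih v E R hF
      (fun i => OneGrp.Sm.of_succ ⟨E1 i, hE1 i, hE1k i⟩)
      (fun i => OneGrp.Sm.of_succ ⟨R1 i, hR1 i, hR1k i⟩)
    -- the derived family
    have hder : Fam d GH GK J B (N 0) (fun i => A i - v (d i)) (fun i => E1 i - E (d i))
        (fun i => R1 i - R (d i) - N 1 (B (v i))) := by
      intro i
      have h1 : WEq GH GK J B (A i) (N 1 (B (v i)) + N 0 (B (A i)) - R1 i)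
          (E1 i - J (A (d i))) := by
        refine (hF i).derived hJ (hA i) ?_ ?_
        · exact (hN 0 _ _ ((hA i).map hB)).sub (hR1 i)
        · exact (hE1 i).sub ((hA (d i)).map hJ)
      have h2 := h1.sub (hF (d i))
      have e1 : N 1 (B (v i)) + N 0 (B (A i)) - R1 i - (N 0 (B (v (d i))) - R (d i)) =
          N 0 (B (A i - v (d i))) - (R1 i - R (d i) - N 1 (B (v i))) := by
        rw [map_sub, map_sub]; abel
      have e2 : E1 i - J (A (d i)) - (E (d i) - J (v (d (d i)))) =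
          (E1 i - E (d i)) - J (A (d i) - v (d (d i))) := by
        rw [map_sub]; abel
      rw [e1, e2] at h2
      exact h2
    have hEk : ∀ i, GH.Sm k (E i) := fun i => OneGrp.Sm.of_succ ⟨E1 i, hE1 i, hE1k i⟩
    have hRk : ∀ i, GK.Sm k (R i) := fun i => OneGrp.Sm.of_succ ⟨R1 i, hR1 i, hR1k i⟩
    have h3 := ih _ _ _ hder (fun i => (hE1k i).sub (hEk (d i)))
      (fun i => ((hR1k i).sub (hRk (d i))).sub (hN.sm ((hvk i).map hB)))
    intro i
    refine ⟨A i, hA i, ?_⟩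
    have h4 := (h3 i).add (hvk (d i))
    simpa using h4

end Crest.Agent.R213.B
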