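import Crest.Agent.R213.B.TGrp

/-!
Row 213, part B1 (helper418).  Core Lipschitz estimates for the weak equation in time, abstract
group form.
-/

set_option autoImplicit false

open Set MeasureTheory Filter Topology
open scoped RealInnerProductSpace

noncomputable section

namespace Crest.Agent.R213.B

variable {V H K : Type*} [NormedAddCommGroup V] [InnerProductSpace ℝ V]
    [NormedAddCommGroup H] [InnerProductSpace ℝ H]
    [NormedAddCommGroup K] [InnerProductSpace ℝ K]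

/-- The weak equation, in group form, for `v` with data `N`, `R`, `F`. -/
def WEq (GH : OneGrp H) (GK : OneGrp K) (J : V →L[ℝ] H) (B : V →L[ℝ] K) (v : V) (P : K) (F : H) :
    Prop :=
  ∀ (y : V) (r : ℝ), HasDerivAt (fun r => ⟪J y, GH.T r (J v)⟫)
    (⟪B y, GK.T r P⟫ - ⟪J y, GH.T r F⟫) r

section

variable {GV : OneGrp V} {GH : OneGrp H} {GK : OneGrp K} {J : V →L[ℝ] H} {B : V →L[ℝ] K}

theorem WEq.integral {v : V} {P : K} {F : H} (h : WEq GH GK J B v P F) (y : V) (a b : ℝ) :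
    ⟪J y, GH.T b (J v)⟫ - ⟪J y, GH.T a (J v)⟫ =
      ∫ r in a..b, (⟪B y, GK.T r P⟫ - ⟪J y, GH.T r F⟫) := by
  symm
  apply intervalIntegral.integral_eq_sub_of_hasDerivAt (fun r _ => h y r)
  apply Continuous.intervalIntegrable
  exact (continuous_const.inner (GK.cont P)).sub (continuous_const.inner (GH.cont F))

theorem WEq.sub {v v' : V} {P P' : K} {F F' : H} (h : WEq GH GK J B v P F)
    (h' : WEq GH GK J B v' P' F') : WEq GH GK J B (v - v') (P - P') (F - F') := by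
  intro y r
  have h1 : HasDerivAt (fun r => ⟪J y, GH.T r (J v)⟫ - ⟪J y, GH.T r (J v')⟫)
      ((⟪B y, GK.T r P⟫ - ⟪J y, GH.T r F⟫) - (⟪B y, GK.T r P'⟫ - ⟪J y, GH.T r F'⟫)) r :=
    (h y r).sub (h' y r)
  simp only [map_sub, inner_sub_right]
  exact h1.congr_deriv (by ring)

theorem WEq.translate (hJ : ∀ r v, J (GV.T r v) = GH.T r (J v)) {v : V} {P : K} {F : H}
    (h : WEq GH GK J B v P F) (s : ℝ) :
    WEq GH GK J B (GV.T s v) (GK.T s P) (GH.T s F) := by
  intro y r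
  have h1 := h y (r + s)
  have h2 := HasDerivAt.comp_add_const (f := fun r => ⟪J y, GH.T r (J v)⟫) r s h1
  simp only [hJ, ← GH.T_add, ← GK.T_add]
  exact h2

/-- Step (i): the `H`-part is Lipschitz. -/
theorem core1 (hJ : ∀ r v, J (GV.T r v) = GH.T r (J v)) (hB : ∀ r v, B (GV.T r v) = GK.T r (B v))
    {N : K →L[ℝ] K} (hNs : ∀ x y, ⟪N x, y⟫ = ⟪x, N y⟫) {L : ℝ}
    (hNL : ∀ r z, ‖N (GK.T r z) - GK.T r (N z)‖ ≤ L * |r| * ‖z‖)
    {v : V} {R : K} {F : H} (h : WEq GH GK J B v (N (B v) - R) F) {CR : ℝ}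
    (hR : ∀ r, ‖GK.T r R - R‖ ≤ CR * |r|) :
    ∃ C : ℝ, ∀ t : ℝ, 0 < t → ‖GH.T t (J v) - J v‖ ≤ C * t := by
  set z := B v with hz
  set A : ℝ := L * ‖z‖ ^ 2 + CR * ‖z‖ with hA
  refine ⟨Real.sqrt (|2 * A + ‖F‖ ^ 2|), fun t ht => ?_⟩
  set y : V := GV.T t v - v with hy
  have hJy : J y = GH.T t (J v) - J v := by rw [hy, map_sub, hJ]
  have hBy : B y = GK.T t z - z := by rw [hy, map_sub, hB]
  have h0 := h.integral y 0 t
  rw [GH.T_zero, ← inner_sub_right, ← hJy, real_inner_self_eq_norm_sq] at h0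
  have hc1 : Continuous fun r => ⟪B y, GK.T r (N z)⟫ := continuous_const.inner (GK.cont _)
  have hc2 : Continuous fun r => ⟪B y, GK.T r R⟫ := continuous_const.inner (GK.cont _)
  have hc3 : Continuous fun r => ⟪J y, GH.T r F⟫ := continuous_const.inner (GH.cont _)
  have hsplit : ∫ r in (0 : ℝ)..t, (⟪B y, GK.T r (N z - R)⟫ - ⟪J y, GH.T r F⟫) =
      (∫ r in (0 : ℝ)..t, ⟪B y, GK.T r (N z)⟫) - (∫ r in (0 : ℝ)..t, ⟪B y, GK.T r R⟫)
        - ∫ r in (0 : ℝ)..t, ⟪J y, GH.T r F⟫ := by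
    rw [← intervalIntegral.integral_sub (hc1.intervalIntegrable _ _) (hc2.intervalIntegrable _ _),
      ← intervalIntegral.integral_sub (Continuous.intervalIntegrable
        (u := fun r => ⟪B y, GK.T r (N z)⟫ - ⟪B y, GK.T r R⟫) (hc1.sub hc2) _ _)
        (hc3.intervalIntegrable _ _)]
    congr 1
    funext r
    rw [(GK.T r).map_sub, inner_sub_right]
  rw [hsplit] at h0
  -- first term
  have T1 : |∫ r in (0 : ℝ)..t, ⟪B y, GK.T r (N z)⟫| ≤ L * ‖z‖ ^ 2 * t * t := by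
    have e1 : ∫ r in (0 : ℝ)..t, ⟪B y, GK.T r (N z)⟫ =
        (∫ r in (0 : ℝ)..t, ⟪GK.T (t - r) z, N z⟫) - ∫ r in (0 : ℝ)..t, ⟪z, GK.T r (N z)⟫ := by
      have hc4 : Continuous fun r => ⟪GK.T (t - r) z, N z⟫ :=
        ((GK.cont z).comp (continuous_const.sub continuous_id)).inner continuous_const
      rw [← intervalIntegral.integral_sub (hc4.intervalIntegrable _ _)
        ((continuous_const.inner (GK.cont _)).intervalIntegrable _ _)]
      congr 1
      funext r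
      rw [hBy, inner_sub_left]
      congr 1
      have : GK.T t z = GK.T r (GK.T (t - r) z) := by rw [← GK.T_add]; congr 2; ring
      rw [this, GK.inner_T]
    have e2 : (∫ r in (0 : ℝ)..t, ⟪GK.T (t - r) z, N z⟫) = ∫ r in (0 : ℝ)..t, ⟪GK.T r z, N z⟫ := by
      have := intervalIntegral.integral_comp_sub_left (a := 0) (b := t)
        (fun r => ⟪GK.T r z, N z⟫) t
      simpa using this
    have hc5 : Continuous fun r => ⟪GK.T r z, N z⟫ := (GK.cont z).inner continuous_const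
    have hc6 : Continuous fun r => ⟪z, GK.T r (N z)⟫ := continuous_const.inner (GK.cont _)
    rw [e1, e2, ← intervalIntegral.integral_sub (hc5.intervalIntegrable _ _)
      (hc6.intervalIntegrable _ _)]
    have := intervalIntegral.norm_integral_le_of_norm_le_const (a := 0) (b := t)
      (f := fun r => ⟪GK.T r z, N z⟫ - ⟪z, GK.T r (N z)⟫) (C := L * ‖z‖ ^ 2 * t) (by
        intro r hr
        rw [uIoc_of_le ht.le] at hr
        have e3 : ⟪GK.T r z, N z⟫ - ⟪z, GK.T r (N z)⟫ = ⟪z, N (GK.T r z) - GK.T r (N z)⟫ := by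
          rw [inner_sub_right, ← hNs, real_inner_comm]
        rw [e3]
        have hr0 : |r| = r := abs_of_pos hr.1
        have hL := hNL r z
        have hL' : 0 ≤ L * |r| * ‖z‖ := (norm_nonneg _).trans hL
        calc ‖⟪z, N (GK.T r z) - GK.T r (N z)⟫‖ ≤ ‖z‖ * ‖N (GK.T r z) - GK.T r (N z)‖ :=
              norm_inner_le_norm _ _
          _ ≤ ‖z‖ * (L * |r| * ‖z‖) := by gcongr
          _ = L * ‖z‖ ^ 2 * r := by rw [hr0]; ring
          _ ≤ L * ‖z‖ ^ 2 * t := by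
              have h0L : 0 ≤ L * ‖z‖ ^ 2 := by
                have h1 : 0 ≤ (L * |r| * ‖z‖) * ‖z‖ := mul_nonneg hL' (norm_nonneg _)
                rw [hr0] at h1
                have h2 : 0 ≤ (L * ‖z‖ ^ 2) * r := by linarith [h1, (by ring :
                  (L * r * ‖z‖) * ‖z‖ = (L * ‖z‖ ^ 2) * r)]
                exact nonneg_of_mul_nonneg_left h2 hr.1
              exact mul_le_mul_of_nonneg_left hr.2 h0L)
    rw [sub_zero, abs_of_pos ht] at this
    exact this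
  -- second term
  have T2 : |∫ r in (0 : ℝ)..t, ⟪B y, GK.T r R⟫| ≤ CR * ‖z‖ * t * t := by
    have := intervalIntegral.norm_integral_le_of_norm_le_const (a := 0) (b := t)
      (f := fun r => ⟪B y, GK.T r R⟫) (C := CR * ‖z‖ * t) (by
        intro r hr
        have e3 : ⟪B y, GK.T r R⟫ = - ⟪GK.T t z, GK.T r (GK.T t R - R)⟫
            + (⟪GK.T t z, GK.T r (GK.T t R)⟫ - ⟪z, GK.T r R⟫) := by
          rw [hBy, inner_sub_left, map_sub, inner_sub_right]
          ring
        have e4 : GK.T r (GK.T t R) = GK.T t (GK.T r R) := by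
          rw [← GK.T_add, ← GK.T_add, add_comm]
        rw [e3, e4, GK.inner_T, sub_self, add_zero, norm_neg]
        calc ‖⟪GK.T t z, GK.T r (GK.T t R - R)⟫‖
            ≤ ‖GK.T t z‖ * ‖GK.T r (GK.T t R - R)‖ := norm_inner_le_norm _ _
          _ = ‖z‖ * ‖GK.T t R - R‖ := by rw [GK.norm_T, GK.norm_T]
          _ ≤ ‖z‖ * (CR * |t|) := by gcongr; exact hR t
          _ = CR * ‖z‖ * t := by rw [abs_of_pos ht]; ring)
    rw [sub_zero, abs_of_pos ht] at this
    exact this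
  -- third term
  have T3 : |∫ r in (0 : ℝ)..t, ⟪J y, GH.T r F⟫| ≤ ‖J y‖ * ‖F‖ * t := by
    have := intervalIntegral.norm_integral_le_of_norm_le_const (a := 0) (b := t)
      (f := fun r => ⟪J y, GH.T r F⟫) (C := ‖J y‖ * ‖F‖) (by
        intro r hr
        calc ‖⟪J y, GH.T r F⟫‖ ≤ ‖J y‖ * ‖GH.T r F‖ := norm_inner_le_norm _ _
          _ = ‖J y‖ * ‖F‖ := by rw [GH.norm_T])
    rw [sub_zero, abs_of_pos ht] at this
    exact this
  have hfin : ‖J y‖ ^ 2 ≤ A * t ^ 2 + ‖J y‖ * ‖F‖ * t := by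
    have a1 := (abs_le.1 T1).2
    have a2 := (abs_le.1 T2).1
    have a3 := (abs_le.1 T3).1
    rw [h0]
    rw [hA]
    nlinarith
  have hfin2 : ‖J y‖ ^ 2 ≤ (2 * A + ‖F‖ ^ 2) * t ^ 2 := by
    nlinarith [sq_nonneg (‖J y‖ - ‖F‖ * t)]
  rw [← hJy]
  have hfin3 : ‖J y‖ ^ 2 ≤ |2 * A + ‖F‖ ^ 2| * t ^ 2 :=
    hfin2.trans (mul_le_mul_of_nonneg_right (le_abs_self _) (sq_nonneg _))
  have h4 := Real.sqrt_le_sqrt hfin3
  rw [Real.sqrt_sq (norm_nonneg _), Real.sqrt_mul (abs_nonneg _), Real.sqrt_sq ht.le] at h4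
  exact h4

/-- A quadratic inequality. -/
theorem le_of_sq_le {a P Q c t : ℝ} (hc : 0 < c) (ha : 0 ≤ a) (ht : 0 < t) (hP : 0 ≤ P) (hQ : 0 ≤ Q)
    (h : c * a ^ 2 ≤ P * t ^ 2 + Q * t * a) :
    a ≤ Real.sqrt ((2 * P) / c + (Q / c) ^ 2) * t := by
  have h1 : a ^ 2 ≤ ((2 * P) / c + (Q / c) ^ 2) * t ^ 2 := by
    have h2 : a ^ 2 ≤ P / c * t ^ 2 + Q / c * t * a := by
      rw [← mul_le_mul_iff_right₀ hc]
      calc c * a ^ 2 ≤ P * t ^ 2 + Q * t * a := h
        _ = c * (P / c * t ^ 2 + Q / c * t * a) := by field_simp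
    have h3 : (2 * P) / c = 2 * (P / c) := by ring
    rw [h3]
    nlinarith [sq_nonneg (a - Q / c * t)]
  have h4 := Real.sqrt_le_sqrt h1
  rw [Real.sqrt_sq ha, Real.sqrt_mul (by positivity), Real.sqrt_sq ht.le] at h4
  exact h4

/-- Step (ii): full Lipschitz estimate and existence of the generator. -/
theorem core2 [CompleteSpace V]
    (hJ : ∀ r v, J (GV.T r v) = GH.T r (J v)) (hB : ∀ r v, B (GV.T r v) = GK.T r (B v))
    {CJB : ℝ} (hJB : ∀ v, ‖v‖ ^ 2 ≤ CJB * (‖J v‖ ^ 2 + ‖B v‖ ^ 2))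
    {N : K →L[ℝ] K} (hNs : ∀ x y, ⟪N x, y⟫ = ⟪x, N y⟫) {c : ℝ} (hc : 0 < c)
    (hNc : ∀ x, c * ‖x‖ ^ 2 ≤ ⟪N x, x⟫) {L : ℝ}
    (hNL : ∀ r z, ‖N (GK.T r z) - GK.T r (N z)‖ ≤ L * |r| * ‖z‖)
    {v : V} {R : K} {F : H} (h : WEq GH GK J B v (N (B v) - R) F) {CR : ℝ}
    (hR : ∀ r, ‖GK.T r R - R‖ ≤ CR * |r|) {CF : ℝ} (hF : ∀ t, 0 < t → ‖GH.T t F - F‖ ≤ CF * t) :
    ∃ w, GV.Gen v w := by
  obtain ⟨C1, hC1⟩ := core1 (GV := GV) hJ hB hNs hNL h hR
  set z := B v with hz
  have hC10 : 0 ≤ C1 := by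
    have := (norm_nonneg _).trans (hC1 1 one_pos)
    simpa using this
  have hCF0 : 0 ≤ CF := by
    have := (norm_nonneg _).trans (hF 1 one_pos)
    simpa using this
  have hCR0 : 0 ≤ CR := by
    have := (norm_nonneg _).trans (hR 1)
    simpa using this
  have hLz : 0 ≤ L * ‖z‖ := by
    have := (norm_nonneg _).trans (hNL 1 z)
    simpa using this
  -- the difference equation tested with itself
  have key : ∀ t : ℝ, 0 < t →
      ⟪GK.T t z - z, GK.T t (N z - R) - (N z - R)⟫ = ⟪GH.T t (J v) - J v, GH.T t F - F⟫ := by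
    intro t ht
    set D : V := GV.T t v - v with hD
    have hJD : J D = GH.T t (J v) - J v := by rw [hD, map_sub, hJ]
    have hBD : B D = GK.T t z - z := by rw [hD, map_sub, hB]
    set P : K := GK.T t (N z - R) - (N z - R) with hP
    set Q : H := GH.T t F - F with hQ
    have hW : WEq GH GK J B D P Q := (h.translate hJ t).sub h
    -- for every e > 0 the integral vanishes
    have hI : ∀ e : ℝ, ∫ r in (0 : ℝ)..e,
        (⟪B (GV.T e D + D), GK.T r P⟫ - ⟪J (GV.T e D + D), GH.T r Q⟫) = 0 := by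
      intro e
      rw [← hW.integral, GH.T_zero, map_add, hJ, inner_add_left, inner_add_left, GH.inner_T,
        real_inner_comm (J D) (GH.T e (J D))]
      ring
    -- pass to the limit
    set g : ℝ → ℝ → ℝ := fun e r => ⟪B (GV.T e D + D), GK.T r P⟫ - ⟪J (GV.T e D + D), GH.T r Q⟫
      with hg
    have hgc : Continuous (Function.uncurry g) := by
      have a1 : Continuous fun p : ℝ × ℝ => B (GV.T p.1 D + D) :=
        B.continuous.comp (((GV.cont D).comp continuous_fst).add continuous_const)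
      have a2 : Continuous fun p : ℝ × ℝ => J (GV.T p.1 D + D) :=
        J.continuous.comp (((GV.cont D).comp continuous_fst).add continuous_const)
      have a3 : Continuous fun p : ℝ × ℝ => GK.T p.2 P := (GK.cont P).comp continuous_snd
      have a4 : Continuous fun p : ℝ × ℝ => GH.T p.2 Q := (GH.cont Q).comp continuous_snd
      exact (a1.inner a3).sub (a2.inner a4)
    have hg00 : g 0 0 = 0 := by
      by_contra hne
      have hpos : 0 < |g 0 0| := abs_pos.2 hne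
      -- near (0,0), g has the sign of g 0 0
      have hnear : ∀ᶠ p in 𝓝 ((0 : ℝ), (0 : ℝ)), |g p.1 p.2 - g 0 0| < |g 0 0| := by
        have : Tendsto (fun p : ℝ × ℝ => |g p.1 p.2 - g 0 0|) (𝓝 (0, 0)) (𝓝 |g 0 0 - g 0 0|) :=
          ((hgc.tendsto (0, 0)).sub_const _).abs
        rw [sub_self, abs_zero] at this
        exact this.eventually_lt_const hpos
      rw [Metric.eventually_nhds_iff] at hnear
      obtain ⟨δ, hδ, hball⟩ := hnear
      set e := δ / 2 with he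
      have hepos : 0 < e := by positivity
      have hin : ∀ r ∈ Icc (0 : ℝ) e, |g e r - g 0 0| < |g 0 0| := by
        intro r hr
        apply @hball (e, r)
        rw [Prod.dist_eq]
        simp only [dist_zero_right, Real.norm_eq_abs]
        rw [abs_of_pos hepos, abs_of_nonneg hr.1]
        have := hr.2
        apply max_lt <;> linarith
      have hInt : ∫ r in (0 : ℝ)..e, g e r = 0 := hI e
      have hce : Continuous (g e) := by
        have : Continuous fun r => Function.uncurry g (e, r) :=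
          hgc.comp (continuous_const.prodMk continuous_id)
        exact this
      rcases lt_or_gt_of_ne hne with hlt | hgt
      · have : ∫ r in (0 : ℝ)..e, g e r < 0 := by
          have h1 : 0 < ∫ r in (0 : ℝ)..e, -g e r := by
            apply intervalIntegral.intervalIntegral_pos_of_pos_on
              (hce.neg.intervalIntegrable _ _) _ hepos
            intro r hr
            have := hin r (Ioo_subset_Icc_self hr)
            rw [abs_of_neg hlt] at this
            have := (abs_lt.1 this).2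
            change 0 < -(g e r)
            linarith
          rw [intervalIntegral.integral_neg] at h1
          linarith
        linarith
      · have : 0 < ∫ r in (0 : ℝ)..e, g e r := by
          apply intervalIntegral.intervalIntegral_pos_of_pos_on
            (hce.intervalIntegrable _ _) _ hepos
          intro r hr
          have := hin r (Ioo_subset_Icc_self hr)
          rw [abs_of_pos hgt] at this
          have := (abs_lt.1 this).1
          linarith
        linarith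
    have hg00' : g 0 0 = 2 * ⟪B D, P⟫ - 2 * ⟪J D, Q⟫ := by
      simp only [hg, GV.T_zero, GK.T_zero, GH.T_zero, map_add, inner_add_left]
      ring
    rw [hg00'] at hg00
    rw [← hBD, ← hJD]
    linarith
  -- estimate for B
  set A1 : ℝ := C1 * CF with hA1
  set A2 : ℝ := L * ‖z‖ + CR with hA2
  have hA10 : 0 ≤ A1 := mul_nonneg hC10 hCF0
  have hA20 : 0 ≤ A2 := add_nonneg hLz hCR0
  set C2 : ℝ := Real.sqrt ((2 * A1) / c + (A2 / c) ^ 2) with hC2
  have hBt : ∀ t : ℝ, 0 < t → ‖GK.T t z - z‖ ≤ C2 * t := by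
    intro t ht
    set Z : K := GK.T t z - z with hZ
    apply le_of_sq_le hc (norm_nonneg _) ht hA10 hA20
    have e1 : ⟪Z, N Z⟫ = ⟪GH.T t (J v) - J v, GH.T t F - F⟫
        + ⟪Z, N (GK.T t z) - GK.T t (N z)⟫ + ⟪Z, GK.T t R - R⟫ := by
      rw [← key t ht, ← inner_add_right, ← inner_add_right]
      congr 1
      rw [hZ, map_sub, map_sub]
      abel
    have e2 : ⟪GH.T t (J v) - J v, GH.T t F - F⟫ ≤ A1 * t ^ 2 := by
      calc ⟪GH.T t (J v) - J v, GH.T t F - F⟫ ≤ ‖GH.T t (J v) - J v‖ * ‖GH.T t F - F‖ :=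
            real_inner_le_norm _ _
        _ ≤ (C1 * t) * (CF * t) := by
            gcongr
            · exact hC1 t ht
            · exact hF t ht
        _ = A1 * t ^ 2 := by rw [hA1]; ring
    have e3 : ⟪Z, N (GK.T t z) - GK.T t (N z)⟫ ≤ L * ‖z‖ * t * ‖Z‖ := by
      calc ⟪Z, N (GK.T t z) - GK.T t (N z)⟫ ≤ ‖Z‖ * ‖N (GK.T t z) - GK.T t (N z)‖ :=
            real_inner_le_norm _ _
        _ ≤ ‖Z‖ * (L * |t| * ‖z‖) := by gcongr; exact hNL t z
        _ = L * ‖z‖ * t * ‖Z‖ := by rw [abs_of_pos ht]; ring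
    have e4 : ⟪Z, GK.T t R - R⟫ ≤ CR * t * ‖Z‖ := by
      calc ⟪Z, GK.T t R - R⟫ ≤ ‖Z‖ * ‖GK.T t R - R‖ := real_inner_le_norm _ _
        _ ≤ ‖Z‖ * (CR * |t|) := by gcongr; exact hR t
        _ = CR * t * ‖Z‖ := by rw [abs_of_pos ht]; ring
    calc c * ‖Z‖ ^ 2 ≤ ⟪N Z, Z⟫ := hNc Z
      _ = ⟪Z, N Z⟫ := real_inner_comm _ _
      _ ≤ A1 * t ^ 2 + A2 * t * ‖Z‖ := by rw [e1, hA2]; linarith
  -- conclusion
  apply GV.exists_gen (C := Real.sqrt (|CJB| * (C1 ^ 2 + C2 ^ 2)))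
  intro t ht
  have h1 := hJB (GV.T t v - v)
  rw [map_sub, map_sub, hJ, hB] at h1
  have h2 : ‖GV.T t v - v‖ ^ 2 ≤ (|CJB| * (C1 ^ 2 + C2 ^ 2)) * t ^ 2 := by
    have h3 : ‖GH.T t (J v) - J v‖ ^ 2 ≤ (C1 * t) ^ 2 :=
      pow_le_pow_left₀ (norm_nonneg _) (hC1 t ht) 2
    have h4 : ‖GK.T t (B v) - B v‖ ^ 2 ≤ (C2 * t) ^ 2 :=
      pow_le_pow_left₀ (norm_nonneg _) (hBt t ht) 2
    calc ‖GV.T t v - v‖ ^ 2 ≤ CJB * (‖GH.T t (J v) - J v‖ ^ 2 + ‖GK.T t (B v) - B v‖ ^ 2) := h1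
      _ ≤ |CJB| * (‖GH.T t (J v) - J v‖ ^ 2 + ‖GK.T t (B v) - B v‖ ^ 2) := by
          gcongr
          exact le_abs_self _
      _ ≤ |CJB| * ((C1 * t) ^ 2 + (C2 * t) ^ 2) := by gcongr
      _ = (|CJB| * (C1 ^ 2 + C2 ^ 2)) * t ^ 2 := by ring
  have h5 := Real.sqrt_le_sqrt h2
  rw [Real.sqrt_sq (norm_nonneg _), Real.sqrt_mul (by positivity), Real.sqrt_sq ht.le] at h5
  exact h5

end

end Crest.Agent.R213.B
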