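import Crest.Agent.R213.B.TWeak

/-!
Row 213, part B1 (helper418).  The cut-off family of a weak solution; smoothness of `χ w` along
the translation group.
-/

set_option autoImplicit false

open Set MeasureTheory Filter Topology
open scoped RealInnerProductSpace ContDiff ENNReal

noncomputable section

namespace Crest.Agent.R213.B

theorem cut_smooth {Y : Type*} [NormedAddCommGroup Y] [NormedSpace ℝ Y] {F : ℝ → Y}
    (hF : ContDiffOn ℝ ∞ F (Ioo 0 1)) {θ : ℝ → ℝ} (hθ : ContDiff ℝ ∞ θ)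
    (hs : tsupport θ ⊆ Ioo 0 1) : ContDiff ℝ ∞ (fun τ => θ τ • F τ) := by
  rw [contDiff_iff_contDiffAt]
  intro τ
  by_cases h : τ ∈ Ioo (0 : ℝ) 1
  · exact hθ.contDiffAt.smul (hF.contDiffAt (isOpen_Ioo.mem_nhds h))
  · have h1 : τ ∉ tsupport θ := fun h' => h (hs h')
    have h2 : (fun τ => θ τ • F τ) =ᶠ[𝓝 τ] fun _ => 0 := by
      filter_upwards [notMem_tsupport_iff_eventuallyEq.1 h1] with t ht
      rw [ht, Pi.zero_apply, zero_smul]
    exact (contDiffAt_const (c := (0 : Y))).congr_of_eventuallyEq h2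

theorem exists_cut {a b : ℝ} (ha : 0 < a) (hab : a < b) (hb : b < 1) :
    ∃ θ : ℝ → ℝ, ContDiff ℝ ∞ θ ∧ HasCompactSupport θ ∧ tsupport θ ⊆ Ioo 0 1 ∧
      (∀ τ ∈ Icc a b, θ τ = 1) ∧ ∀ τ, θ τ ∈ Icc (0 : ℝ) 1 := by
  set ε := min a (1 - b) / 2 with hε
  have hεpos : 0 < ε := by
    have : 0 < min a (1 - b) := lt_min ha (by linarith)
    positivity
  have h1 : ε < a := by
    have : min a (1 - b) ≤ a := min_le_left _ _
    linarith
  have h2 : b + ε < 1 := by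
    have : min a (1 - b) ≤ 1 - b := min_le_right _ _
    linarith
  let f : ContDiffBump ((a + b) / 2 : ℝ) := ⟨(b - a) / 2, (b - a) / 2 + ε, by linarith, by linarith⟩
  refine ⟨f, f.contDiff, f.hasCompactSupport, ?_, ?_, ?_⟩
  · rw [f.tsupport_eq]
    intro τ hτ
    rw [Metric.mem_closedBall, Real.dist_eq, abs_le] at hτ
    have h3 : f.rOut = (b - a) / 2 + ε := rfl
    rw [h3] at hτ
    constructor <;> linarith [hτ.1, hτ.2]
  · intro τ hτ
    apply f.one_of_mem_closedBall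
    rw [Metric.mem_closedBall, Real.dist_eq, abs_le]
    have h3 : f.rIn = (b - a) / 2 := rfl
    rw [h3]
    constructor <;> linarith [hτ.1, hτ.2]
  · intro τ
    exact ⟨f.nonneg, f.le_one⟩

theorem exists_Ioo {S : Set ℝ} (hS : IsCompact S) (h : S ⊆ Ioo 0 1) :
    ∃ a b : ℝ, 0 < a ∧ a < b ∧ b < 1 ∧ S ⊆ Ioo a b := by
  rcases S.eq_empty_or_nonempty with rfl | hne
  · exact ⟨1 / 3, 2 / 3, by norm_num, by norm_num, by norm_num, empty_subset _⟩
  · obtain ⟨m, hm, hm'⟩ := hS.exists_isLeast hne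
    obtain ⟨M, hM, hM'⟩ := hS.exists_isGreatest hne
    have h1 := h hm
    have h2 := h hM
    have h3 : m ≤ M := hm' hM
    refine ⟨m / 2, (M + 1) / 2, by linarith [h1.1], by linarith [h1.1, h2.2], by linarith [h2.2], ?_⟩
    intro x hx
    have := hm' hx
    have := hM' hx
    constructor <;> linarith [h1.1, h2.2]

theorem memLp_cut {V : Type*} [NormedAddCommGroup V] [NormedSpace ℝ V] {w : ℝ → V} {a b : ℝ}
    (hw : MemLp w 2 (volume.restrict (Icc a b))) {χ : ℝ → ℝ} (hχ : Continuous χ)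
    (hc : HasCompactSupport χ) (hs : tsupport χ ⊆ Ioo a b) :
    MemLp (fun τ => χ τ • w τ) 2 volume := by
  obtain ⟨C, hC⟩ := hc.exists_bound_of_continuous hχ
  have h1 : MemLp (fun τ => χ τ • w τ) 2 (volume.restrict (Icc a b)) := by
    refine MemLp.of_le_mul (c := C) hw (hχ.aestronglyMeasurable.smul hw.1) ?_
    refine Eventually.of_forall fun τ => ?_
    rw [norm_smul]
    gcongr
    exact hC τ
  have h2 : (fun τ => χ τ • w τ) = (Icc a b).indicator fun τ => χ τ • w τ := by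
    symm
    rw [indicator_eq_self]
    intro τ hτ
    rw [Function.mem_support] at hτ
    apply Ioo_subset_Icc_self
    apply hs
    apply subset_tsupport
    rw [Function.mem_support]
    intro h0
    exact hτ (by rw [h0, zero_smul])
  rw [h2]
  exact (memLp_indicator_iff_restrict measurableSet_Icc).2 h1

/-- The cut-offs supported in `(a, b)`. -/
def Cut (a b : ℝ) : Type :=
  {χ : ℝ → ℝ // ContDiff ℝ ∞ χ ∧ HasCompactSupport χ ∧ tsupport χ ⊆ Ioo a b}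

/-- derivative of a cut-off -/
def dCut {a b : ℝ} (χ : Cut a b) : Cut a b :=
  ⟨deriv χ.1, deriv_smooth χ.2.1, χ.2.2.1.deriv,
    (tsupport_deriv_subset (𝕜 := ℝ)).trans χ.2.2.2⟩

theorem Cut.zero {a b : ℝ} (χ : Cut a b) {τ : ℝ} (h : τ ∉ Icc a b) : χ.1 τ = 0 := by
  apply image_eq_zero_of_notMem_tsupport
  exact fun h' => h (Ioo_subset_Icc_self (χ.2.2.2 h'))

theorem exists_chain {X : Type*} [NormedAddCommGroup X] [InnerProductSpace ℝ X] {G : OneGrp X}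
    {x : X} (h : ∀ k, G.Sm k x) : ∃ s : ℕ → X, s 0 = x ∧ ∀ n, G.Gen (s n) (s (n + 1)) := by
  have step : ∀ y : {y : X // ∀ k, G.Sm k y}, ∃ z : {z : X // ∀ k, G.Sm k z}, G.Gen y.1 z.1 := by
    rintro ⟨y, hy⟩
    obtain ⟨z, hz, -⟩ := hy 1
    refine ⟨⟨z, fun k => ?_⟩, hz⟩
    obtain ⟨z', hz', hk⟩ := hy (k + 1)
    rw [hz.unique hz']
    exact hk
  choose f hf using step
  let s : ℕ → {y : X // ∀ k, G.Sm k y} := fun n => Nat.rec ⟨x, h⟩ (fun _ y => f y) n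
  exact ⟨fun n => (s n).1, rfl, fun n => hf (s n)⟩

section main

variable {V H K : Type*} [NormedAddCommGroup V] [InnerProductSpace ℝ V] [CompleteSpace V]
    [NormedAddCommGroup H] [InnerProductSpace ℝ H] [CompleteSpace H]
    [NormedAddCommGroup K] [InnerProductSpace ℝ K] [CompleteSpace K]

theorem lift_coer (J : V →L[ℝ] H) (B : V →L[ℝ] K) {C : ℝ}
    (hJB : ∀ v, ‖v‖ ^ 2 ≤ C * (‖J v‖ ^ 2 + ‖B v‖ ^ 2)) (f : L2 V) :
    ‖f‖ ^ 2 ≤ C * (‖lift2 J f‖ ^ 2 + ‖lift2 B f‖ ^ 2) := by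
  rw [← real_inner_self_eq_norm_sq, ← real_inner_self_eq_norm_sq, ← real_inner_self_eq_norm_sq,
    L2.inner_def, L2.inner_def, L2.inner_def, ← integral_add (L2.integrable_inner _ _)
      (L2.integrable_inner _ _), ← integral_const_mul]
  apply integral_mono_ae (L2.integrable_inner _ _)
    (((L2.integrable_inner _ _).add (L2.integrable_inner _ _)).const_mul _)
  filter_upwards [coe_lift2 J f, coe_lift2 B f] with τ h1 h2
  rw [h1, h2]
  simp only [real_inner_self_eq_norm_sq]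
  exact hJB _

theorem chain_of_weak
    (J : V →L[ℝ] H) (B : V →L[ℝ] K) {C : ℝ} (hJB : ∀ v, ‖v‖ ^ 2 ≤ C * (‖J v‖ ^ 2 + ‖B v‖ ^ 2))
    {N : ℝ → K →L[ℝ] K} (hN : ContDiffOn ℝ ∞ N (Ioo 0 1))
    (hNs : ∀ τ ∈ Ioo (0 : ℝ) 1, ∀ x y, ⟪N τ x, y⟫ = ⟪x, N τ y⟫)
    {c : ℝ} (hc : 0 < c) (hNc : ∀ τ ∈ Ioo (0 : ℝ) 1, ∀ x, c * ‖x‖ ^ 2 ≤ ⟪N τ x, x⟫)
    {E : ℝ → H} (hE : ContDiffOn ℝ ∞ E (Ioo 0 1)) {R : ℝ → K} (hR : ContDiffOn ℝ ∞ R (Ioo 0 1))
    {w : ℝ → V} (hw : ∀ a b : ℝ, 0 < a → b < 1 → MemLp w 2 (volume.restrict (Icc a b)))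
    (hweak : ∀ χ : ℝ → ℝ, ContDiff ℝ ∞ χ → HasCompactSupport χ → tsupport χ ⊆ Ioo 0 1 → ∀ v : V,
      ∫ τ, (deriv χ τ * ⟪J v, J (w τ)⟫ + χ τ * ⟪B v, N τ (B (w τ))⟫) =
        ∫ τ, χ τ * (⟪E τ, J v⟫ + ⟪R τ, B v⟫))
    {χ0 : ℝ → ℝ} (hχ : ContDiff ℝ ∞ χ0) (hχc : HasCompactSupport χ0)
    (hχs : tsupport χ0 ⊆ Ioo 0 1) :
    ∃ x : ℕ → L2 V, (x 0 =ᵐ[volume] fun τ => χ0 τ • w τ) ∧
      ∀ n, (trG V).Gen (x n) (x (n + 1)) := by
  obtain ⟨a, b, ha, hab, hb, hsub⟩ := exists_Ioo hχc.isCompact hχs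
  obtain ⟨θ, hθ, hθc, hθs, hθ1, hθr⟩ := exists_cut ha hab hb
  have hI : Icc a b ⊆ Ioo (0 : ℝ) 1 := fun x hx => ⟨ha.trans_le hx.1, hx.2.trans_lt hb⟩
  -- the modified coefficient
  set g : ℝ → K →L[ℝ] K := fun τ => θ τ • (N τ - c • ContinuousLinearMap.id ℝ K) with hg
  have hgs : ContDiff ℝ ∞ g := cut_smooth (hN.sub contDiffOn_const) hθ hθs
  have hgc : HasCompactSupport g := hθc.smul_right
  have hgI := memI hgs hgc
  have hga : ∀ τ x, g τ x = θ τ • (N τ x - c • x) := fun τ x => rfl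
  have hsym : ∀ τ x y, ⟪c • x + g τ x, y⟫ = ⟪x, c • y + g τ y⟫ := by
    intro τ x y
    rw [hga, hga]
    by_cases h : τ ∈ Ioo (0 : ℝ) 1
    · simp only [inner_add_left, inner_add_right, real_inner_smul_left, real_inner_smul_right,
        inner_sub_left, inner_sub_right, hNs τ h]
    · have h1 : θ τ = 0 := image_eq_zero_of_notMem_tsupport fun h' => h (hθs h')
      simp only [h1, zero_smul, add_zero, real_inner_smul_left, real_inner_smul_right]
  have hcoer : ∀ τ x, c * ‖x‖ ^ 2 ≤ ⟪c • x + g τ x, x⟫ := by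
    intro τ x
    rw [hga]
    by_cases h : τ ∈ Ioo (0 : ℝ) 1
    · simp only [inner_add_left, real_inner_smul_left, inner_sub_left, real_inner_self_eq_norm_sq]
      have h1 := hNc τ h x
      have h2 := (hθr τ).1
      nlinarith [mul_nonneg h2 (sub_nonneg.2 h1)]
    · have h1 : θ τ = 0 := image_eq_zero_of_notMem_tsupport fun h' => h (hθs h')
      simp only [h1, zero_smul, add_zero, real_inner_smul_left, real_inner_self_eq_norm_sq, le_refl]
  obtain ⟨L, hL⟩ := N0_lip c hgs hgc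
  -- the families
  have hwm : ∀ χ : Cut a b, MemLp (fun τ => χ.1 τ • w τ) 2 volume := fun χ =>
    memLp_cut (hw a b ha hb) χ.2.1.continuous χ.2.2.1 χ.2.2.2
  have hcs : ∀ χ : Cut a b, tsupport χ.1 ⊆ Ioo (0 : ℝ) 1 := fun χ =>
    χ.2.2.2.trans (Ioo_subset_Icc_self.trans hI)
  have hEs : ∀ χ : Cut a b, ContDiff ℝ ∞ (fun τ => χ.1 τ • E τ) := fun χ =>
    cut_smooth hE χ.2.1 (hcs χ)
  have hEc : ∀ χ : Cut a b, HasCompactSupport (fun τ => χ.1 τ • E τ) := fun χ =>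
    χ.2.2.1.smul_right
  have hRs : ∀ χ : Cut a b, ContDiff ℝ ∞ (fun τ => χ.1 τ • R τ) := fun χ =>
    cut_smooth hR χ.2.1 (hcs χ)
  have hRc : ∀ χ : Cut a b, HasCompactSupport (fun τ => χ.1 τ • R τ) := fun χ =>
    χ.2.2.1.smul_right
  set vf : Cut a b → L2 V := fun χ => cl fun τ => χ.1 τ • w τ with hvf
  set Ef : Cut a b → L2 H := fun χ => cl fun τ => χ.1 τ • E τ with hEf
  set Rf : Cut a b → L2 K := fun χ => cl fun τ => χ.1 τ • R τ with hRf
  have hFam : Fam dCut (trG H) (trG K) (lift2 J) (lift2 B) (Nseq c g 0) vf Ef Rf := by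
    intro χ
    apply weq_of_weak
    intro η hη hηc p
    -- a.e. formulas
    have e1 : (Nseq c g 0 (lift2 B (vf χ)) - Rf χ : L2 K) =ᵐ[volume]
        fun τ => χ.1 τ • (N τ (B (w τ)) - R τ) := by
      filter_upwards [Lp.coeFn_sub (Nseq c g 0 (lift2 B (vf χ))) (Rf χ),
        coe_N0 c hgI (lift2 B (vf χ)), coe_lift2 B (vf χ), coe_cl (hwm χ),
        coe_cl (memLp_cc (hRs χ) (hRc χ))] with τ h1 h2 h3 h4 h5
      rw [h1, Pi.sub_apply, h2, h3, h4, h5, hga]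
      by_cases h : τ ∈ Icc a b
      · rw [hθ1 τ h]
        simp only [map_smul, one_smul, smul_sub]
        rw [smul_comm c (χ.1 τ)]
        abel
      · rw [χ.zero h]
        simp
    have e2 : (Ef χ - lift2 J (vf (dCut χ)) : L2 H) =ᵐ[volume]
        fun τ => χ.1 τ • E τ - deriv χ.1 τ • J (w τ) := by
      filter_upwards [Lp.coeFn_sub (Ef χ) (lift2 J (vf (dCut χ))), coe_lift2 J (vf (dCut χ)),
        coe_cl (hwm (dCut χ)), coe_cl (memLp_cc (hEs χ) (hEc χ))] with τ h1 h2 h3 h4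
      rw [h1, Pi.sub_apply, h2, h3, h4, map_smul]
      rfl
    have e3 : (vf χ : ℝ → V) =ᵐ[volume] fun τ => χ.1 τ • w τ := coe_cl (hwm χ)
    -- the weak equation with test function `η χ`
    have hηχ : ContDiff ℝ ∞ (fun τ => η τ * χ.1 τ) := hη.mul χ.2.1
    have hηχc : HasCompactSupport (fun τ => η τ * χ.1 τ) := χ.2.2.1.mul_left
    have hηχs : tsupport (fun τ => η τ * χ.1 τ) ⊆ Ioo 0 1 :=
      (closure_mono (Function.support_mul_subset_right η χ.1)).trans (hcs χ)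
    have hW := hweak _ hηχ hηχc hηχs p
    have hder : ∀ τ, deriv (fun τ => η τ * χ.1 τ) τ = deriv η τ * χ.1 τ + η τ * deriv χ.1 τ := by
      intro τ
      exact ((hη.differentiable (by simp) τ).hasDerivAt.mul
        (χ.2.1.differentiable (by simp) τ).hasDerivAt).deriv
    -- integrability
    have i1 : Integrable (fun τ => deriv η τ * ⟪J p, J (χ.1 τ • w τ)⟫) volume := by
      refine (int_mul (lift2 J (vf χ)) (deriv_smooth hη).continuous hηc.deriv (J p)).congr ?_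
      filter_upwards [coe_lift2 J (vf χ), e3] with τ h1 h2
      rw [h1, h2]
    have i2 : Integrable (fun τ => η τ * ⟪B p, χ.1 τ • (N τ (B (w τ)) - R τ)⟫) volume := by
      refine (int_mul (Nseq c g 0 (lift2 B (vf χ)) - Rf χ : L2 K) hη.continuous hηc
        (B p)).congr ?_
      filter_upwards [e1] with τ h1
      rw [h1]
    have i3 : Integrable (fun τ => η τ * ⟪J p, χ.1 τ • E τ - deriv χ.1 τ • J (w τ)⟫) volume := by
      refine (int_mul (Ef χ - lift2 J (vf (dCut χ)) : L2 H) hη.continuous hηc (J p)).congr ?_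
      filter_upwards [e2] with τ h1
      rw [h1]
    have i4 : Integrable (fun τ => η τ * ⟪B p, χ.1 τ • R τ⟫) volume := by
      refine (int_mul (Rf χ) hη.continuous hηc (B p)).congr ?_
      filter_upwards [coe_cl (memLp_cc (hRs χ) (hRc χ))] with τ h1
      rw [h1]
    have i5 : Integrable (fun τ => η τ * ⟪J p, χ.1 τ • E τ⟫) volume := by
      refine (int_mul (Ef χ) hη.continuous hηc (J p)).congr ?_
      filter_upwards [coe_cl (memLp_cc (hEs χ) (hEc χ))] with τ h1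
      rw [h1]
    have hL1 : ∫ τ, (deriv (fun τ => η τ * χ.1 τ) τ * ⟪J p, J (w τ)⟫
        + (η τ * χ.1 τ) * ⟪B p, N τ (B (w τ))⟫) =
        (∫ τ, deriv η τ * ⟪J p, J (χ.1 τ • w τ)⟫)
        + (∫ τ, η τ * ⟪B p, χ.1 τ • (N τ (B (w τ)) - R τ)⟫)
        - (∫ τ, η τ * ⟪J p, χ.1 τ • E τ - deriv χ.1 τ • J (w τ)⟫)
        + (∫ τ, η τ * ⟪B p, χ.1 τ • R τ⟫) + ∫ τ, η τ * ⟪J p, χ.1 τ • E τ⟫ := by
      have i12 : Integrable (fun τ => deriv η τ * ⟪J p, J (χ.1 τ • w τ)⟫ +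
          η τ * ⟪B p, χ.1 τ • (N τ (B (w τ)) - R τ)⟫) volume := i1.add i2
      have i123 : Integrable (fun τ => deriv η τ * ⟪J p, J (χ.1 τ • w τ)⟫ +
          η τ * ⟪B p, χ.1 τ • (N τ (B (w τ)) - R τ)⟫ -
          η τ * ⟪J p, χ.1 τ • E τ - deriv χ.1 τ • J (w τ)⟫) volume := i12.sub i3
      have i1234 : Integrable (fun τ => deriv η τ * ⟪J p, J (χ.1 τ • w τ)⟫ +
          η τ * ⟪B p, χ.1 τ • (N τ (B (w τ)) - R τ)⟫ -
          η τ * ⟪J p, χ.1 τ • E τ - deriv χ.1 τ • J (w τ)⟫ +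
          η τ * ⟪B p, χ.1 τ • R τ⟫) volume := i123.add i4
      rw [← integral_add i1 i2, ← integral_sub i12 i3, ← integral_add i123 i4,
        ← integral_add i1234 i5]
      congr 1
      funext τ
      rw [hder]
      simp only [map_smul, real_inner_smul_right, inner_sub_right]
      ring
    have hR1 : ∫ τ, (η τ * χ.1 τ) * (⟪E τ, J p⟫ + ⟪R τ, B p⟫) =
        (∫ τ, η τ * ⟪B p, χ.1 τ • R τ⟫) + ∫ τ, η τ * ⟪J p, χ.1 τ • E τ⟫ := by
      rw [← integral_add i4 i5]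
      congr 1
      funext τ
      simp only [real_inner_smul_right]
      rw [real_inner_comm (J p) (E τ), real_inner_comm (B p) (R τ)]
      ring
    rw [hL1, hR1] at hW
    have g1 : ∫ τ, deriv η τ * ⟪J p, J (vf χ τ)⟫ = ∫ τ, deriv η τ * ⟪J p, J (χ.1 τ • w τ)⟫ := by
      apply integral_congr_ae
      filter_upwards [e3] with τ h1
      rw [h1]
    have g2 : ∫ τ, η τ * ⟪B p, (Nseq c g 0 (lift2 B (vf χ)) - Rf χ : L2 K) τ⟫ =
        ∫ τ, η τ * ⟪B p, χ.1 τ • (N τ (B (w τ)) - R τ)⟫ := by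
      apply integral_congr_ae
      filter_upwards [e1] with τ h1
      rw [h1]
    have g3 : ∫ τ, η τ * ⟪J p, (Ef χ - lift2 J (vf (dCut χ)) : L2 H) τ⟫ =
        ∫ τ, η τ * ⟪J p, χ.1 τ • E τ - deriv χ.1 τ • J (w τ)⟫ := by
      apply integral_congr_ae
      filter_upwards [e2] with τ h1
      rw [h1]
    rw [g1, g2, g3]
    linarith
  -- smoothness
  have hsm : ∀ k, (trG V).Sm k (vf ⟨χ0, hχ, hχc, hsub⟩) := fun k =>
    fam_smooth (GV := trG V) (fun r v => lift2_tr J r v) (fun r v => lift2_tr B r v)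
      (lift_coer J B hJB) (mulSeq_Nseq c hgs hgc) (N0_symm c hgI hsym) hc (N0_coer c hgI hcoer)
      hL k vf Ef Rf hFam (fun χ => sm_cl k (hEs χ) (hEc χ)) (fun χ => sm_cl k (hRs χ) (hRc χ)) _
  obtain ⟨s, hs0, hs⟩ := exists_chain hsm
  refine ⟨s, ?_, hs⟩
  rw [hs0]
  exact coe_cl (hwm ⟨χ0, hχ, hχc, hsub⟩)

end main

end Crest.Agent.R213.B
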