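import Mathlib

/-!
Row 213, part B1 (helper418).  One-parameter groups of isometries on Hilbert spaces, the
generator relation, and the difference-quotient estimate.
-/

set_option autoImplicit false

open Set MeasureTheory Filter Topology
open scoped RealInnerProductSpace

noncomputable section

namespace Crest.Agent.R213.B

/-- A strongly continuous one-parameter group of linear isometries. -/
structure OneGrp (X : Type*) [NormedAddCommGroup X] [InnerProductSpace ℝ X] where
  T : ℝ → X →ₗᵢ[ℝ] X
  T_zero : ∀ x, T 0 x = x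
  T_add : ∀ r s x, T (r + s) x = T r (T s x)
  cont : ∀ x, Continuous fun r => T r x

namespace OneGrp

variable {X : Type*} [NormedAddCommGroup X] [InnerProductSpace ℝ X] (G : OneGrp X)

/-- `y` is the generator applied to `x`. -/
def Gen (x y : X) : Prop := ∀ r, HasDerivAt (fun r => G.T r x) (G.T r y) r

/-- Smoothness of order `k` along the group. -/
def Sm : ℕ → X → Prop
  | 0, _ => True
  | (k + 1), x => ∃ y, G.Gen x y ∧ Sm k y

theorem T_neg (r : ℝ) (x : X) : G.T (-r) (G.T r x) = x := by
  rw [← G.T_add, neg_add_cancel, G.T_zero]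

theorem T_neg' (r : ℝ) (x : X) : G.T r (G.T (-r) x) = x := by
  rw [← G.T_add, add_neg_cancel, G.T_zero]

theorem inner_T (r : ℝ) (x y : X) : ⟪G.T r x, G.T r y⟫ = ⟪x, y⟫ :=
  (G.T r).inner_map_map x y

theorem inner_T_left (r : ℝ) (x y : X) : ⟪G.T r x, y⟫ = ⟪x, G.T (-r) y⟫ := by
  rw [← G.inner_T r x, G.T_neg']

theorem norm_T (r : ℝ) (x : X) : ‖G.T r x‖ = ‖x‖ := (G.T r).norm_map x

theorem gen_of_zero {x y : X} (h : HasDerivAt (fun r => G.T r x) y 0) : G.Gen x y := by
  intro r
  have h1 : HasDerivAt (fun s => G.T r (G.T (s - r) x)) (G.T r y) r := by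
    have h2 : HasDerivAt (fun s => G.T (s - r) x) y r := by
      have h3 : HasDerivAt (fun r => G.T r x) y (r - r) := by rwa [sub_self]
      have h5 := HasDerivAt.scomp (h := fun s : ℝ => s - r) r h3 ((hasDerivAt_id r).sub_const r)
      simpa [Function.comp_def] using h5
    have h4 := ((G.T r).toContinuousLinearMap.hasFDerivAt (x := G.T (r - r) x)).comp_hasDerivAt r h2
    exact h4
  have : (fun s => G.T r (G.T (s - r) x)) = fun s => G.T s x := by
    funext s
    rw [← G.T_add, add_sub_cancel]
  rwa [this] at h1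

theorem Gen.zero {x y : X} (h : G.Gen x y) : HasDerivAt (fun r => G.T r x) y 0 := by
  have := h 0
  rwa [G.T_zero] at this

variable {G}

theorem Gen.unique {x y z : X} (h : G.Gen x y) (h' : G.Gen x z) : y = z :=
  (h.zero).unique (h'.zero)

theorem Gen.add {x y x' y' : X} (h : G.Gen x y) (h' : G.Gen x' y') : G.Gen (x + x') (y + y') := by
  intro r
  have := (h r).add (h' r)
  simp only [map_add]
  exact this

theorem Gen.sub {x y x' y' : X} (h : G.Gen x y) (h' : G.Gen x' y') : G.Gen (x - x') (y - y') := by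
  intro r
  have := (h r).sub (h' r)
  simp only [map_sub]
  exact this

theorem Sm.add {k : ℕ} : ∀ {x x' : X}, G.Sm k x → G.Sm k x' → G.Sm k (x + x') := by
  induction k with
  | zero => intros; trivial
  | succ k ih =>
    rintro x x' ⟨y, h, hy⟩ ⟨y', h', hy'⟩
    exact ⟨y + y', h.add h', ih hy hy'⟩

theorem Sm.sub {k : ℕ} : ∀ {x x' : X}, G.Sm k x → G.Sm k x' → G.Sm k (x - x') := by
  induction k with
  | zero => intros; trivial
  | succ k ih =>
    rintro x x' ⟨y, h, hy⟩ ⟨y', h', hy'⟩
    exact ⟨y - y', h.sub h', ih hy hy'⟩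

theorem Sm.of_succ {k : ℕ} : ∀ {x : X}, G.Sm (k + 1) x → G.Sm k x := by
  induction k with
  | zero => intros; trivial
  | succ k ih =>
    rintro x ⟨y, h, hy⟩
    exact ⟨y, h, ih hy⟩

/-- Intertwining maps preserve the generator relation. -/
theorem Gen.map {Y : Type*} [NormedAddCommGroup Y] [InnerProductSpace ℝ Y] {G' : OneGrp Y}
    {L : X →L[ℝ] Y} (hL : ∀ r x, L (G.T r x) = G'.T r (L x)) {x y : X} (h : G.Gen x y) :
    G'.Gen (L x) (L y) := by
  intro r
  have h4 := (L.hasFDerivAt (x := G.T r x)).comp_hasDerivAt r (h r)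
  have h5 : HasDerivAt (fun r => L (G.T r x)) (L (G.T r y)) r := h4
  simpa only [hL] using h5

theorem Sm.map {Y : Type*} [NormedAddCommGroup Y] [InnerProductSpace ℝ Y] {G' : OneGrp Y}
    {L : X →L[ℝ] Y} (hL : ∀ r x, L (G.T r x) = G'.T r (L x)) {k : ℕ} :
    ∀ {x : X}, G.Sm k x → G'.Sm k (L x) := by
  induction k with
  | zero => intros; trivial
  | succ k ih =>
    rintro x ⟨y, h, hy⟩
    exact ⟨L y, h.map hL, ih hy⟩

/-- The generator relation gives a Lipschitz orbit. -/
theorem Gen.lip {x y : X} (h : G.Gen x y) (r : ℝ) : ‖G.T r x - x‖ ≤ ‖y‖ * |r| := by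
  have := Convex.norm_image_sub_le_of_norm_hasDerivWithin_le (𝕜 := ℝ) (f := fun r => G.T r x)
    (f' := fun r => G.T r y) (s := univ) (x := 0) (y := r) (C := ‖y‖)
    (fun r _ => (h r).hasDerivWithinAt) (fun r _ => by rw [G.norm_T]) convex_univ
    (mem_univ _) (mem_univ _)
  simpa [G.T_zero] using this

/-- The difference-quotient criterion. -/
theorem exists_gen [CompleteSpace X] {x : X} {C : ℝ}
    (hC : ∀ h : ℝ, 0 < h → ‖G.T h x - x‖ ≤ C * h) : ∃ y, G.Gen x y := by
  classical
  -- weak cluster point of the difference quotients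
  let U : Ultrafilter ℝ := Ultrafilter.of (𝓝[>] (0 : ℝ))
  have hU : (U : Filter ℝ) ≤ 𝓝[>] (0 : ℝ) := Ultrafilter.of_le _
  let φ : ℝ → WeakDual ℝ X := fun h =>
    StrongDual.toWeakDual (InnerProductSpace.toDual ℝ X (h⁻¹ • (G.T h x - x)))
  have hφ : ∀ h z, φ h z = ⟪h⁻¹ • (G.T h x - x), z⟫ := fun h z => rfl
  have hball : ∀ᶠ h in (U : Filter ℝ), φ h ∈
      (WeakDual.toStrongDual ⁻¹' Metric.closedBall (0 : StrongDual ℝ X) C) := by
    have : ∀ᶠ h in 𝓝[>] (0 : ℝ), φ h ∈
      (WeakDual.toStrongDual ⁻¹' Metric.closedBall (0 : StrongDual ℝ X) C) := by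
      filter_upwards [self_mem_nhdsWithin] with h hh
      have hh' : (0 : ℝ) < h := hh
      simp only [mem_preimage, Metric.mem_closedBall, dist_zero_right]
      change ‖InnerProductSpace.toDual ℝ X (h⁻¹ • (G.T h x - x))‖ ≤ C
      rw [LinearIsometryEquiv.norm_map, norm_smul, norm_inv, Real.norm_of_nonneg hh'.le]
      calc h⁻¹ * ‖G.T h x - x‖ ≤ h⁻¹ * (C * h) := by gcongr; exact hC h hh'
        _ = C := by field_simp
    exact hU this
  obtain ⟨ψ, -, hψ⟩ := (WeakDual.isCompact_closedBall (0 : StrongDual ℝ X) C).ultrafilter_le_nhds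
    (U.map φ) (by rw [le_principal_iff]; exact hball)
  let y : X := (InnerProductSpace.toDual ℝ X).symm (WeakDual.toStrongDual ψ)
  have hy : ∀ z, ψ z = ⟪y, z⟫ := by
    intro z
    simp only [y, InnerProductSpace.toDual_symm_apply]
    rfl
  have hlim : ∀ z, Tendsto (fun h => ⟪h⁻¹ • (G.T h x - x), z⟫) U (𝓝 ⟪y, z⟫) := by
    intro z
    rw [← hy z]
    exact ((WeakDual.eval_continuous z).tendsto ψ).comp hψ
  refine ⟨y, ?_⟩
  -- one-sided inequality
  have key : ∀ z : X, ∀ a b : ℝ, a ≤ b →
      ⟪G.T b x, z⟫ - ⟪G.T a x, z⟫ ≤ ∫ s in a..b, ⟪G.T s y, z⟫ := by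
    intro z a b hab
    have hcg : Continuous fun s => ⟪G.T s y, z⟫ := (G.cont y).inner continuous_const
    have hmain := image_le_of_liminf_slope_right_le_deriv_boundary
      (f := fun r => ⟪G.T r x, z⟫) (a := a) (b := b)
      (B := fun r => ⟪G.T a x, z⟫ + ∫ s in a..r, ⟪G.T s y, z⟫) (B' := fun r => ⟪G.T r y, z⟫)
      (((G.cont x).inner continuous_const).continuousOn) (by simp)
      (by
        apply Continuous.continuousOn
        refine continuous_const.add ?_
        exact intervalIntegral.continuous_primitive (fun _ _ => hcg.intervalIntegrable _ _) a)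
      (by
        intro r _
        have := (intervalIntegral.integral_hasDerivAt_right (hcg.intervalIntegrable a r)
          (hcg.stronglyMeasurableAtFilter _ _) hcg.continuousAt)
        exact (this.const_add _).hasDerivWithinAt)
      (by
        intro r _ ρ hρ
        -- slopes converge along the ultrafilter
        have h1 : Tendsto (fun h => ⟪h⁻¹ • (G.T h x - x), G.T (-r) z⟫) U (𝓝 ⟪y, G.T (-r) z⟫) :=
          hlim _
        have h2 : ⟪y, G.T (-r) z⟫ = ⟪G.T r y, z⟫ := (G.inner_T_left r y z).symm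
        rw [h2] at h1
        have h3 : ∀ᶠ h in (U : Filter ℝ), ⟪h⁻¹ • (G.T h x - x), G.T (-r) z⟫ < ρ :=
          h1.eventually_lt_const hρ
        have h4 : ∀ᶠ h in (U : Filter ℝ), slope (fun r => ⟪G.T r x, z⟫) r (r + h) < ρ := by
          filter_upwards [h3] with h hh
          convert hh using 1
          rw [slope_def_field]
          simp only [add_sub_cancel_left]
          rw [← G.inner_T_left, map_smul, map_sub, ← G.T_add, real_inner_smul_left,
            inner_sub_left]
          field_simp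
        have h5 : ∃ᶠ h in 𝓝[>] (0 : ℝ), slope (fun r => ⟪G.T r x, z⟫) r (r + h) < ρ :=
          h4.frequently.filter_mono hU
        have h6 : Tendsto (fun h => r + h) (𝓝[>] (0 : ℝ)) (𝓝[>] r) := by
          refine tendsto_nhdsWithin_iff.2 ⟨?_, ?_⟩
          · have : Tendsto (fun h : ℝ => r + h) (𝓝 0) (𝓝 (r + 0)) :=
              (continuous_const.add continuous_id).tendsto 0
            rw [add_zero] at this
            exact this.mono_left nhdsWithin_le_nhds
          · filter_upwards [self_mem_nhdsWithin] with h hh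
            have : (0 : ℝ) < h := hh
            simp only [mem_Ioi]
            linarith
        exact h6.frequently h5)
      (right_mem_Icc.2 hab)
    linarith
  have key2 : ∀ z : X, ∀ a b : ℝ, a ≤ b →
      ⟪G.T b x, z⟫ - ⟪G.T a x, z⟫ = ∫ s in a..b, ⟪G.T s y, z⟫ := by
    intro z a b hab
    refine le_antisymm (key z a b hab) ?_
    have := key (-z) a b hab
    simp only [inner_neg_right, intervalIntegral.integral_neg] at this
    linarith
  have key3 : ∀ r : ℝ, G.T r x = x + ∫ s in (0 : ℝ)..r, G.T s y := by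
    intro r
    have hi : ∀ a b, IntervalIntegrable (fun s => G.T s y) volume a b :=
      fun a b => (G.cont y).intervalIntegrable a b
    refine ext_inner_right ℝ fun z => ?_
    rw [inner_add_left]
    have h1 : ⟪∫ s in (0 : ℝ)..r, G.T s y, z⟫ = ∫ s in (0 : ℝ)..r, ⟪G.T s y, z⟫ := by
      have := ((innerSL ℝ z).intervalIntegral_comp_comm (hi 0 r))
      simp only [innerSL_apply_apply] at this
      rw [real_inner_comm, ← this]
      congr 1
      funext s
      rw [real_inner_comm]
    rw [h1]
    rcases le_total 0 r with hr | hr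
    · rw [← key2 z 0 r hr, G.T_zero]
      ring
    · rw [intervalIntegral.integral_symm, ← key2 z r 0 hr, G.T_zero]
      ring
  intro r
  have h1 : HasDerivAt (fun r => x + ∫ s in (0 : ℝ)..r, G.T s y) (G.T r y) r :=
    ((intervalIntegral.integral_hasDerivAt_right ((G.cont y).intervalIntegrable 0 r)
          ((G.cont y).stronglyMeasurableAtFilter _ _) (G.cont y).continuousAt)).const_add _
  have h2 : (fun r => G.T r x) = fun r => x + ∫ s in (0 : ℝ)..r, G.T s y := funext key3
  rw [h2]
  exact h1

end OneGrp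

end Crest.Agent.R213.B
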