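import Crest.Agent.R213.B.TAbs

/-!
Row 213, part B1 (helper418).  The translation group on `L²(ℝ; X)`, orbits of smooth compactly
supported functions, multiplication operators.
-/

set_option autoImplicit false

open Set MeasureTheory Filter Topology
open scoped RealInnerProductSpace ContDiff ENNReal

noncomputable section

namespace Crest.Agent.R213.B

/-- `L²(ℝ; X)`. -/
abbrev L2 (X : Type*) [NormedAddCommGroup X] := Lp X 2 (volume : Measure ℝ)

section group

variable (X : Type*) [NormedAddCommGroup X] [InnerProductSpace ℝ X]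

/-- translation by `r`: `(tr r f) τ = f (τ + r)`. -/
def tr (r : ℝ) : L2 X →ₗᵢ[ℝ] L2 X :=
  Lp.compMeasurePreservingₗᵢ ℝ (fun τ : ℝ => τ + r) (measurePreserving_add_right volume r)

variable {X}

theorem coe_tr (r : ℝ) (f : L2 X) : tr X r f =ᵐ[volume] fun τ => f (τ + r) :=
  Lp.coeFn_compMeasurePreserving f (measurePreserving_add_right volume r)

theorem tr_toLp (r : ℝ) {f : ℝ → X} (hf : MemLp f 2 volume) :
    tr X r (hf.toLp f) =
      (hf.comp_measurePreserving (measurePreserving_add_right volume r)).toLp _ := rfl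

theorem ae_comp_add {p : ℝ → Prop} (r : ℝ) (h : ∀ᵐ τ, p τ) : ∀ᵐ τ : ℝ, p (τ + r) :=
  (measurePreserving_add_right volume r).quasiMeasurePreserving.ae h

variable (X)

/-- The translation group. -/
def trG : OneGrp (L2 X) where
  T := tr X
  T_zero x := by
    apply Lp.ext
    filter_upwards [coe_tr 0 x] with τ h
    rw [h, add_zero]
  T_add r s x := by
    apply Lp.ext
    filter_upwards [coe_tr (r + s) x, coe_tr r (tr X s x), ae_comp_add r (coe_tr s x)] with τ h1 h2 h3
    rw [h1, h2, h3, add_assoc]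
  cont x := by
    let g : ℝ → C(ℝ, ℝ) := fun r => ⟨fun τ => τ + r, by fun_prop⟩
    have hg : Continuous g := by
      have : g = (ContinuousMap.mk (fun p : ℝ × ℝ => p.2 + p.1) (by fun_prop)).curry := by
        funext r
        ext τ
        rfl
      rw [this]
      exact ContinuousMap.continuous _
    exact (continuous_const (y := x)).compMeasurePreservingLp hg
      (fun r => measurePreserving_add_right volume r) (by simp)

variable {X}

theorem trG_T (r : ℝ) : (trG X).T r = tr X r := rfl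

end group

section maps

variable {X Y : Type*} [NormedAddCommGroup X] [InnerProductSpace ℝ X]
  [NormedAddCommGroup Y] [InnerProductSpace ℝ Y]

/-- The map induced on `L²` by a continuous linear map. -/
def lift2 (L : X →L[ℝ] Y) : L2 X →L[ℝ] L2 Y := L.compLpL 2 volume

theorem coe_lift2 (L : X →L[ℝ] Y) (f : L2 X) : lift2 L f =ᵐ[volume] fun τ => L (f τ) :=
  L.coeFn_compLpL f

theorem lift2_tr (L : X →L[ℝ] Y) (r : ℝ) (f : L2 X) : lift2 L (tr X r f) = tr Y r (lift2 L f) := by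
  apply Lp.ext
  filter_upwards [coe_lift2 L (tr X r f), coe_tr r f, coe_tr r (lift2 L f),
    ae_comp_add r (coe_lift2 L f)] with τ h1 h2 h3 h4
  rw [h1, h2, h3, h4]

end maps

section smooth

variable {Y : Type*} [NormedAddCommGroup Y] [NormedSpace ℝ Y]

/-- Taylor estimate for compactly supported smooth functions. -/
theorem taylor2_cc {g : ℝ → Y} (hg : ContDiff ℝ ∞ g) (hc : HasCompactSupport g) :
    ∃ M, 0 ≤ M ∧ ∀ τ h, ‖g (τ + h) - g τ - h • deriv g τ‖ ≤ M * h ^ 2 := by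
  have hg1 : ContDiff ℝ ∞ (deriv g) := (contDiff_infty_iff_deriv.1 hg).2
  have hg2 : ContDiff ℝ ∞ (deriv (deriv g)) := (contDiff_infty_iff_deriv.1 hg1).2
  obtain ⟨M, hM⟩ := (hc.deriv.deriv).exists_bound_of_continuous hg2.continuous
  refine ⟨M, (norm_nonneg _).trans (hM 0), fun τ h => ?_⟩
  have hd : ∀ s, HasDerivAt (fun s => g (τ + s) - s • deriv g τ) (deriv g (τ + s) - deriv g τ) s := by
    intro s
    have h1 : HasDerivAt g (deriv g (τ + s)) (τ + s) :=
      (hg.differentiable (by simp) _).hasDerivAt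
    have h2 := HasDerivAt.comp_const_add (f := g) τ s h1
    have h3 : HasDerivAt (fun s : ℝ => s • deriv g τ) ((1 : ℝ) • deriv g τ) s :=
      (hasDerivAt_id s).smul_const _
    rw [one_smul] at h3
    exact h2.sub h3
  have hd1 : ∀ s, ‖deriv g (τ + s) - deriv g τ‖ ≤ M * |s| := by
    intro s
    have := Convex.norm_image_sub_le_of_norm_hasDerivWithin_le (𝕜 := ℝ) (f := deriv g)
      (f' := deriv (deriv g)) (s := univ) (x := τ) (y := τ + s) (C := M)
      (fun r _ => (hg1.differentiable (by simp) _).hasDerivAt.hasDerivWithinAt)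
      (fun r _ => hM r) convex_univ (mem_univ _) (mem_univ _)
    simpa using this
  have := Convex.norm_image_sub_le_of_norm_hasDerivWithin_le (𝕜 := ℝ)
      (f := fun s => g (τ + s) - s • deriv g τ)
      (f' := fun s => deriv g (τ + s) - deriv g τ) (s := Icc (-|h|) |h|) (x := 0) (y := h)
      (C := M * |h|)
      (fun r _ => (hd r).hasDerivWithinAt)
      (fun r hr => (hd1 r).trans (by
        have : |r| ≤ |h| := abs_le.2 hr
        have hM0 : 0 ≤ M := (norm_nonneg _).trans (hM 0)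
        gcongr)) (convex_Icc _ _) (by simp) (by
          exact ⟨neg_abs_le h, le_abs_self h⟩)
  simp only [add_zero, zero_smul, sub_zero, Real.norm_eq_abs] at this
  calc ‖g (τ + h) - g τ - h • deriv g τ‖ = ‖g (τ + h) - h • deriv g τ - g τ‖ := by
        congr 1; abel
    _ ≤ M * |h| * |h| := this
    _ = M * h ^ 2 := by rw [← sq_abs]; ring

/-- Uniform Lipschitz estimate for compactly supported smooth functions. -/
theorem lip1 {g : ℝ → Y} (hg : ContDiff ℝ ∞ g) (hc : HasCompactSupport g) :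
    ∃ M, 0 ≤ M ∧ ∀ τ h, ‖g (τ + h) - g τ‖ ≤ M * |h| := by
  have hg1 : ContDiff ℝ ∞ (deriv g) := (contDiff_infty_iff_deriv.1 hg).2
  obtain ⟨M, hM⟩ := (hc.deriv).exists_bound_of_continuous hg1.continuous
  refine ⟨M, (norm_nonneg _).trans (hM 0), fun τ h => ?_⟩
  have := Convex.norm_image_sub_le_of_norm_hasDerivWithin_le (𝕜 := ℝ) (f := g)
      (f' := deriv g) (s := univ) (x := τ) (y := τ + h) (C := M)
      (fun r _ => (hg.differentiable (by simp) _).hasDerivAt.hasDerivWithinAt)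
      (fun r _ => hM r) convex_univ (mem_univ _) (mem_univ _)
  simpa using this

theorem deriv_smooth {g : ℝ → Y} (hg : ContDiff ℝ ∞ g) : ContDiff ℝ ∞ (deriv g) :=
  (contDiff_infty_iff_deriv.1 hg).2

end smooth

section orbit

variable {X : Type*} [NormedAddCommGroup X] [InnerProductSpace ℝ X]

/-- The class in `L²` of a compactly supported smooth function. -/
theorem memLp_cc {g : ℝ → X} (hg : ContDiff ℝ ∞ g) (hc : HasCompactSupport g) :
    MemLp g 2 volume := hg.continuous.memLp_of_hasCompactSupport hc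

open Classical in
/-- `toLp`, totalized. -/
def cl (g : ℝ → X) : L2 X := if h : MemLp g 2 volume then h.toLp g else 0

theorem coe_cl {g : ℝ → X} (h : MemLp g 2 volume) : cl g =ᵐ[volume] g := by
  rw [cl, dif_pos h]
  exact h.coeFn_toLp

theorem cl_congr {g g' : ℝ → X} (h : g =ᵐ[volume] g') : cl g = cl g' := by
  by_cases hg : MemLp g 2 volume
  · have hg' : MemLp g' 2 volume := (memLp_congr_ae h).1 hg
    apply Lp.ext
    filter_upwards [coe_cl hg, coe_cl hg', h] with τ h1 h2 h3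
    rw [h1, h2, h3]
  · have hg' : ¬ MemLp g' 2 volume := fun h' => hg ((memLp_congr_ae h).2 h')
    rw [cl, cl, dif_neg hg, dif_neg hg']

theorem memLp_shift {g : ℝ → X} (h : MemLp g 2 volume) (r : ℝ) :
    MemLp (fun τ => g (τ + r)) 2 volume :=
  h.comp_measurePreserving (measurePreserving_add_right volume r)

theorem tr_cl {g : ℝ → X} (h : MemLp g 2 volume) (r : ℝ) :
    tr X r (cl g) = cl fun τ => g (τ + r) := by
  apply Lp.ext
  filter_upwards [coe_tr r (cl g), ae_comp_add r (coe_cl h), coe_cl (memLp_shift h r)] with τ h1 h2 h3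
  rw [h1, h2, h3]

theorem cl_sub {g g' : ℝ → X} (h : MemLp g 2 volume) (h' : MemLp g' 2 volume) :
    cl (fun τ => g τ - g' τ) = cl g - cl g' := by
  apply Lp.ext
  filter_upwards [coe_cl (h.sub h'), coe_cl h, coe_cl h', Lp.coeFn_sub (cl g) (cl g')]
    with τ h1 h2 h3 h4
  rw [h4]
  change (cl (g - g')) τ = _
  rw [h1, Pi.sub_apply, Pi.sub_apply, h2, h3]

theorem cl_smul {g : ℝ → X} (h : MemLp g 2 volume) (a : ℝ) :
    cl (fun τ => a • g τ) = a • cl g := by
  apply Lp.ext
  filter_upwards [coe_cl (h.const_smul a), coe_cl h, Lp.coeFn_smul a (cl g)] with τ h1 h2 h4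
  rw [h4]
  change (cl (a • g)) τ = _
  rw [h1, Pi.smul_apply, Pi.smul_apply, h2]

/-- Norm bound for bounded functions supported in a compact interval. -/
theorem norm_cl_le {g : ℝ → X} (h : MemLp g 2 volume) {a b C : ℝ} (hC : 0 ≤ C)
    (hs : ∀ τ, τ ∉ Icc a b → g τ = 0) (hb : ∀ τ, ‖g τ‖ ≤ C) :
    ‖cl g‖ ≤ (volume (Icc a b) ^ ((2 : ℝ≥0∞).toReal⁻¹)).toReal * C := by
  rw [cl, dif_pos h, Lp.norm_toLp]
  have h1 : eLpNorm g 2 volume = eLpNorm g 2 (volume.restrict (Icc a b)) := by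
    rw [eLpNorm_restrict_eq_of_support_subset]
    intro τ hτ
    by_contra hn
    exact hτ (hs τ hn)
  have h2 : eLpNorm g 2 (volume.restrict (Icc a b)) ≤
      (volume.restrict (Icc a b)) univ ^ ((2 : ℝ≥0∞).toReal⁻¹) * ENNReal.ofReal C :=
    eLpNorm_le_of_ae_bound (Eventually.of_forall hb)
  rw [Measure.restrict_apply_univ] at h2
  rw [h1]
  have hfin : volume (Icc a b) ^ ((2 : ℝ≥0∞).toReal⁻¹) ≠ ⊤ := by
    apply ENNReal.rpow_ne_top_of_nonneg (by positivity)
    rw [Real.volume_Icc]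
    exact ENNReal.ofReal_ne_top
  have h3 := ENNReal.toReal_mono (ENNReal.mul_ne_top hfin ENNReal.ofReal_ne_top) h2
  rwa [ENNReal.toReal_mul, ENNReal.toReal_ofReal hC] at h3

/-- Orbits of smooth compactly supported functions. -/
theorem gen_cl {g : ℝ → X} (hg : ContDiff ℝ ∞ g) (hc : HasCompactSupport g) :
    (trG X).Gen (cl g) (cl (deriv g)) := by
  apply OneGrp.gen_of_zero
  have hg' := deriv_smooth hg
  have hc' : HasCompactSupport (deriv g) := hc.deriv
  obtain ⟨M, hM0, hM⟩ := taylor2_cc hg hc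
  -- a compact interval containing the support
  obtain ⟨A, hA⟩ := (hc.isCompact.isBounded).subset_closedBall (0 : ℝ)
  have hz : ∀ τ, A < |τ| → g τ = 0 := by
    intro τ hτ
    apply image_eq_zero_of_notMem_tsupport
    intro h
    have := hA h
    rw [Metric.mem_closedBall, dist_zero_right, Real.norm_eq_abs] at this
    linarith
  have hz' : ∀ τ, A < |τ| → deriv g τ = 0 := by
    intro τ hτ
    apply image_eq_zero_of_notMem_tsupport
    intro h
    have := hA (tsupport_deriv_subset (𝕜 := ℝ) h)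
    rw [Metric.mem_closedBall, dist_zero_right, Real.norm_eq_abs] at this
    linarith
  set Q : ℝ := (volume (Icc (-(A + 1)) (A + 1)) ^ ((2 : ℝ≥0∞).toReal⁻¹)).toReal with hQ
  rw [hasDerivAt_iff_isLittleO_nhds_zero]
  simp only [zero_add, OneGrp.T_zero]
  have key : ∀ h : ℝ, |h| ≤ 1 → ‖(trG X).T h (cl g) - cl g - h • cl (deriv g)‖ ≤ Q * M * h ^ 2 := by
    intro h hh
    have s1 : MemLp (fun τ => g (τ + h) - g τ) 2 volume :=
      (memLp_shift (memLp_cc hg hc) h).sub (memLp_cc hg hc)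
    have s2 : MemLp (fun τ => h • deriv g τ) 2 volume := (memLp_cc hg' hc').const_smul h
    have e : (trG X).T h (cl g) - cl g - h • cl (deriv g) =
        cl (fun τ => (g (τ + h) - g τ) - h • deriv g τ) := by
      rw [cl_sub s1 s2, cl_sub (memLp_shift (memLp_cc hg hc) h) (memLp_cc hg hc),
        cl_smul (memLp_cc hg' hc'), trG_T, tr_cl (memLp_cc hg hc)]
    rw [e]
    have := norm_cl_le (g := fun τ => (g (τ + h) - g τ) - h • deriv g τ)
      (s1.sub s2) (a := -(A + 1)) (b := A + 1) (C := M * h ^ 2)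
      (by positivity) (by
        intro τ hτ
        have h1 : A + 1 < |τ| := by
          by_contra hn
          exact hτ (abs_le.1 (not_lt.1 hn))
        have h2 : A < |τ + h| := by
          have := abs_sub_abs_le_abs_sub τ (-h)
          rw [abs_neg, sub_neg_eq_add] at this
          linarith
        rw [hz _ h2, hz τ (by linarith), hz' τ (by linarith)]
        simp) (fun τ => hM τ h)
    rw [← hQ] at this
    linarith [this]
  rw [Asymptotics.isLittleO_iff]
  intro ε hε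
  have h1 : ∀ᶠ h in 𝓝 (0 : ℝ), |h| ≤ 1 ∧ Q * M * |h| ≤ ε := by
    apply Filter.Eventually.and
    · have : Tendsto (fun h : ℝ => |h|) (𝓝 0) (𝓝 |0|) := continuous_abs.tendsto 0
      rw [abs_zero] at this
      exact (this.eventually_lt_const one_pos).mono fun _ h => h.le
    · have : Tendsto (fun h : ℝ => Q * M * |h|) (𝓝 0) (𝓝 (Q * M * |0|)) :=
        (continuous_const.mul continuous_abs).tendsto 0
      rw [abs_zero, mul_zero] at this
      exact (this.eventually_lt_const hε).mono fun _ h => h.le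
  filter_upwards [h1] with h ⟨h2, h3⟩
  refine (key h h2).trans ?_
  calc Q * M * h ^ 2 = (Q * M * |h|) * |h| := by rw [← sq_abs]; ring
    _ ≤ ε * |h| := by gcongr
    _ = ε * ‖h‖ := by rw [Real.norm_eq_abs]

theorem sm_cl (k : ℕ) : ∀ {g : ℝ → X}, ContDiff ℝ ∞ g → HasCompactSupport g →
    (trG X).Sm k (cl g) := by
  induction k with
  | zero => intros; trivial
  | succ k ih =>
    intro g hg hc
    exact ⟨cl (deriv g), gen_cl hg hc, ih (deriv_smooth hg) hc.deriv⟩

end orbit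

section mult

variable {K : Type*} [NormedAddCommGroup K] [InnerProductSpace ℝ K]

/-- Multiplication by an essentially bounded operator-valued function. -/
def mulI (γ : Lp (K →L[ℝ] K) ⊤ (volume : Measure ℝ)) : L2 K →L[ℝ] L2 K :=
  (ContinuousLinearMap.id ℝ (K →L[ℝ] K)).holderL volume ⊤ 2 2 γ

theorem coe_mulI (γ : Lp (K →L[ℝ] K) ⊤ (volume : Measure ℝ)) (z : L2 K) :
    mulI γ z =ᵐ[volume] fun τ => γ τ (z τ) :=
  (ContinuousLinearMap.id ℝ (K →L[ℝ] K)).coeFn_holder γ z

theorem norm_mulI_le (γ : Lp (K →L[ℝ] K) ⊤ (volume : Measure ℝ)) : ‖mulI γ‖ ≤ ‖γ‖ := by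
  refine ContinuousLinearMap.opNorm_le_bound _ (norm_nonneg _) fun z => ?_
  have h1 := ContinuousLinearMap.norm_holder_apply_apply_le (r := 2)
    (ContinuousLinearMap.id ℝ (K →L[ℝ] K)) γ z
  calc ‖mulI γ z‖ ≤ ‖ContinuousLinearMap.id ℝ (K →L[ℝ] K)‖ * ‖γ‖ * ‖z‖ := h1
    _ ≤ 1 * ‖γ‖ * ‖z‖ := by
        gcongr
        exact ContinuousLinearMap.norm_id_le
    _ = ‖γ‖ * ‖z‖ := by rw [one_mul]

open Classical in
/-- `toLp` in `L^∞`, totalized. -/
def clI (g : ℝ → K →L[ℝ] K) : Lp (K →L[ℝ] K) ⊤ (volume : Measure ℝ) :=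
  if h : MemLp g ⊤ volume then h.toLp g else 0

theorem coe_clI {g : ℝ → K →L[ℝ] K} (h : MemLp g ⊤ volume) : clI g =ᵐ[volume] g := by
  rw [clI, dif_pos h]
  exact h.coeFn_toLp

/-- Multiplication by a function. -/
def mulg (g : ℝ → K →L[ℝ] K) : L2 K →L[ℝ] L2 K := mulI (clI g)

theorem coe_mulg {g : ℝ → K →L[ℝ] K} (h : MemLp g ⊤ volume) (z : L2 K) :
    mulg g z =ᵐ[volume] fun τ => g τ (z τ) := by
  filter_upwards [coe_mulI (clI g) z, coe_clI h] with τ h1 h2
  rw [mulg, h1, h2]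

theorem memI {g : ℝ → K →L[ℝ] K} (hg : ContDiff ℝ ∞ g) (hc : HasCompactSupport g) :
    MemLp g ⊤ volume := hg.continuous.memLp_of_hasCompactSupport hc

theorem memI_shift {g : ℝ → K →L[ℝ] K} (h : MemLp g ⊤ volume) (r : ℝ) :
    MemLp (fun τ => g (τ + r)) ⊤ volume :=
  h.comp_measurePreserving (measurePreserving_add_right volume r)

theorem mulg_sub {g g' : ℝ → K →L[ℝ] K} (h : MemLp g ⊤ volume) (h' : MemLp g' ⊤ volume) :
    mulg (fun τ => g τ - g' τ) = mulg g - mulg g' := by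
  ext1 z
  apply Lp.ext
  have h3 : MemLp (fun τ => g τ - g' τ) ⊤ volume := h.sub h'
  rw [_root_.sub_apply]
  filter_upwards [coe_mulg h3 z, coe_mulg h z, coe_mulg h' z,
    Lp.coeFn_sub (mulg g z) (mulg g' z)] with τ h1 h2 h3 h4
  rw [h4, h1, Pi.sub_apply, h2, h3, _root_.sub_apply]

theorem mulg_smul {g : ℝ → K →L[ℝ] K} (h : MemLp g ⊤ volume) (a : ℝ) :
    mulg (fun τ => a • g τ) = a • mulg g := by
  ext1 z
  apply Lp.ext
  have h3 : MemLp (fun τ => a • g τ) ⊤ volume := h.const_smul a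
  rw [_root_.smul_apply]
  filter_upwards [coe_mulg h3 z, coe_mulg h z, Lp.coeFn_smul a (mulg g z)] with τ h1 h2 h4
  rw [h4, h1, Pi.smul_apply, h2, _root_.smul_apply]

theorem norm_mulg_le {g : ℝ → K →L[ℝ] K} (h : MemLp g ⊤ volume) {C : ℝ} (hC : 0 ≤ C)
    (hb : ∀ τ, ‖g τ‖ ≤ C) : ‖mulg g‖ ≤ C := by
  refine (norm_mulI_le _).trans ?_
  rw [clI, dif_pos h, Lp.norm_toLp]
  have h1 : eLpNorm g ⊤ volume ≤ ENNReal.ofReal C := by
    rw [eLpNorm_exponent_top]
    exact eLpNormEssSup_le_of_ae_bound (Eventually.of_forall hb)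
  have h2 := ENNReal.toReal_mono ENNReal.ofReal_ne_top h1
  rwa [ENNReal.toReal_ofReal hC] at h2

theorem tr_mulg {g : ℝ → K →L[ℝ] K} (h : MemLp g ⊤ volume) (r : ℝ) (z : L2 K) :
    tr K r (mulg g z) = mulg (fun τ => g (τ + r)) (tr K r z) := by
  apply Lp.ext
  filter_upwards [coe_tr r (mulg g z), ae_comp_add r (coe_mulg h z),
    coe_mulg (memI_shift h r) (tr K r z), coe_tr r z] with τ h1 h2 h3 h4
  rw [h1, h2, h3, h4]

/-- Operator-norm differentiability of the translated multiplier. -/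
theorem hasDerivAt_mulg {g : ℝ → K →L[ℝ] K} (hg : ContDiff ℝ ∞ g) (hc : HasCompactSupport g) :
    HasDerivAt (fun r => mulg fun τ => g (τ + r)) (mulg (deriv g)) 0 := by
  have hg' := deriv_smooth hg
  have hc' : HasCompactSupport (deriv g) := hc.deriv
  obtain ⟨M, hM0, hM⟩ := taylor2_cc hg hc
  refine (hasDerivAt_iff_isLittleO_nhds_zero (𝕜 := ℝ) (F := L2 K →L[ℝ] L2 K)
    (f := fun r => mulg fun τ => g (τ + r)) (f' := mulg (deriv g)) (x := 0)).2 ?_
  simp only [zero_add, add_zero]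
  have key : ∀ h : ℝ, ‖(mulg fun τ => g (τ + h)) - mulg g - h • mulg (deriv g)‖ ≤ M * h ^ 2 := by
    intro h
    have s0 := memI_shift (memI hg hc) h
    have s1 : MemLp (fun τ => g (τ + h) - g τ) ⊤ volume := s0.sub (memI hg hc)
    have s2 : MemLp (fun τ => h • deriv g τ) ⊤ volume := (memI hg' hc').const_smul h
    rw [← mulg_sub s0 (memI hg hc), ← mulg_smul (memI hg' hc'), ← mulg_sub s1 s2]
    exact norm_mulg_le (s1.sub s2) (by positivity) (fun τ => hM τ h)
  rw [Asymptotics.isLittleO_iff]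
  intro ε hε
  have h1 : ∀ᶠ h in 𝓝 (0 : ℝ), M * |h| ≤ ε := by
    have : Tendsto (fun h : ℝ => M * |h|) (𝓝 0) (𝓝 (M * |0|)) :=
      (continuous_const.mul continuous_abs).tendsto 0
    rw [abs_zero, mul_zero] at this
    exact (this.eventually_lt_const hε).mono fun _ h => h.le
  filter_upwards [h1] with h h3
  refine (key h).trans ?_
  calc M * h ^ 2 = (M * |h|) * |h| := by rw [← sq_abs]; ring
    _ ≤ ε * |h| := by gcongr
    _ = ε * ‖h‖ := by rw [Real.norm_eq_abs]

theorem gen_mulg {g : ℝ → K →L[ℝ] K} (hg : ContDiff ℝ ∞ g) (hc : HasCompactSupport g)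
    {z z' : L2 K} (hz : (trG K).Gen z z') :
    (trG K).Gen (mulg g z) (mulg (deriv g) z + mulg g z') := by
  apply OneGrp.gen_of_zero
  have h1 : (fun r => (trG K).T r (mulg g z)) =
      fun r => (mulg fun τ => g (τ + r)) ((trG K).T r z) := by
    funext r
    exact tr_mulg (memI hg hc) r z
  rw [h1]
  have h2 := (hasDerivAt_mulg hg hc).clm_apply hz.zero
  simpa [OneGrp.T_zero] using h2

theorem lip_mulg {g : ℝ → K →L[ℝ] K} (hg : ContDiff ℝ ∞ g) (hc : HasCompactSupport g) :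
    ∃ M, ∀ r z, ‖mulg g (tr K r z) - tr K r (mulg g z)‖ ≤ M * |r| * ‖z‖ := by
  obtain ⟨M, hM0, hM⟩ := lip1 hg hc
  refine ⟨M, fun r z => ?_⟩
  have s0 := memI_shift (memI hg hc) r
  rw [tr_mulg (memI hg hc), norm_sub_rev, ← _root_.sub_apply,
    ← mulg_sub s0 (memI hg hc)]
  refine (ContinuousLinearMap.le_opNorm _ _).trans ?_
  rw [(tr K r).norm_map]
  gcongr
  exact norm_mulg_le (s0.sub (memI hg hc)) (by positivity) (fun τ => hM τ r)

/-- The multiplier sequence of `c + g`. -/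
def Nseq (c : ℝ) (g : ℝ → K →L[ℝ] K) : ℕ → (L2 K →L[ℝ] L2 K)
  | 0 => c • ContinuousLinearMap.id ℝ (L2 K) + mulg g
  | (j + 1) => mulg (deriv^[j + 1] g)

theorem iter_smooth {g : ℝ → K →L[ℝ] K} (hg : ContDiff ℝ ∞ g) (hc : HasCompactSupport g) (j : ℕ) :
    ContDiff ℝ ∞ (deriv^[j] g) ∧ HasCompactSupport (deriv^[j] g) := by
  induction j with
  | zero => exact ⟨hg, hc⟩
  | succ j ih =>
    rw [Function.iterate_succ_apply']
    exact ⟨deriv_smooth ih.1, ih.2.deriv⟩

theorem mulSeq_Nseq (c : ℝ) {g : ℝ → K →L[ℝ] K} (hg : ContDiff ℝ ∞ g) (hc : HasCompactSupport g) :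
    MulSeq (trG K) (Nseq c g) := by
  intro j z z' hz
  rcases j with _ | j
  · have h1 := gen_mulg hg hc hz
    have h2 : (trG K).Gen (c • z) (c • z') := by
      intro r
      have := (hz r).const_smul c
      simp only [map_smul]
      exact this
    have h3 := h2.add h1
    have e1 : Nseq c g 0 z = c • z + mulg g z := rfl
    have e2 : Nseq c g 1 z + Nseq c g 0 z' = c • z' + (mulg (deriv g) z + mulg g z') := by
      change mulg (deriv g) z + (c • z' + mulg g z') = _
      abel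
    rw [e1, e2]
    exact h3
  · have h0 := iter_smooth hg hc (j + 1)
    have h1 := gen_mulg h0.1 h0.2 hz
    have e : Nseq c g (j + 1 + 1) = mulg (deriv (deriv^[j + 1] g)) := by
      change mulg (deriv^[j + 1 + 1] g) = _
      rw [Function.iterate_succ_apply' deriv (j + 1)]
    rw [e]
    exact h1

theorem coe_N0 (c : ℝ) {g : ℝ → K →L[ℝ] K} (h : MemLp g ⊤ volume) (z : L2 K) :
    Nseq c g 0 z =ᵐ[volume] fun τ => c • z τ + g τ (z τ) := by
  change ((c • z + mulg g z : L2 K) : ℝ → K) =ᵐ[volume] _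
  filter_upwards [Lp.coeFn_add (c • z) (mulg g z), Lp.coeFn_smul c z, coe_mulg h z]
    with τ h1 h2 h3
  rw [h1, Pi.add_apply, h2, h3, Pi.smul_apply]

theorem N0_lip (c : ℝ) {g : ℝ → K →L[ℝ] K} (hg : ContDiff ℝ ∞ g) (hc : HasCompactSupport g) :
    ∃ M, ∀ r z, ‖Nseq c g 0 ((trG K).T r z) - (trG K).T r (Nseq c g 0 z)‖ ≤ M * |r| * ‖z‖ := by
  obtain ⟨M, hM⟩ := lip_mulg hg hc
  refine ⟨M, fun r z => ?_⟩
  refine le_trans (le_of_eq ?_) (hM r z)
  congr 1
  change (c • tr K r z + mulg g (tr K r z)) - tr K r (c • z + mulg g z) = _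
  rw [map_add, map_smul]
  abel

theorem N0_symm (c : ℝ) {g : ℝ → K →L[ℝ] K} (h : MemLp g ⊤ volume)
    (hs : ∀ τ x y, ⟪c • x + g τ x, y⟫ = ⟪x, c • y + g τ y⟫) (x y : L2 K) :
    ⟪Nseq c g 0 x, y⟫ = ⟪x, Nseq c g 0 y⟫ := by
  rw [L2.inner_def, L2.inner_def]
  apply integral_congr_ae
  filter_upwards [coe_N0 c h x, coe_N0 c h y] with τ h1 h2
  rw [h1, h2, hs]

theorem N0_coer (c : ℝ) {g : ℝ → K →L[ℝ] K} (h : MemLp g ⊤ volume) {c0 : ℝ}
    (hs : ∀ τ x, c0 * ‖x‖ ^ 2 ≤ ⟪c • x + g τ x, x⟫) (x : L2 K) :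
    c0 * ‖x‖ ^ 2 ≤ ⟪Nseq c g 0 x, x⟫ := by
  rw [← real_inner_self_eq_norm_sq, L2.inner_def, L2.inner_def, ← integral_const_mul]
  apply integral_mono_ae ((L2.integrable_inner x x).const_mul _) (L2.integrable_inner _ _)
  filter_upwards [coe_N0 c h x] with τ h1
  rw [h1, real_inner_self_eq_norm_sq]
  exact hs τ _

end mult

end Crest.Agent.R213.B
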