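import Crest.Agent.R213.B.TLp

/-!
Row 213, part B1 (helper418).  From the weak equation with test functions to the group form, and
weak derivatives from the generator relation.
-/

set_option autoImplicit false

open Set MeasureTheory Filter Topology
open scoped RealInnerProductSpace ContDiff ENNReal

noncomputable section

namespace Crest.Agent.R213.B

section testfn

variable {X : Type*} [NormedAddCommGroup X] [InnerProductSpace ℝ X]

theorem locInt (f : L2 X) : LocallyIntegrable f (volume : Measure ℝ) :=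
  (Lp.memLp f).locallyIntegrable (by norm_num)

theorem int_smul (f : L2 X) {θ : ℝ → ℝ} (hθ : Continuous θ) (hc : HasCompactSupport θ) :
    Integrable (fun τ => θ τ • f τ) (volume : Measure ℝ) :=
  (locInt f).integrable_smul_left_of_hasCompactSupport hθ hc

theorem int_mul (f : L2 X) {θ : ℝ → ℝ} (hθ : Continuous θ) (hc : HasCompactSupport θ) (p : X) :
    Integrable (fun τ => θ τ * ⟪p, f τ⟫) (volume : Measure ℝ) := by
  have h := (int_smul f hθ hc).const_inner (𝕜 := ℝ) p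
  refine h.congr (Eventually.of_forall fun τ => ?_)
  simp only [real_inner_smul_right]

theorem smooth_smul_const {θ : ℝ → ℝ} (hθ : ContDiff ℝ ∞ θ) (p : X) :
    ContDiff ℝ ∞ (fun τ => θ τ • p) := hθ.smul contDiff_const

theorem cc_smul_const {θ : ℝ → ℝ} (hc : HasCompactSupport θ) (p : X) :
    HasCompactSupport (fun τ => θ τ • p) := hc.smul_right

/-- the test function `θ ⊗ p`. -/
def tf (θ : ℝ → ℝ) (p : X) : L2 X := cl fun τ => θ τ • p

theorem coe_tf {θ : ℝ → ℝ} (hθ : ContDiff ℝ ∞ θ) (hc : HasCompactSupport θ) (p : X) :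
    tf θ p =ᵐ[volume] fun τ => θ τ • p :=
  coe_cl (memLp_cc (smooth_smul_const hθ p) (cc_smul_const hc p))

theorem inner_tf {θ : ℝ → ℝ} (hθ : ContDiff ℝ ∞ θ) (hc : HasCompactSupport θ) (p : X) (f : L2 X) :
    ⟪tf θ p, f⟫ = ∫ τ, θ τ * ⟪p, f τ⟫ := by
  rw [L2.inner_def]
  apply integral_congr_ae
  filter_upwards [coe_tf hθ hc p] with τ h
  rw [h, real_inner_smul_left]

theorem inner_tf' [CompleteSpace X] {θ : ℝ → ℝ} (hθ : ContDiff ℝ ∞ θ) (hc : HasCompactSupport θ)
    (p : X) (f : L2 X) : ⟪tf θ p, f⟫ = ⟪p, ∫ τ, θ τ • f τ⟫ := by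
  rw [inner_tf hθ hc, ← integral_inner (int_smul f hθ.continuous hc)]
  congr 1
  funext τ
  rw [real_inner_smul_right]

/-- vectors orthogonal to all test functions vanish. -/
theorem eq_zero_of_tf [CompleteSpace X] {q : L2 X}
    (h : ∀ θ : ℝ → ℝ, ContDiff ℝ ∞ θ → HasCompactSupport θ → ∀ p : X, ⟪tf θ p, q⟫ = 0) : q = 0 := by
  have h1 : ∀ᵐ τ, (q : ℝ → X) τ = 0 := by
    apply ae_eq_zero_of_integral_contDiff_smul_eq_zero (locInt q)
    intro θ hθ hc
    have h2 : ∀ p : X, ⟪p, ∫ τ, θ τ • q τ⟫ = 0 := fun p => by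
      rw [← inner_tf' hθ hc]; exact h θ hθ hc p
    exact inner_self_eq_zero.1 (h2 _)
  apply Lp.ext
  filter_upwards [h1, Lp.coeFn_zero X 2 (volume : Measure ℝ)] with τ h1 h2
  rw [h1, h2, Pi.zero_apply]

theorem deriv_smul_const {θ : ℝ → ℝ} (hθ : ContDiff ℝ ∞ θ) (p : X) :
    deriv (fun τ => θ τ • p) = fun τ => deriv θ τ • p := by
  funext τ
  exact ((hθ.differentiable (by simp) τ).hasDerivAt.smul_const p).deriv

theorem gen_tf {θ : ℝ → ℝ} (hθ : ContDiff ℝ ∞ θ) (hc : HasCompactSupport θ) (p : X) :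
    (trG X).Gen (tf θ p) (tf (deriv θ) p) := by
  have := gen_cl (smooth_smul_const hθ p) (cc_smul_const hc p)
  rwa [deriv_smul_const hθ] at this

theorem tr_tf {θ : ℝ → ℝ} (hθ : ContDiff ℝ ∞ θ) (hc : HasCompactSupport θ) (p : X) (r : ℝ) :
    tr X r (tf θ p) = tf (fun τ => θ (τ + r)) p :=
  tr_cl (memLp_cc (smooth_smul_const hθ p) (cc_smul_const hc p)) r

theorem lift2_tf {Y : Type*} [NormedAddCommGroup Y] [InnerProductSpace ℝ Y] (L : X →L[ℝ] Y)
    {θ : ℝ → ℝ} (hθ : ContDiff ℝ ∞ θ) (hc : HasCompactSupport θ) (p : X) :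
    lift2 L (tf θ p) = tf θ (L p) := by
  apply Lp.ext
  filter_upwards [coe_lift2 L (tf θ p), coe_tf hθ hc p, coe_tf hθ hc (L p)] with τ h1 h2 h3
  rw [h1, h2, h3, map_smul]

theorem shift_smooth {θ : ℝ → ℝ} (hθ : ContDiff ℝ ∞ θ) (r : ℝ) :
    ContDiff ℝ ∞ (fun τ => θ (τ + r)) := hθ.comp (contDiff_id.add contDiff_const)

theorem shift_cc {θ : ℝ → ℝ} (hc : HasCompactSupport θ) (r : ℝ) :
    HasCompactSupport (fun τ => θ (τ + r)) :=
  hc.comp_homeomorph (Homeomorph.addRight r)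

theorem deriv_shift (θ : ℝ → ℝ) (r : ℝ) :
    deriv (fun τ => θ (τ + r)) = fun τ => deriv θ (τ + r) := by
  funext τ
  exact deriv_comp_add_const θ r τ

/-- The generator relation gives the weak derivative. -/
theorem weak_of_gen [CompleteSpace X] {x y : L2 X} (h : (trG X).Gen x y) {θ : ℝ → ℝ}
    (hθ : ContDiff ℝ ∞ θ) (hc : HasCompactSupport θ) :
    ∫ τ, deriv θ τ • x τ = - ∫ τ, θ τ • y τ := by
  have key : ∀ p : X, ⟪tf θ p, y⟫ = -⟪tf (deriv θ) p, x⟫ := by
    intro p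
    have h1 : HasDerivAt (fun r => ⟪tf θ p, (trG X).T r x⟫) ⟪tf θ p, y⟫ 0 := by
      have := (hasDerivAt_const (0 : ℝ) (tf θ p)).inner ℝ h.zero
      simpa using this
    have h2 : HasDerivAt (fun r : ℝ => ⟪(trG X).T (-r) (tf θ p), x⟫) (-⟪tf (deriv θ) p, x⟫) 0 := by
      have h3 : HasDerivAt (fun r : ℝ => (trG X).T (-r) (tf θ p)) (-(tf (deriv θ) p)) 0 := by
        have h4 : HasDerivAt (fun r => (trG X).T r (tf θ p)) (tf (deriv θ) p) (-0) := by
          rw [neg_zero]; exact (gen_tf hθ hc p).zero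
        have h5 := HasDerivAt.scomp (h := fun s : ℝ => -s) (0 : ℝ) h4 (hasDerivAt_neg (0 : ℝ))
        simpa [Function.comp_def] using h5
      have := h3.inner ℝ (hasDerivAt_const (0 : ℝ) x)
      simpa [inner_neg_left] using this
    have h3 : (fun r : ℝ => ⟪(trG X).T (-r) (tf θ p), x⟫) = fun r => ⟪tf θ p, (trG X).T r x⟫ := by
      funext r
      rw [(trG X).inner_T_left, neg_neg]
    rw [h3] at h2
    exact h1.unique h2
  refine ext_inner_left ℝ fun p => ?_
  rw [inner_neg_right, ← inner_tf' hθ hc, key p, neg_neg,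
    inner_tf' (deriv_smooth hθ) hc.deriv]

end testfn

section weq

variable {V H K : Type*} [NormedAddCommGroup V] [InnerProductSpace ℝ V] [CompleteSpace V]
    [NormedAddCommGroup H] [InnerProductSpace ℝ H] [CompleteSpace H]
    [NormedAddCommGroup K] [InnerProductSpace ℝ K] [CompleteSpace K]

/-- From test functions to the group form of the equation. -/
theorem weq_of_weak (J : V →L[ℝ] H) (B : V →L[ℝ] K) {v : L2 V} {P : L2 K} {F : L2 H}
    (h : ∀ θ : ℝ → ℝ, ContDiff ℝ ∞ θ → HasCompactSupport θ → ∀ p : V,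
      ∫ τ, deriv θ τ * ⟪J p, J (v τ)⟫ =
        -((∫ τ, θ τ * ⟪B p, P τ⟫) - ∫ τ, θ τ * ⟪J p, F τ⟫)) :
    WEq (trG H) (trG K) (lift2 J) (lift2 B) v P F := by
  set JJ : L2 V →L[ℝ] L2 H := lift2 J with hJJ
  set BB : L2 V →L[ℝ] L2 K := lift2 B with hBB
  have hJc : Continuous fun s => (trG H).T s F := (trG H).cont F
  -- the equation for test functions
  have h0 : ∀ (θ : ℝ → ℝ), ContDiff ℝ ∞ θ → HasCompactSupport θ → ∀ p : V,
      ⟪JJ (tf (deriv θ) p), JJ v⟫ = -(⟪BB (tf θ p), P⟫ - ⟪JJ (tf θ p), F⟫) := by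
    intro θ hθ hc p
    rw [hJJ, hBB, lift2_tf J (deriv_smooth hθ) hc.deriv, lift2_tf B hθ hc, lift2_tf J hθ hc,
      inner_tf (deriv_smooth hθ) hc.deriv, inner_tf hθ hc, inner_tf hθ hc, ← h θ hθ hc p]
    apply integral_congr_ae
    filter_upwards [coe_lift2 J v] with τ h1
    rw [h1]
  have h1 : ∀ (θ : ℝ → ℝ), ContDiff ℝ ∞ θ → HasCompactSupport θ → ∀ (p : V) (r : ℝ),
      HasDerivAt (fun r => ⟪JJ (tf θ p), (trG H).T r (JJ v)⟫)
        (⟪BB (tf θ p), (trG K).T r P⟫ - ⟪JJ (tf θ p), (trG H).T r F⟫) r := by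
    intro θ hθ hc p r
    have a1 : (trG H).Gen (JJ (tf θ p)) (JJ (tf (deriv θ) p)) :=
      (gen_tf hθ hc p).map (G' := trG H) (fun r x => lift2_tr J r x)
    have a2 : HasDerivAt (fun r : ℝ => (trG H).T (-r) (JJ (tf θ p)))
        (-((trG H).T (-r) (JJ (tf (deriv θ) p)))) r := by
      have h5 := HasDerivAt.scomp (h := fun s : ℝ => -s) r (a1 (-r)) (hasDerivAt_neg r)
      simpa [Function.comp_def] using h5
    have a3 : HasDerivAt (fun r : ℝ => ⟪(trG H).T (-r) (JJ (tf θ p)), JJ v⟫)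
        (-⟪(trG H).T (-r) (JJ (tf (deriv θ) p)), JJ v⟫) r := by
      have := a2.inner ℝ (hasDerivAt_const r (JJ v))
      simpa [inner_neg_left] using this
    have a4 : (fun r : ℝ => ⟪(trG H).T (-r) (JJ (tf θ p)), JJ v⟫) =
        fun r => ⟪JJ (tf θ p), (trG H).T r (JJ v)⟫ := by
      funext r
      rw [(trG H).inner_T_left, neg_neg]
    rw [a4] at a3
    have a5 : -⟪(trG H).T (-r) (JJ (tf (deriv θ) p)), JJ v⟫ =
        ⟪BB (tf θ p), (trG K).T r P⟫ - ⟪JJ (tf θ p), (trG H).T r F⟫ := by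
      have b1 : (trG H).T (-r) (JJ (tf (deriv θ) p)) =
          JJ (tf (deriv fun τ => θ (τ + -r)) p) := by
        rw [deriv_shift, ← tr_tf (deriv_smooth hθ) hc.deriv]
        exact (lift2_tr J _ _).symm
      have b2 : ⟪BB (tf θ p), (trG K).T r P⟫ = ⟪BB (tf (fun τ => θ (τ + -r)) p), P⟫ := by
        rw [← tr_tf hθ hc]
        have : BB (tr V (-r) (tf θ p)) = (trG K).T (-r) (BB (tf θ p)) := lift2_tr B _ _
        rw [this, (trG K).inner_T_left, neg_neg]
      have b3 : ⟪JJ (tf θ p), (trG H).T r F⟫ = ⟪JJ (tf (fun τ => θ (τ + -r)) p), F⟫ := by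
        rw [← tr_tf hθ hc]
        have : JJ (tr V (-r) (tf θ p)) = (trG H).T (-r) (JJ (tf θ p)) := lift2_tr J _ _
        rw [this, (trG H).inner_T_left, neg_neg]
      rw [b1, b2, b3, h0 _ (shift_smooth hθ (-r)) (shift_cc hc (-r)) p, neg_neg]
    rw [a5] at a3
    exact a3
  -- the vector representing the equation
  set AJ : L2 H →L[ℝ] L2 V := ContinuousLinearMap.adjoint JJ with hAJ
  set AB : L2 K →L[ℝ] L2 V := ContinuousLinearMap.adjoint BB with hAB
  set φ : ℝ → L2 V := fun s => AB ((trG K).T s P) - AJ ((trG H).T s F) with hφ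
  have hφc : Continuous φ :=
    (AB.continuous.comp ((trG K).cont P)).sub (AJ.continuous.comp ((trG H).cont F))
  have hφi : ∀ (y : L2 V) s, ⟪y, φ s⟫ = ⟪BB y, (trG K).T s P⟫ - ⟪JJ y, (trG H).T s F⟫ := by
    intro y s
    rw [hφ, inner_sub_right, ContinuousLinearMap.adjoint_inner_right,
      ContinuousLinearMap.adjoint_inner_right]
  have hq : ∀ r : ℝ, AJ ((trG H).T r (JJ v)) = AJ (JJ v) + ∫ s in (0 : ℝ)..r, φ s := by
    intro r
    rw [← sub_eq_zero]
    apply eq_zero_of_tf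
    intro θ hθ hc p
    have c1 : ∫ s in (0 : ℝ)..r, ⟪tf θ p, φ s⟫ =
        ⟪JJ (tf θ p), (trG H).T r (JJ v)⟫ - ⟪JJ (tf θ p), (trG H).T 0 (JJ v)⟫ := by
      apply intervalIntegral.integral_eq_sub_of_hasDerivAt
      · intro s _
        have := h1 θ hθ hc p s
        rwa [← hφi] at this
      · exact (continuous_const.inner hφc).intervalIntegrable _ _
    have c2 : ⟪tf θ p, ∫ s in (0 : ℝ)..r, φ s⟫ = ∫ s in (0 : ℝ)..r, ⟪tf θ p, φ s⟫ := by
      have := ((innerSL ℝ (tf θ p)).intervalIntegral_comp_comm (μ := volume)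
        (hφc.intervalIntegrable 0 r))
      simp only [innerSL_apply_apply] at this
      exact this.symm
    rw [inner_sub_right, inner_add_right, c2, c1, ContinuousLinearMap.adjoint_inner_right,
      ContinuousLinearMap.adjoint_inner_right, (trG H).T_zero]
    ring
  intro y r
  have d1 : (fun r => ⟪JJ y, (trG H).T r (JJ v)⟫) =
      fun r => ⟪y, AJ (JJ v) + ∫ s in (0 : ℝ)..r, φ s⟫ := by
    funext r
    rw [← hq r, ContinuousLinearMap.adjoint_inner_right]
  rw [d1, ← hφi]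
  have d2 : HasDerivAt (fun r => AJ (JJ v) + ∫ s in (0 : ℝ)..r, φ s) (φ r) r :=
    (intervalIntegral.integral_hasDerivAt_right (hφc.intervalIntegrable 0 r)
      (hφc.stronglyMeasurableAtFilter _ _) hφc.continuousAt).const_add _
  have := (hasDerivAt_const r y).inner ℝ d2
  simpa using this

end weq

end Crest.Agent.R213.B
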