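import Mathlib

/-!
Row 213, part B1: statement of the abstract time regularity theorem (helper418).
Consumers (B2, B3) may use `time_reg` with exactly this statement; the proof will be in
`Crest/Agent/R213/B/TimeReg.lean` (theorem `Crest.Agent.R213.B.time_reg`).  NEVER import this file.
-/

set_option autoImplicit false

open Set MeasureTheory Filter Topology
open scoped RealInnerProductSpace ContDiff

noncomputable section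

namespace Crest.Agent.R213.B.Iface

theorem time_reg {V H K : Type} [NormedAddCommGroup V] [InnerProductSpace ℝ V] [CompleteSpace V]
    [NormedAddCommGroup H] [InnerProductSpace ℝ H] [CompleteSpace H]
    [NormedAddCommGroup K] [InnerProductSpace ℝ K] [CompleteSpace K]
    (J : V →L[ℝ] H) (B : V →L[ℝ] K) {C : ℝ} (hJB : ∀ v, ‖v‖ ^ 2 ≤ C * (‖J v‖ ^ 2 + ‖B v‖ ^ 2))
    {N : ℝ → K →L[ℝ] K} (hN : ContDiffOn ℝ ∞ N (Ioo 0 1))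
    (hNs : ∀ τ ∈ Ioo (0 : ℝ) 1, ∀ x y, ⟪N τ x, y⟫ = ⟪x, N τ y⟫)
    {c : ℝ} (hc : 0 < c) (hNc : ∀ τ ∈ Ioo (0 : ℝ) 1, ∀ x, c * ‖x‖ ^ 2 ≤ ⟪N τ x, x⟫)
    {E : ℝ → H} (hE : ContDiffOn ℝ ∞ E (Ioo 0 1)) {R : ℝ → K} (hR : ContDiffOn ℝ ∞ R (Ioo 0 1))
    {w : ℝ → V} (hw : ∀ a b : ℝ, 0 < a → b < 1 → MemLp w 2 (volume.restrict (Icc a b)))
    (hweak : ∀ χ : ℝ → ℝ, ContDiff ℝ ∞ χ → HasCompactSupport χ → tsupport χ ⊆ Ioo 0 1 → ∀ v : V,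
      ∫ τ, (deriv χ τ * ⟪J v, J (w τ)⟫ + χ τ * ⟪B v, N τ (B (w τ))⟫) =
        ∫ τ, χ τ * (⟪E τ, J v⟫ + ⟪R τ, B v⟫)) :
    ∃ w' : ℝ → V, ContDiffOn ℝ ∞ w' (Ioo 0 1) ∧ (∀ᵐ τ, τ ∈ Ioo (0 : ℝ) 1 → w' τ = w τ) ∧
      ∀ τ ∈ Ioo (0 : ℝ) 1, ∀ v : V,
        -⟪J v, J (deriv w' τ)⟫ + ⟪B v, N τ (B (w' τ))⟫ = ⟪E τ, J v⟫ + ⟪R τ, B v⟫ := by
  sorry

end Crest.Agent.R213.B.Iface
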