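import Crest.Agent.R213.J0

/-!
# Row 213, Part B, x-regularity: curves in `C([0,L])`

`Co L u`: for `τ ∈ (0,1)` the function `u τ` on the OPEN interval `(0,L)` extends continuously to `[0,L]`,
and the extension is a `C^∞` curve `(0,1) → C([0,L])` (sup norm).
`Cv L u`: the same, with equality on the closed interval.
-/

set_option autoImplicit false

open Set MeasureTheory Filter Topology

noncomputable section

namespace Crest.Agent.R213.B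

/-- the extension to `[0,L]` of `u τ` (`x ∈ (0,L)`) is a `C^∞` curve in `C([0,L])`. -/
def Co (L : ℝ) (u : ℝ → ℝ → ℝ) : Prop :=
  ∃ U : ℝ → C(Icc (0 : ℝ) L, ℝ), ContDiffOn ℝ (⊤ : ℕ∞) U (Ioo 0 1) ∧
    ∀ τ ∈ Ioo (0 : ℝ) 1, ∀ x : Icc (0 : ℝ) L, (x : ℝ) ∈ Ioo 0 L → U τ x = u τ x

/-- `u τ` is a `C^∞` curve in `C([0,L])`. -/
def Cv (L : ℝ) (u : ℝ → ℝ → ℝ) : Prop :=
  ∃ U : ℝ → C(Icc (0 : ℝ) L, ℝ), ContDiffOn ℝ (⊤ : ℕ∞) U (Ioo 0 1) ∧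
    ∀ τ ∈ Ioo (0 : ℝ) 1, ∀ x : Icc (0 : ℝ) L, U τ x = u τ x

/-- `u` and its `x`-derivatives up to order `k` are `C^∞` curves in `C([0,L])`. -/
def CvK (L : ℝ) : ℕ → (ℝ → ℝ → ℝ) → Prop
  | 0, u => Cv L u
  | k + 1, u => Cv L u ∧ ∃ u' : ℝ → ℝ → ℝ, CvK L k u' ∧
      ∀ τ ∈ Ioo (0 : ℝ) 1, ∀ x ∈ Icc (0 : ℝ) L, HasDerivWithinAt (u τ) (u' τ x) (Icc 0 L) x

end Crest.Agent.R213.B
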